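import Claimed.Agent.R309.S34.L2

/-!
# Row 309, S34, package **S34-D2 (Bdry)**: general API for `C : Cpt 𝔖`; the boundary is a nondegenerate continuum (Lemma 3.5).

Statements: helper146 (sub-captain).  OWNER: helper48.  Sorry free.
This API is used by S34-D3, E*, F* and may be used by S5, S6, S7.
-/

set_option autoImplicit false

namespace Claimed.Agent.R309

open Filter Topology Set

variable {Γ : Type} [Group Γ] {𝔖 : GenSet Γ}

/-! ### the action and the boundary -/

theorem Cpt.isOpen_range (C : Cpt 𝔖) : IsOpen (range C.ι) := by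
  have h : range C.ι = ⋃ g, {C.ι g} := by
    ext x
    simp [eq_comm]
  rw [h]
  exact isOpen_iUnion C.ι_isolated

theorem Cpt.isClosed_B (C : Cpt 𝔖) : IsClosed C.B := C.isOpen_range.isClosed_compl

theorem Cpt.ι_not_mem_B (C : Cpt 𝔖) (v : Γ) : C.ι v ∉ C.B := fun h => h (mem_range_self v)

theorem Cpt.smul_ι (C : Cpt 𝔖) (g v : Γ) : g • C.ι v = C.ι (g * v) := (C.ι_mul g v).symm

theorem Cpt.smul_mem_B_iff (C : Cpt 𝔖) (g : Γ) (x : C.X) : g • x ∈ C.B ↔ x ∈ C.B := by
  unfold Cpt.B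
  rw [mem_compl_iff, mem_compl_iff, not_iff_not]
  constructor
  · rintro ⟨v, hv⟩
    exact ⟨g⁻¹ * v, by rw [C.ι_mul, hv, inv_smul_smul]⟩
  · rintro ⟨v, rfl⟩
    exact ⟨g * v, C.ι_mul g v⟩

/-! ### vertices accumulate exactly on the boundary -/

/-- a family of vertices converging to a boundary point leaves every finite set -/
theorem Cpt.tendsto_cofinite {α : Type} (C : Cpt 𝔖) {l : Filter α} {u : α → Γ} {x : C.X} (hx : x ∈ C.B)
    (h : Tendsto (fun n => C.ι (u n)) l (𝓝 x)) : Tendsto u l cofinite := by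
  rw [Tendsto, le_cofinite_iff_eventually_ne]
  intro v
  rw [eventually_map]
  have hne : x ≠ C.ι v := fun hxv => C.ι_not_mem_B v (hxv ▸ hx)
  have h1 : ∀ᶠ n in l, C.ι (u n) ∈ ({C.ι v}ᶜ : Set C.X) := h.eventually (isOpen_compl_singleton.mem_nhds hne)
  filter_upwards [h1] with n hn hnv
  exact hn (by rw [hnv]; rfl)

/-- every boundary point is the limit of a sequence of vertices (`ι_dense`, first countability) -/
theorem Cpt.exists_seq (C : Cpt 𝔖) (x : C.X) : ∃ u : ℕ → Γ, Tendsto (fun n => C.ι (u n)) atTop (𝓝 x) := by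
  have hx : x ∈ closure (range C.ι) := C.ι_dense x
  obtain ⟨y, hy, hyx⟩ := mem_closure_iff_seq_limit.1 hx
  choose u hu using hy
  refine ⟨u, ?_⟩
  simpa [hu] using hyx

/-- the limit of a sequence of vertices which leaves every finite set lies in the boundary -/
theorem Cpt.mem_B_of_tendsto {α : Type} (C : Cpt 𝔖) {l : Filter α} [l.NeBot] {u : α → Γ} {x : C.X} (hu : Tendsto u l cofinite)
    (h : Tendsto (fun n => C.ι (u n)) l (𝓝 x)) : x ∈ C.B := by
  rintro ⟨v, rfl⟩
  have h1 : ∀ᶠ n in l, C.ι (u n) ∈ ({C.ι v} : Set C.X) := h.eventually ((C.ι_isolated v).mem_nhds rfl)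
  rw [Tendsto, le_cofinite_iff_eventually_ne] at hu
  have h2 := hu v
  rw [eventually_map] at h2
  obtain ⟨n, hn1, hn2⟩ := (h1.and h2).exists
  exact hn2 (C.ι_inj hn1)

/-- compactness: a sequence of vertices which leaves every finite set subconverges to a boundary point -/
theorem Cpt.exists_subseq (C : Cpt 𝔖) {u : ℕ → Γ} (hu : Tendsto u atTop cofinite) :
    ∃ x ∈ C.B, ∃ φ : ℕ → ℕ, StrictMono φ ∧ Tendsto (fun n => C.ι (u (φ n))) atTop (𝓝 x) := by
  obtain ⟨x, φ, hφ, hx⟩ := CompactSpace.tendsto_subseq (fun n => C.ι (u n))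
  exact ⟨x, C.mem_B_of_tendsto (u := fun n => u (φ n)) (hu.comp hφ.tendsto_atTop) hx, φ, hφ, hx⟩

/-- a closed set which misses the boundary contains only finitely many vertices -/
theorem Cpt.finite_of_isClosed (C : Cpt 𝔖) {A : Set C.X} (hA : IsClosed A) (hAB : Disjoint A C.B) : {v : Γ | C.ι v ∈ A}.Finite := by
  have hcov : A ⊆ ⋃ v, ({C.ι v} : Set C.X) := by
    intro a ha
    have : a ∈ range C.ι := by
      by_contra hn
      exact (Set.disjoint_left.1 hAB ha) hn
    obtain ⟨v, rfl⟩ := this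
    exact mem_iUnion.2 ⟨v, rfl⟩
  obtain ⟨t, ht⟩ := hA.isCompact.elim_finite_subcover _ C.ι_isolated hcov
  refine t.finite_toSet.subset ?_
  intro v hv
  obtain ⟨w, hw⟩ := mem_iUnion.1 (ht hv)
  obtain ⟨hwt, hw2⟩ := mem_iUnion.1 hw
  have : v = w := C.ι_inj hw2
  exact this ▸ hwt

/-- a neighbourhood of the boundary contains all but finitely many vertices -/
theorem Cpt.eventually_of_nhds_B (C : Cpt 𝔖) {W : Set C.X} (hW : IsOpen W) (hBW : C.B ⊆ W) : ∀ᶠ v : Γ in cofinite, C.ι v ∈ W := by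
  rw [eventually_cofinite]
  exact C.finite_of_isClosed hW.isClosed_compl (Set.disjoint_left.2 fun a ha hb => ha (hBW hb))

/-- every neighbourhood of a boundary point contains infinitely many vertices -/
theorem Cpt.infinite_of_nhds (C : Cpt 𝔖) {x : C.X} (hx : x ∈ C.B) {W : Set C.X} (hW : W ∈ 𝓝 x) : {v : Γ | C.ι v ∈ W}.Infinite := by
  intro hfin
  have hF : (C.ι '' {v : Γ | C.ι v ∈ W}).Finite := hfin.image _
  have hxF : x ∉ C.ι '' {v : Γ | C.ι v ∈ W} := by
    rintro ⟨v, -, rfl⟩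
    exact C.ι_not_mem_B v hx
  have hW' : W ∩ (C.ι '' {v : Γ | C.ι v ∈ W})ᶜ ∈ 𝓝 x := inter_mem hW (hF.isClosed.isOpen_compl.mem_nhds hxF)
  obtain ⟨y, hy, v, rfl⟩ := mem_closure_iff_nhds.1 (C.ι_dense x) _ hW'
  exact hy.2 ⟨v, hy.1, rfl⟩

theorem Cpt.B_nonempty (C : Cpt 𝔖) [Infinite Γ] : C.B.Nonempty := by
  by_contra hn
  rw [Set.not_nonempty_iff_eq_empty] at hn
  have h := C.finite_of_isClosed (A := univ) isClosed_univ (by rw [hn]; exact disjoint_empty _)
  exact (Set.infinite_univ (α := Γ)) (h.subset fun v _ => mem_univ _)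

/-! ### coordinates and the metric -/

/-- two continuous functions which agree on the vertices are equal -/
theorem Cpt.ext_of_vertices {Y : Type} [TopologicalSpace Y] [T2Space Y] (C : Cpt 𝔖) {φ ψ : C.X → Y} (hφ : Continuous φ)
    (hψ : Continuous ψ) (h : ∀ v, φ (C.ι v) = ψ (C.ι v)) : φ = ψ :=
  C.ι_dense.equalizer hφ hψ (funext h)

/-- an inequality between continuous functions which holds on the vertices holds everywhere -/
theorem Cpt.le_of_vertices (C : Cpt 𝔖) {φ ψ : C.X → ℝ} (hφ : Continuous φ) (hψ : Continuous ψ)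
    (h : ∀ v, φ (C.ι v) ≤ ψ (C.ι v)) (x : C.X) : φ x ≤ ψ x :=
  C.ι_dense.induction_on (p := fun x => φ x ≤ ψ x) x (isClosed_le hφ hψ) h

/-- the coordinates separate points -/
theorem Cpt.exists_coord_ne (C : Cpt 𝔖) {x y : C.X} (h : x ≠ y) : ∃ j, C.coord j x ≠ C.coord j y := by
  by_contra hn
  simp only [not_exists, not_not] at hn
  apply h
  rw [← dist_eq_zero, C.dist_eq]
  simp [hn]

theorem Cpt.bd_abs_coord_le (C : Cpt 𝔖) (j : ℕ) (x y : C.X) : |C.coord j x - C.coord j y| ≤ 1 := by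
  have h1 := C.coord_mem j x
  have h2 := C.coord_mem j y
  rw [abs_le]
  constructor <;> linarith [h1.1, h1.2, h2.1, h2.2]

theorem Cpt.bd_summable_dist (C : Cpt 𝔖) (x y : C.X) : Summable fun j => C.wt j * |C.coord j x - C.coord j y| := by
  refine Summable.of_nonneg_of_le (fun j => mul_nonneg (C.wt_pos j).le (abs_nonneg _)) (fun j => ?_) C.wt_summable
  calc C.wt j * |C.coord j x - C.coord j y| ≤ C.wt j * 1 :=
        mul_le_mul_of_nonneg_left (C.bd_abs_coord_le j x y) (C.wt_pos j).le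
    _ = C.wt j := mul_one _

/-- one coordinate is controlled by the distance -/
theorem Cpt.bd_wt_mul_le_dist (C : Cpt 𝔖) (j : ℕ) (x y : C.X) : C.wt j * |C.coord j x - C.coord j y| ≤ dist x y := by
  rw [C.dist_eq]
  exact (C.bd_summable_dist x y).le_tsum j (fun i _ => mul_nonneg (C.wt_pos i).le (abs_nonneg _))

/-- basic neighbourhoods: finitely many coordinates, one tolerance (tail of `wt` small, `|coord| ≤ 1`) -/
theorem Cpt.exists_basic_nhds (C : Cpt 𝔖) {x : C.X} {W : Set C.X} (hW : W ∈ 𝓝 x) :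
    ∃ (J : Finset ℕ) (ε : ℝ), 0 < ε ∧ ∀ y, (∀ j ∈ J, |C.coord j y - C.coord j x| < ε) → y ∈ W := by
  classical
  obtain ⟨r, hr, hrW⟩ := Metric.mem_nhds_iff.1 hW
  set T : ℝ := ∑' j, C.wt j with hT
  have hT0 : 0 ≤ T := tsum_nonneg fun j => (C.wt_pos j).le
  have hsum : HasSum C.wt T := C.wt_summable.hasSum
  have hev : ∀ᶠ J : Finset ℕ in atTop, ∑ j ∈ J, C.wt j ∈ Ioi (T - r / 2) :=
    hsum.eventually (Ioi_mem_nhds (by linarith))
  obtain ⟨J, hJ⟩ := hev.exists
  refine ⟨J, r / (2 * (T + 1)), by positivity, fun y hy => hrW ?_⟩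
  set ε : ℝ := r / (2 * (T + 1)) with hε
  have hε0 : 0 < ε := by positivity
  rw [Metric.mem_ball, C.dist_eq]
  have hind : Summable ((↑J : Set ℕ)ᶜ.indicator C.wt) := C.wt_summable.indicator _
  have hle : ∀ j, C.wt j * |C.coord j y - C.coord j x| ≤ ε * C.wt j + (↑J : Set ℕ)ᶜ.indicator C.wt j := by
    intro j
    by_cases hj : j ∈ J
    · rw [Set.indicator_of_notMem (by simpa using hj), add_zero, mul_comm]
      exact mul_le_mul_of_nonneg_right (hy j hj).le (C.wt_pos j).le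
    · rw [Set.indicator_of_mem (by simpa using hj)]
      have h1 : C.wt j * |C.coord j y - C.coord j x| ≤ C.wt j * 1 :=
        mul_le_mul_of_nonneg_left (C.bd_abs_coord_le j y x) (C.wt_pos j).le
      have h2 : 0 ≤ ε * C.wt j := mul_nonneg hε0.le (C.wt_pos j).le
      linarith
  have h1 : ∑' j, C.wt j * |C.coord j y - C.coord j x| ≤ ∑' j, (ε * C.wt j + (↑J : Set ℕ)ᶜ.indicator C.wt j) :=
    (C.bd_summable_dist y x).tsum_le_tsum hle ((C.wt_summable.mul_left ε).add hind)
  have h2 : ∑' j, (ε * C.wt j + (↑J : Set ℕ)ᶜ.indicator C.wt j) = ε * T + (T - ∑ j ∈ J, C.wt j) := by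
    have h5 : ∑ j ∈ J, C.wt j + ∑' j : ((↑J : Set ℕ)ᶜ : Set ℕ), C.wt j = T := C.wt_summable.sum_add_tsum_compl (s := J)
    rw [(C.wt_summable.mul_left ε).tsum_add hind, tsum_mul_left, ← tsum_subtype]
    linarith
  have h3 : ε * T < r / 2 := by
    rw [hε, div_mul_eq_mul_div, div_lt_div_iff₀ (by positivity) (by norm_num)]
    nlinarith
  have h4 : T - r / 2 < ∑ j ∈ J, C.wt j := hJ
  linarith

theorem Cpt.lam_nonneg (C : Cpt 𝔖) (e : 𝔖.Edge) : 0 ≤ C.lam e := dist_nonneg

theorem Cpt.lam_sq' (C : Cpt 𝔖) : Summable fun e : 𝔖.Edge => C.lam e ^ 2 := C.lam_sq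

/-- only finitely many long edges (`l2_finite_ge`) -/
theorem Cpt.lam_finite_ge (C : Cpt 𝔖) {ε : ℝ} (hε : 0 < ε) : {e : 𝔖.Edge | ε ≤ C.lam e}.Finite := by
  refine (l2_finite_ge C.lam_sq' hε).subset ?_
  intro e he
  show ε ≤ |C.lam e|
  rw [abs_of_nonneg (C.lam_nonneg e)]
  exact he

/-! ### Lemma 3.5 -/

/-- **connectedness.**  If `B ⊆ u ∪ v`, `u, v` open, `B ∩ u`, `B ∩ v` nonempty, `B ∩ u ∩ v = ∅`: `B₁ := B \ v`, `B₂ := B \ u` are disjoint compact sets;
`Disjoint.exists_thickenings` gives `δ`; `N_k := thickening (δ/2) B_k`; an edge from `N₁` to `N₂` has length `≥ δ/2`.  `W := {v | ι v ∈ N₁}`.  An edge leaving `W` is long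
(finitely many, `lam_finite_ge`) or ends in the finite vertex set of the closed set `(N₁ ∪ N₂)ᶜ` (`finite_of_isClosed`, `edges_at_finite`).  By `OneEnded`, `W` or `Wᶜ` is finite;
both are infinite (`infinite_of_nhds`). -/
theorem Cpt.boundary_conn (C : Cpt 𝔖) [Infinite Γ] (h1 : OneEnded 𝔖) : IsConnected C.B := by
  refine ⟨C.B_nonempty, ?_⟩
  rw [isPreconnected_closed_iff]
  intro t t' ht ht' hcov hne hne'
  by_contra hcon
  have hdisj : Disjoint (C.B ∩ t) (C.B ∩ t') := by
    rw [Set.disjoint_left]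
    intro a ha ha'
    exact hcon ⟨a, ha.1, ha.2, ha'.2⟩
  have hc1 : IsClosed (C.B ∩ t) := C.isClosed_B.inter ht
  have hc2 : IsClosed (C.B ∩ t') := C.isClosed_B.inter ht'
  obtain ⟨δ, hδ, hδd⟩ := hdisj.exists_thickenings hc1.isCompact hc2
  set N₁ := Metric.thickening (δ / 2) (C.B ∩ t) with hN₁
  set N₂ := Metric.thickening (δ / 2) (C.B ∩ t') with hN₂
  have hsub1 : N₁ ⊆ Metric.thickening δ (C.B ∩ t) := Metric.thickening_mono (by linarith) _
  have hsub2 : N₂ ⊆ Metric.thickening δ (C.B ∩ t') := Metric.thickening_mono (by linarith) _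
  have hN12 : Disjoint N₁ N₂ := hδd.mono hsub1 hsub2
  have hBN : C.B ⊆ N₁ ∪ N₂ := by
    intro x hx
    rcases hcov hx with h | h
    · exact Or.inl (Metric.self_subset_thickening (by linarith) _ ⟨hx, h⟩)
    · exact Or.inr (Metric.self_subset_thickening (by linarith) _ ⟨hx, h⟩)
  have hopen : IsOpen (N₁ ∪ N₂) := Metric.isOpen_thickening.union Metric.isOpen_thickening
  have hFfin : {v : Γ | C.ι v ∈ (N₁ ∪ N₂)ᶜ}.Finite :=
    C.finite_of_isClosed hopen.isClosed_compl (Set.disjoint_left.2 fun a ha hb => ha (hBN hb))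
  set W : Set Γ := {v | C.ι v ∈ N₁} with hW
  have hbd : {e : 𝔖.Edge | esrc e ∈ W ∧ etgt e ∉ W}.Finite := by
    refine ((C.lam_finite_ge (ε := δ / 2) (by linarith)).union (edges_at_finite _ hFfin)).subset ?_
    rintro e ⟨he1, he2⟩
    by_cases h2 : C.ι (etgt e) ∈ N₂
    · left
      show δ / 2 ≤ C.lam e
      by_contra hlt
      rw [not_le] at hlt
      obtain ⟨z, hz, hzd⟩ := Metric.mem_thickening_iff.1 he1
      have : C.ι (etgt e) ∈ Metric.thickening δ (C.B ∩ t) := by
        rw [Metric.mem_thickening_iff]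
        refine ⟨z, hz, ?_⟩
        have h3 : dist (C.ι (etgt e)) (C.ι (esrc e)) < δ / 2 := by
          rw [dist_comm]
          exact hlt
        calc dist (C.ι (etgt e)) z ≤ dist (C.ι (etgt e)) (C.ι (esrc e)) + dist (C.ι (esrc e)) z := dist_triangle _ _ _
          _ < δ := by linarith
      exact Set.disjoint_left.1 hδd this (hsub2 h2)
    · right
      right
      show C.ι (etgt e) ∈ (N₁ ∪ N₂)ᶜ
      rintro (h | h)
      · exact he2 h
      · exact h2 h
  obtain ⟨x₁, hx₁⟩ := hne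
  obtain ⟨x₂, hx₂⟩ := hne'
  have hinf1 : W.Infinite :=
    C.infinite_of_nhds hx₁.1 (Metric.isOpen_thickening.mem_nhds (Metric.self_subset_thickening (by linarith) _ hx₁))
  have hinf2 : {v : Γ | C.ι v ∈ N₂}.Infinite :=
    C.infinite_of_nhds hx₂.1 (Metric.isOpen_thickening.mem_nhds (Metric.self_subset_thickening (by linarith) _ hx₂))
  rcases h1 W hbd with h | h
  · exact hinf1 h
  · exact hinf2 (h.subset fun v hv hvW => Set.disjoint_left.1 hN12 hvW hv)

/-- **nondegeneracy.**  If `B = {x}` then `{y | ε ≤ |coord j y - coord j x|}` is closed and misses `B`, so it contains finitely many vertices. -/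
theorem Cpt.boundary_nontrivial (C : Cpt 𝔖) [Infinite Γ] (j : ℕ) (hj : ¬ ∃ c : ℝ, Tendsto (C.vc j) cofinite (𝓝 c)) :
    C.B.Nontrivial := by
  by_contra hn
  rw [Set.not_nontrivial_iff] at hn
  obtain ⟨x, hx⟩ := C.B_nonempty
  apply hj
  refine ⟨C.coord j x, ?_⟩
  rw [Metric.tendsto_nhds]
  intro ε hε
  rw [eventually_cofinite]
  have hcl : IsClosed {y : C.X | ε ≤ |C.coord j y - C.coord j x|} :=
    isClosed_le continuous_const ((C.coord_cont j).sub continuous_const).abs
  have hdis : Disjoint {y : C.X | ε ≤ |C.coord j y - C.coord j x|} C.B := by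
    rw [Set.disjoint_left]
    intro y hy hyB
    have hyx : y = x := hn hyB hx
    subst hyx
    have hy' : ε ≤ |C.coord j y - C.coord j y| := hy
    simp at hy'
    linarith
  refine (C.finite_of_isClosed hcl hdis).subset ?_
  intro v hv
  have hv' : ¬ dist (C.vc j v) (C.coord j x) < ε := hv
  rw [not_lt, Real.dist_eq] at hv'
  exact hv'

/-- a nondegenerate continuum is infinite (`IsPreconnected.infinite_of_nontrivial`) -/
theorem Cpt.B_infinite (C : Cpt 𝔖) (hc : IsConnected C.B) (hn : C.B.Nontrivial) : C.B.Infinite :=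
  hc.isPreconnected.infinite_of_nontrivial hn

end Claimed.Agent.R309
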