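import Claimed.Agent.R309.S34.Box3

/-!
# Row 309, S34, package **S34-C1 (Box1)**: a countable invariant basis of good boxes (Lemma 3.3, first and third assertion).

Owner: helper146.  DONE (sorry-free; uses `Graph.lean`, `L2.lean`, `Pot2.lean`, `Box3.lean` as black boxes).  Prefix `b1_`.

DESIGN (simpler than the paper): ONE countable dense set `T` of levels such that all levels of `T` are regular for all base coordinates and any two cuts
of base coordinates at two DIFFERENT levels of `T` interact finitely.  `𝒪` := all boxes whose endpoints are pairwise different elements of `T`.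
Then invariance is trivial (translation does not change the endpoints).  Only the one-dimensional coarea formula is used.
-/

set_option autoImplicit false

namespace Claimed.Agent.R309

open Filter Topology Set MeasureTheory

variable {Γ : Type} [Group Γ] {𝔖 : GenSet Γ}

theorem b1_nearSum_eq (a : 𝔖.Edge → ℝ) (e : 𝔖.Edge) : nearSum a e = ∑' e', {e' | Near e e'}.indicator a e' := by
  unfold nearSum
  exact tsum_subtype {e' | Near e e'} a

/-- Tonelli for the near relation, nonnegative functions -/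
theorem nearSum_swap_summable {a b : 𝔖.Edge → ℝ} (ha : ∀ e, 0 ≤ a e) (hb : ∀ e, 0 ≤ b e)
    (h : Summable fun e => nearSum a e * b e) : Summable fun e => a e * nearSum b e := by
  have hg0 : (0 : 𝔖.Edge × 𝔖.Edge → ℝ) ≤ fun p => {e' | Near p.1 e'}.indicator a p.2 * b p.1 :=
    fun p => mul_nonneg (Set.indicator_nonneg (fun x _ => ha x) _) (hb _)
  have hg : Summable fun p : 𝔖.Edge × 𝔖.Edge => {e' | Near p.1 e'}.indicator a p.2 * b p.1 := by
    rw [summable_prod_of_nonneg hg0]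
    constructor
    · intro e
      refine summable_of_hasFiniteSupport ((near_finite e).subset ?_)
      intro e' he'
      by_contra hn
      apply he'
      simp only
      rw [Set.indicator_of_notMem hn, zero_mul]
    · have : (fun e => ∑' e', {e' | Near e e'}.indicator a e' * b e) = fun e => nearSum a e * b e := by
        funext e
        rw [tsum_mul_right, b1_nearSum_eq]
      simp only
      rw [this]
      exact h
  have hg' := hg.prod_symm.prod
  have : (fun e => ∑' e', (fun p : 𝔖.Edge × 𝔖.Edge => {e' | Near p.1 e'}.indicator a p.2 * b p.1) (Prod.swap (e, e'))) =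
      fun e => a e * nearSum b e := by
    funext e
    rw [b1_nearSum_eq, ← tsum_mul_left]
    congr 1
    funext e'
    simp only [Prod.swap_prod_mk]
    by_cases hn : Near e e'
    · rw [Set.indicator_of_mem (show e ∈ {x | Near e' x} from hn.symm), Set.indicator_of_mem (show e' ∈ {x | Near e x} from hn)]
    · rw [Set.indicator_of_notMem (show e ∉ {x | Near e' x} from fun h' => hn (Near.symm h')),
        Set.indicator_of_notMem (show e' ∉ {x | Near e x} from hn)]
      simp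
  rw [← this]
  exact hg'

theorem b1_abs_grad_sq {F : Γ → ℝ} (hF : FinEnergy 𝔖 F) : Summable fun e : 𝔖.Edge => |grad F e| ^ 2 := by
  have h : Summable fun e : 𝔖.Edge => grad F e ^ 2 := hF
  simpa only [sq_abs] using h

theorem ae_admLevel {f : Γ → ℝ} (hf : FinEnergy 𝔖 f) (i : Γ ⊕ Γ) : ∀ᵐ t : ℝ, AdmLevel 𝔖 f (i, t) := by
  haveI := 𝔖.countable
  have h1 := ae_regular 𝔖 (baseCoord f i)
  have h2 : ∀ᵐ t : ℝ, ∀ i' : Γ ⊕ Γ, Summable fun e : cut 𝔖 (baseCoord f i) t =>
      nearSum (fun e' : 𝔖.Edge => |grad (baseCoord f i') e'|) e.1 := by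
    rw [ae_all_iff]
    intro i'
    refine ae_summable_cut (baseCoord f i) (fun e => nearSum_nonneg (fun _ => abs_nonneg _) e) ?_
    exact l2_summable_mul (b1_abs_grad_sq (baseCoord_finEnergy hf i))
      (nearSum_sq_summable (b1_abs_grad_sq (baseCoord_finEnergy hf i')))
  filter_upwards [h1, h2] with t ht1 ht2
  exact ⟨ht1, ht2⟩

theorem ae_finInter {f : Γ → ℝ} (p : (Γ ⊕ Γ) × ℝ) (hp : AdmLevel 𝔖 f p) (i : Γ ⊕ Γ) :
    ∀ᵐ t : ℝ, FinInter 𝔖 f (i, t) p := by
  classical
  set b : 𝔖.Edge → ℝ := (bcut 𝔖 f p).indicator 1 with hb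
  have hb0 : ∀ e, 0 ≤ b e := fun e => Set.indicator_nonneg (fun _ _ => zero_le_one) e
  set a : 𝔖.Edge → ℝ := fun e => |grad (baseCoord f i) e| with ha
  have h1 : Summable fun e => nearSum a e * b e := by
    have h0 : Summable ((nearSum a) ∘ (Subtype.val : bcut 𝔖 f p → 𝔖.Edge)) := hp.2 i
    rw [summable_subtype_iff_indicator] at h0
    have : (fun e => nearSum a e * b e) = (bcut 𝔖 f p).indicator (nearSum a) := by
      funext e
      by_cases he : e ∈ bcut 𝔖 f p
      · simp [hb, he]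
      · simp [hb, he]
    rw [this]
    exact h0
  have h2 := nearSum_swap_summable (fun e => abs_nonneg _) hb0 h1
  have h3 := ae_summable_cut (baseCoord f i) (w := nearSum b) (nearSum_nonneg hb0) h2
  filter_upwards [h3] with t ht
  have h4 := ht.tendsto_cofinite_zero.eventually (gt_mem_nhds (zero_lt_one' ℝ))
  have h5 : {e : cut 𝔖 (baseCoord f i) t | ¬ nearSum b e.1 < 1}.Finite := h4
  have h6 := h5.image Subtype.val
  refine (h6.biUnion (t := fun e => ({e} : Set 𝔖.Edge) ×ˢ {e' | Near e e'})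
    (fun e _ => (Set.finite_singleton e).prod (near_finite e))).subset ?_
  rintro ⟨e, e'⟩ ⟨he, he', hn⟩
  simp only [mem_iUnion]
  refine ⟨e, ⟨⟨e, he⟩, ?_, rfl⟩, rfl, hn⟩
  have h7 : b e' ≤ nearSum b e := le_nearSum hb0 hn
  have h8 : b e' = 1 := by simp [hb, show e' ∈ bcut 𝔖 f p from he']
  simp only [mem_ofPred_eq, not_lt]
  linarith

theorem exists_generic_set (Adm : ℝ → Prop) (R : ℝ → ℝ → Prop) (h1 : ∀ᵐ s : ℝ, Adm s)
    (h2 : ∀ s, Adm s → ∀ᵐ t : ℝ, R s t ∧ R t s) :
    ∃ T : Set ℝ, T.Countable ∧ Dense T ∧ (∀ t ∈ T, Adm t) ∧ ∀ s ∈ T, ∀ t ∈ T, s ≠ t → R s t := by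
  classical
  obtain ⟨en, hen⟩ := exists_surjective_nat (ℚ × ℕ)
  set lo : ℕ → ℝ := fun n => ((en n).1 : ℝ) - 1 / (((en n).2 : ℝ) + 1) with hlo
  set hi : ℕ → ℝ := fun n => ((en n).1 : ℝ) + 1 / (((en n).2 : ℝ) + 1) with hhi
  have hlohi : ∀ n, lo n < hi n := by
    intro n
    have : (0 : ℝ) < 1 / (((en n).2 : ℝ) + 1) := by positivity
    simp only [hlo, hhi]
    linarith
  have step : ∀ (n : ℕ) (s : Finset ℝ), (∀ x ∈ s, Adm x) →
      ∃ y, y ∈ Ioo (lo n) (hi n) ∧ Adm y ∧ ∀ x ∈ s, R x y ∧ R y x := by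
    intro n s hs
    have : ∀ᵐ y : ℝ, Adm y ∧ ∀ x ∈ s, R x y ∧ R y x := by
      filter_upwards [h1, (Filter.eventually_all_finset s).2 (fun x hx => h2 x (hs x hx))] with y hy1 hy2
      exact ⟨hy1, hy2⟩
    obtain ⟨y, hy, h⟩ := ae_exists_mem_Ioo this (hlohi n)
    exact ⟨y, hy, h.1, h.2⟩
  let St := {s : Finset ℝ // ∀ x ∈ s, Adm x}
  let nxt : ℕ → St → ℝ := fun n s => (step n s.1 s.2).choose
  have nxt_spec : ∀ (n : ℕ) (s : St), nxt n s ∈ Ioo (lo n) (hi n) ∧ Adm (nxt n s) ∧
      ∀ x ∈ s.1, R x (nxt n s) ∧ R (nxt n s) x := fun n s => (step n s.1 s.2).choose_spec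
  let st : ℕ → St := fun n => Nat.rec (⟨∅, by simp⟩ : St) (fun n s => ⟨insert (nxt n s) s.1, by
    intro x hx
    rcases Finset.mem_insert.1 hx with rfl | hx
    · exact (nxt_spec n s).2.1
    · exact s.2 x hx⟩) n
  have st_succ : ∀ n, (st (n + 1)).1 = insert (nxt n (st n)) (st n).1 := fun n => rfl
  set t : ℕ → ℝ := fun n => nxt n (st n) with ht
  have hmem : ∀ m n, m < n → t m ∈ (st n).1 := by
    intro m n hmn
    induction n with
    | zero => omega
    | succ n ih =>
      rw [st_succ]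
      rcases Nat.lt_succ_iff_lt_or_eq.1 hmn with h | h
      · exact Finset.mem_insert_of_mem (ih h)
      · subst h; exact Finset.mem_insert_self _ _
  have hR : ∀ m n, m < n → R (t m) (t n) ∧ R (t n) (t m) := fun m n hmn =>
    (nxt_spec n (st n)).2.2 _ (hmem m n hmn)
  refine ⟨range t, countable_range t, ?_, ?_, ?_⟩
  · rw [Metric.dense_iff]
    intro x r hr
    obtain ⟨k, hk⟩ := exists_nat_one_div_lt (show (0 : ℝ) < r / 2 by linarith)
    obtain ⟨q, hq1, hq2⟩ := exists_rat_btwn (show x < x + 1 / ((k : ℝ) + 1) by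
      have : (0 : ℝ) < 1 / ((k : ℝ) + 1) := by positivity
      linarith)
    obtain ⟨n, hn⟩ := hen (q, k)
    refine ⟨t n, ?_, n, rfl⟩
    have h3 := (nxt_spec n (st n)).1
    simp only [hlo, hhi, hn] at h3
    rw [Metric.mem_ball, Real.dist_eq, abs_lt]
    constructor <;> linarith [h3.1, h3.2]
  · rintro _ ⟨n, rfl⟩
    exact (nxt_spec n (st n)).2.1
  · rintro _ ⟨m, rfl⟩ _ ⟨n, rfl⟩ hne
    rcases lt_trichotomy m n with h | h | h
    · exact (hR m n h).1
    · exact absurd (by rw [h]) hne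
    · exact (hR n m h).2

theorem exists_generic_levels {f : Γ → ℝ} (hf : FinEnergy 𝔖 f) :
    ∃ T : Set ℝ, T.Countable ∧ Dense T ∧ (∀ t ∈ T, ∀ i, Regular (baseCoord f i) t) ∧
      ∀ s ∈ T, ∀ t ∈ T, s ≠ t → ∀ i j, FinInter 𝔖 f (i, s) (j, t) := by
  haveI := 𝔖.countable
  obtain ⟨T, hT1, hT2, hT3, hT4⟩ := exists_generic_set (fun s => ∀ i, AdmLevel 𝔖 f (i, s))
    (fun s t => ∀ i j, FinInter 𝔖 f (i, s) (j, t)) (ae_all_iff.2 fun i => ae_admLevel hf i) (by
      intro s hs
      have : ∀ᵐ t : ℝ, ∀ i j, FinInter 𝔖 f (j, t) (i, s) :=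
        ae_all_iff.2 fun i => ae_all_iff.2 fun j => ae_finInter (i, s) (hs i) j
      filter_upwards [this] with t ht
      exact ⟨fun i j => (ht i j).symm, fun i j => ht j i⟩)
  exact ⟨T, hT1, hT2, fun t ht i => (hT3 t ht i).1, hT4⟩

theorem b1_exists_level {T : Set ℝ} (hT : Dense T) {a b : ℝ} (hab : a < b) (l : List ℝ) :
    ∃ t ∈ T, t ∈ Ioo a b ∧ t ∉ l := by
  have hfin : {x | x ∈ l}.Finite := l.finite_toSet
  have hopen : IsOpen (Ioo a b \ {x | x ∈ l}) := isOpen_Ioo.sdiff hfin.isClosed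
  have hne : (Ioo a b \ {x | x ∈ l}).Nonempty := ((Ioo_infinite hab).sdiff hfin).nonempty
  obtain ⟨t, ht1, ht2⟩ := hT.inter_open_nonempty _ hopen hne
  exact ⟨t, ht2, ht1.1, ht1.2⟩

theorem b1_levels_cons (c : (Γ ⊕ Γ) × ℝ × ℝ) (O : BoxData Γ) :
    ((boxEnds (c :: O)).map Prod.snd).Perm (c.2.1 :: c.2.2 :: (boxEnds O).map Prod.snd) := by
  simp only [boxEnds, List.map_cons, List.cons_append, List.map_append]
  refine List.Perm.cons _ ?_
  exact List.perm_middle

theorem exists_boxBasis {f : Γ → ℝ} (hf : FinEnergy 𝔖 f) : Nonempty (BoxBasis 𝔖 f) := by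
  classical
  haveI := 𝔖.countable
  obtain ⟨T, hT1, hT2, hT3, hT4⟩ := exists_generic_levels (𝔖 := 𝔖) hf
  refine ⟨⟨{O | (∀ p ∈ boxEnds O, p.2 ∈ T) ∧ ((boxEnds O).map Prod.snd).Nodup}, ?_, ?_, ?_, ?_⟩⟩
  · -- countable
    have hA : ((univ : Set (Γ ⊕ Γ)) ×ˢ (T ×ˢ T)).Countable := countable_univ.prod (hT1.prod hT1)
    haveI := hA.to_subtype
    have h1 : {l : List ((Γ ⊕ Γ) × ℝ × ℝ) | ∀ x ∈ l, x ∈ (univ : Set (Γ ⊕ Γ)) ×ˢ (T ×ˢ T)}.Countable := by
      rw [← Set.range_list_map_coe]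
      exact countable_range _
    refine h1.mono ?_
    rintro O ⟨hO, -⟩ c hc
    refine ⟨mem_univ _, hO (c.1, c.2.1) ?_, hO (c.1, c.2.2) ?_⟩
    · exact List.mem_append_left _ (List.mem_map.2 ⟨c, hc, rfl⟩)
    · exact List.mem_append_right _ (List.mem_map.2 ⟨c, hc, rfl⟩)
  · -- good
    rintro O ⟨hO1, hO2⟩
    refine ⟨fun p hp => hT3 _ (hO1 p hp) _, fun p hp q hq hpq => ?_⟩
    have hne : p.2 ≠ q.2 := fun h => hpq (List.inj_on_of_nodup_map hO2 hp hq h)
    exact hT4 p.2 (hO1 p hp) q.2 (hO1 q hq) hne p.1 q.1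
  · -- invariant
    rintro g O ⟨hO1, hO2⟩
    rw [mem_ofPred_eq, boxEnds_trBox]
    constructor
    · intro p hp
      obtain ⟨p', hp', rfl⟩ := List.mem_map.1 hp
      exact hO1 p' hp'
    · rw [List.map_map]
      exact hO2
  · -- basis
    intro z I ε hε
    induction I using Finset.induction_on with
    | empty => exact ⟨[], ⟨by simp [boxEnds], by simp [boxEnds]⟩, by simp [InBox], by simp⟩
    | insert i I _ ih =>
      obtain ⟨O, ⟨hO1, hO2⟩, hO3, hO4⟩ := ih
      obtain ⟨lo, hlo1, hlo2, hlo3⟩ := b1_exists_level hT2 (show z i - ε < z i by linarith) ((boxEnds O).map Prod.snd)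
      obtain ⟨hi, hhi1, hhi2, hhi3⟩ := b1_exists_level hT2 (show z i < z i + ε by linarith) ((boxEnds O).map Prod.snd)
      refine ⟨(i, lo, hi) :: O, ⟨?_, ?_⟩, ?_, ?_⟩
      · intro p hp
        have : p.2 ∈ (boxEnds ((i, lo, hi) :: O)).map Prod.snd := List.mem_map.2 ⟨p, hp, rfl⟩
        rw [(b1_levels_cons (i, lo, hi) O).mem_iff] at this
        simp only [List.mem_cons] at this
        rcases this with h | h | h
        · rw [h]; exact hlo1
        · rw [h]; exact hhi1
        · obtain ⟨p', hp', h'⟩ := List.mem_map.1 h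
          rw [← h']; exact hO1 p' hp'
      · rw [(b1_levels_cons (i, lo, hi) O).nodup_iff]
        simp only [List.nodup_cons, List.mem_cons, not_or]
        refine ⟨⟨?_, hlo3⟩, hhi3, hO2⟩
        have := hlo2.2
        have := hhi2.1
        intro h
        linarith
      · intro c hc
        rcases List.mem_cons.1 hc with rfl | hc
        · exact ⟨hlo2.2, hhi2.1⟩
        · exact hO3 c hc
      · intro i' hi'
        rcases Finset.mem_insert.1 hi' with rfl | hi'
        · exact ⟨_, List.mem_cons_self, rfl, hlo2.1, hhi2.2⟩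
        · obtain ⟨c, hc, h⟩ := hO4 i' hi'
          exact ⟨c, List.mem_cons_of_mem _ hc, h⟩

end Claimed.Agent.R309
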