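import Claimed.Agent.R309.S34.Box3

/-!
# Row 309, S34, package **S34-C2 (Box2)**: a good box has finitely many graph components (Lemma 3.3, second assertion).

Statements: helper146 (sub-captain).  OWNER = the seat that claims subtask `S34-C2`.  Keep the statement of `goodBox_finite_reps` verbatim; helper lemmas
with prefix `b2_`.  May use `Graph.lean`, `Box3.lean` as black boxes.  ~700 lines, purely combinatorial.

ROUTE.  `P := boxEnds O`, `S p := bcut 𝔖 f p`, `N := ⋃ p ∈ P, S p` (closed under `erev`).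
`Av u v` := `u`, `v` are joined by a graph path none of whose edges lies in `N`  (`ReflTransGen fun a b => ∃ s : {s // s ∈ 𝔖.S}, b = a * s.1 ∧ (a, s) ∉ N`).
(0) `Av` is symmetric; if `Av r v` and `v ∈ boxV f O` then `r ∈ boxV f O` and `PathIn 𝔖 (boxV f O) r v`  (`not_mem_cut_iff`: along an edge outside all endpoint
    cuts no endpoint inequality changes).  So it suffices to find a finite `R` with `∀ v, ∃ r ∈ R, Av r v`.
(1) `E := {e | ∃ p ∈ P, ∃ q ∈ P, p ≠ q ∧ e ∈ S p ∧ ∃ e' ∈ S q, Near e e'}` is finite (`GoodBox`).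
(2) for each `p ∈ P` a finite `R p ⊆ S p \ E` such that each `e ∈ S p \ E` is joined to some `r ∈ R p` by a dual path in `S p \ E`
    (`dual_delete_finite` if `S p` is dually connected; `R p := S p \ E` if `S p` is finite).
(3) if `e, e' ∈ S p \ E` are near, `u` an endpoint of `e`, `u'` an endpoint of `e'` on the same side of the cut `p`, then `Av u u'`: by `near_join` `u = u'` or they are
    joined by an edge `e''` near `e`; `e'' ∉ S p` (same side), `e'' ∉ S q` for `q ≠ p` (otherwise `e ∈ E`).  Induction along the dual path: each endpoint of `e` is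
    `Av`-joined to an endpoint of `r`.
(4) each vertex `v` is `Av`-joined to `1` or to the source of an edge of `N` (first edge of `N` on a path from `v` to `1`, induction on `pathIn_univ`).
`R := {1} ∪ endpoints of E ∪ endpoints of the R p`.
-/

set_option autoImplicit false

namespace Claimed.Agent.R309

open Filter Topology Set

variable {Γ : Type} [Group Γ] {𝔖 : GenSet Γ}

/-- `u`, `v` are joined by a graph path none of whose edges lies in `N` -/
def b2_Av (N : Set 𝔖.Edge) (u v : Γ) : Prop :=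
  Relation.ReflTransGen (fun a b => ∃ s : {s : Γ // s ∈ 𝔖.S}, b = a * s.1 ∧ ((a, s) : 𝔖.Edge) ∉ N) u v

theorem b2_erev_erev (e : 𝔖.Edge) : erev (erev e) = e := gr_edge_ext (by simp) (by simp)

theorem b2_Av_edge {N : Set 𝔖.Edge} {e : 𝔖.Edge} (he : e ∉ N) : b2_Av N (esrc e) (etgt e) :=
  Relation.ReflTransGen.single ⟨e.2, rfl, he⟩

theorem b2_Av_symm {N : Set 𝔖.Edge} (hN : ∀ e, e ∈ N → erev e ∈ N) {u v : Γ} (h : b2_Av N u v) : b2_Av N v u := by
  induction h with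
  | refl => exact Relation.ReflTransGen.refl
  | @tail b c _ hbc ih =>
    obtain ⟨s, rfl, hs⟩ := hbc
    have h1 : erev ((b, s) : 𝔖.Edge) ∉ N := by
      intro hcon
      have := hN _ hcon
      rw [b2_erev_erev] at this
      exact hs this
    have h2 := b2_Av_edge h1
    rw [esrc_erev, etgt_erev] at h2
    exact Relation.ReflTransGen.trans h2 ih

/-- (4) each vertex is joined to `1` or to the source of an edge of `N` -/
theorem b2_reach (N : Set 𝔖.Edge) (v : Γ) : b2_Av N v 1 ∨ ∃ e ∈ N, b2_Av N v (esrc e) := by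
  have h := pathIn_univ 𝔖 v 1
  induction h using Relation.ReflTransGen.head_induction_on with
  | refl => exact Or.inl Relation.ReflTransGen.refl
  | @head a b hab _ ih =>
    obtain ⟨_, _, s, hs, rfl⟩ := hab
    by_cases hN : ((a, ⟨s, hs⟩) : 𝔖.Edge) ∈ N
    · exact Or.inr ⟨_, hN, Relation.ReflTransGen.refl⟩
    · have hstep : b2_Av N a (a * s) := b2_Av_edge hN
      rcases ih with h1 | ⟨e, he, h1⟩
      · exact Or.inl (Relation.ReflTransGen.trans hstep h1)
      · exact Or.inr ⟨e, he, Relation.ReflTransGen.trans hstep h1⟩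

/-- (3) one step -/
theorem b2_step {N : Set 𝔖.Edge} {G : Γ → ℝ} {t : ℝ} (ht : Regular G t) {e e' : 𝔖.Edge}
    (hfar : ∀ e'' ∈ N, Near e e'' → e'' ∈ cut 𝔖 G t) (hn : Near e e') {u u' : Γ}
    (hu : u = esrc e ∨ u = etgt e) (hu' : u' = esrc e' ∨ u' = etgt e') (hside : G u < t ↔ G u' < t) :
    b2_Av N u u' := by
  rcases near_join hn hu hu' with rfl | ⟨e'', h1, _, h3, h4⟩
  · exact Relation.ReflTransGen.refl
  · have h5 : e'' ∉ N := fun hN =>
      (not_mem_cut_iff ht e'').2 (by rw [h3, h4]; exact hside) (hfar e'' hN h1)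
    rw [← h3, ← h4]
    exact b2_Av_edge h5

/-- (3) along a dual path -/
theorem b2_dual {N : Set 𝔖.Edge} {G : Γ → ℝ} {t : ℝ} (ht : Regular G t) {D : Set 𝔖.Edge}
    (hD : ∀ e ∈ D, e ∈ cut 𝔖 G t ∧ ∀ e'' ∈ N, Near e e'' → e'' ∈ cut 𝔖 G t) {r e : 𝔖.Edge}
    (h : DualPathIn D r e) : ∀ u : Γ, (u = esrc e ∨ u = etgt e) →
    ∃ u', (u' = esrc r ∨ u' = etgt r) ∧ b2_Av N u' u := by
  induction h with
  | refl => exact fun u hu => ⟨u, hu, Relation.ReflTransGen.refl⟩
  | @tail b c _ hbc ih =>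
    intro u hu
    obtain ⟨hb, hc, hn⟩ := hbc
    have hw : ∃ w, (w = esrc b ∨ w = etgt b) ∧ (G w < t ↔ G u < t) := by
      have hcut := (mem_cut_iff G t b).1 (hD b hb).1
      by_cases hu' : G u < t
      · rcases hcut with ⟨h1, _⟩ | ⟨h1, _⟩
        · exact ⟨_, Or.inl rfl, iff_of_true h1 hu'⟩
        · exact ⟨_, Or.inr rfl, iff_of_true h1 hu'⟩
      · rcases hcut with ⟨_, h1⟩ | ⟨_, h1⟩
        · exact ⟨_, Or.inr rfl, iff_of_false (not_lt.2 h1.le) hu'⟩
        · exact ⟨_, Or.inl rfl, iff_of_false (not_lt.2 h1.le) hu'⟩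
    obtain ⟨w, hw1, hw2⟩ := hw
    obtain ⟨u', hu', hp⟩ := ih w hw1
    exact ⟨u', hu', Relation.ReflTransGen.trans hp (b2_step ht (hD b hb).2 hn hw1 hu hw2)⟩

/-- (0) an avoiding path which starts in the box stays in the box -/
theorem b2_box {f : Γ → ℝ} {O : BoxData Γ} (hreg : ∀ p ∈ boxEnds O, Regular (baseCoord f p.1) p.2)
    {N : Set 𝔖.Edge} (hN : ∀ p ∈ boxEnds O, bcut 𝔖 f p ⊆ N) {v r : Γ} (h : b2_Av N v r) (hv : v ∈ boxV f O) :
    PathIn 𝔖 (boxV f O) v r := by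
  induction h with
  | refl => exact Relation.ReflTransGen.refl
  | @tail b c _ hbc ih =>
    obtain ⟨s, rfl, hs⟩ := hbc
    have hb : b ∈ boxV f O := ih.mem_right hv
    refine Relation.ReflTransGen.tail ih ⟨hb, ?_, s.1, s.2, rfl⟩
    intro c hc
    have hlo : (c.1, c.2.1) ∈ boxEnds O := List.mem_append_left _ (List.mem_map.2 ⟨c, hc, rfl⟩)
    have hhi : (c.1, c.2.2) ∈ boxEnds O := List.mem_append_right _ (List.mem_map.2 ⟨c, hc, rfl⟩)
    have h1 := (not_mem_cut_iff (hreg _ hlo) ((b, s) : 𝔖.Edge)).1 (fun hcon => hs (hN _ hlo hcon))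
    have h2 := (not_mem_cut_iff (hreg _ hhi) ((b, s) : 𝔖.Edge)).1 (fun hcon => hs (hN _ hhi hcon))
    have h3 := hb c hc
    constructor
    · have h4 : ¬ baseCoord f c.1 (b * s.1) < c.2.1 := fun hcon => absurd (h1.2 hcon) (not_lt.2 h3.1.le)
      exact lt_of_le_of_ne (not_lt.1 h4) (Ne.symm (hreg _ hlo _))
    · exact h2.1 h3.2

/-- **Lemma 3.3 (finiteness)**: finitely many components, given by representatives -/
theorem goodBox_finite_reps {f : Γ → ℝ}
    (hcut : ∀ i t, Regular (baseCoord f i) t →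
      DuallyConnected (cut 𝔖 (baseCoord f i) t) ∨ (cut 𝔖 (baseCoord f i) t).Finite)
    (O : BoxData Γ) (hO : GoodBox 𝔖 f O) : ∃ R : Finset Γ, ∀ v ∈ boxV f O, ∃ r ∈ R, v ∈ boxComp 𝔖 f O r := by
  classical
  obtain ⟨hreg, hfin⟩ := hO
  let N : Set 𝔖.Edge := {e | ∃ p ∈ boxEnds O, e ∈ bcut 𝔖 f p}
  have hNsub : ∀ p ∈ boxEnds O, bcut 𝔖 f p ⊆ N := fun p hp e he => ⟨p, hp, he⟩
  have hNrev : ∀ e, e ∈ N → erev e ∈ N := fun e ⟨p, hp, he⟩ => ⟨p, hp, (erev_mem_cut _ _ e).2 he⟩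
  let E : Set 𝔖.Edge :=
    {e | ∃ p ∈ boxEnds O, ∃ q ∈ boxEnds O, p ≠ q ∧ e ∈ bcut 𝔖 f p ∧ ∃ e' ∈ bcut 𝔖 f q, Near e e'}
  have hE : E.Finite := by
    have hidx : {pq : ((Γ ⊕ Γ) × ℝ) × ((Γ ⊕ Γ) × ℝ) | pq.1 ∈ boxEnds O ∧ pq.2 ∈ boxEnds O ∧ pq.1 ≠ pq.2}.Finite :=
      (((boxEnds O).finite_toSet).prod ((boxEnds O).finite_toSet)).subset fun pq h => ⟨h.1, h.2.1⟩
    refine (hidx.biUnion (t := fun pq => Prod.fst ''
      {ee : 𝔖.Edge × 𝔖.Edge | ee.1 ∈ bcut 𝔖 f pq.1 ∧ ee.2 ∈ bcut 𝔖 f pq.2 ∧ Near ee.1 ee.2})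
      (fun pq h => (hfin _ h.1 _ h.2.1 h.2.2).image _)).subset ?_
    rintro e ⟨p, hp, q, hq, hpq, he, e', he', hn⟩
    exact mem_biUnion (show (p, q) ∈ _ from ⟨hp, hq, hpq⟩) ⟨(e, e'), ⟨he, he', hn⟩, rfl⟩
  have h2 : ∀ p, ∃ Rp : Finset 𝔖.Edge, p ∈ boxEnds O →
      ∀ e ∈ bcut 𝔖 f p \ E, ∃ r ∈ Rp, DualPathIn (bcut 𝔖 f p \ E) r e := by
    intro p
    by_cases hp : p ∈ boxEnds O
    · rcases hcut p.1 p.2 (hreg p hp) with hd | hf
      · obtain ⟨R, _, h2⟩ := dual_delete_finite _ hd E hE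
        exact ⟨R, fun _ => h2⟩
      · refine ⟨(hf.subset (sdiff_subset (t := E))).toFinset, fun _ e he => ⟨e, ?_, Relation.ReflTransGen.refl⟩⟩
        rw [Set.Finite.mem_toFinset]
        exact he
    · exact ⟨∅, fun h => absurd h hp⟩
  choose Rp hRp using h2
  let RS : Set Γ := ({1} ∪ (esrc '' E ∪ etgt '' E)) ∪
    ⋃ p ∈ {p | p ∈ boxEnds O}, (esrc '' (Rp p : Set 𝔖.Edge) ∪ etgt '' (Rp p : Set 𝔖.Edge))
  have hRS : RS.Finite := by
    refine Set.Finite.union ((finite_singleton _).union ((hE.image _).union (hE.image _))) ?_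
    exact ((boxEnds O).finite_toSet).biUnion fun p _ =>
      ((Rp p).finite_toSet.image _).union ((Rp p).finite_toSet.image _)
  have key : ∀ v : Γ, ∃ r ∈ RS, b2_Av N r v := by
    intro v
    rcases b2_reach N v with h1 | ⟨e, ⟨p, hp, he⟩, h1⟩
    · exact ⟨1, Or.inl (Or.inl rfl), b2_Av_symm hNrev h1⟩
    · by_cases heE : e ∈ E
      · exact ⟨esrc e, Or.inl (Or.inr (Or.inl (mem_image_of_mem _ heE))), b2_Av_symm hNrev h1⟩
      · obtain ⟨r, hr, hpath⟩ := hRp p hp e ⟨he, heE⟩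
        have hD : ∀ e ∈ bcut 𝔖 f p \ E, e ∈ cut 𝔖 (baseCoord f p.1) p.2 ∧
            ∀ e'' ∈ N, Near e e'' → e'' ∈ cut 𝔖 (baseCoord f p.1) p.2 := by
          intro e he
          refine ⟨he.1, ?_⟩
          rintro e'' ⟨q, hq, he''⟩ hn
          by_cases hpq : p = q
          · rw [hpq]
            exact he''
          · exact absurd ⟨p, hp, q, hq, hpq, he.1, e'', he'', hn⟩ he.2
        obtain ⟨u', hu', hav⟩ := b2_dual (hreg p hp) hD hpath (esrc e) (Or.inl rfl)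
        refine ⟨u', Or.inr (mem_biUnion (show p ∈ {p | p ∈ boxEnds O} from hp) ?_),
          Relation.ReflTransGen.trans hav (b2_Av_symm hNrev h1)⟩
        rcases hu' with rfl | rfl
        · exact Or.inl (mem_image_of_mem _ hr)
        · exact Or.inr (mem_image_of_mem _ hr)
  refine ⟨hRS.toFinset, fun v hv => ?_⟩
  obtain ⟨r, hr, hav⟩ := key v
  have hpath := b2_box hreg hNsub (b2_Av_symm hNrev hav) hv
  exact ⟨r, by rwa [Set.Finite.mem_toFinset], hpath.mem_right hv, hpath.symm⟩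

end Claimed.Agent.R309
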