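import Claimed.Agent.R309.S34.Pot2

/-!
# Row 309, S34, package **S34-C3 (Box3)**: margins, localized coordinates, equivariance, the walls of the coordinate family (Lemma 3.4).

Statements: helper146 (sub-captain).  OWNER = the seat that claims subtask `S34-C3`.  Keep the statements verbatim (tell helper146 if one is false or
awkward); helper lemmas with prefix `b3_`.  May use `Graph.lean`, `L2.lean`, `Pot2.lean` as black boxes.  ~900 lines, all elementary.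
-/

set_option autoImplicit false

namespace Claimed.Agent.R309

open Filter Topology Set

variable {Γ : Type} [Group Γ] {𝔖 : GenSet Γ}

/-! ### margins (induction on the list `O`) -/

omit [Group Γ] in
theorem b3_lt_fold_iff (O : BoxData Γ) (z : Γ ⊕ Γ → ℝ) (t : ℝ) :
    t < O.foldr (fun c m => min m (min (z c.1 - c.2.1) (c.2.2 - z c.1))) 1 ↔
      t < 1 ∧ ∀ c ∈ O, c.2.1 + t < z c.1 ∧ z c.1 < c.2.2 - t := by
  induction O with
  | nil => simp
  | cons c O ih =>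
    simp only [List.foldr_cons, lt_min_iff, ih, List.mem_cons, forall_eq_or_imp]
    constructor
    · rintro ⟨⟨h1, h2⟩, h3, h4⟩
      exact ⟨h1, ⟨by linarith, by linarith⟩, h2⟩
    · rintro ⟨h1, ⟨h3, h4⟩, h2⟩
      exact ⟨⟨h1, h2⟩, by linarith, by linarith⟩

omit [Group Γ] in
theorem b3_fold_lt_iff (O : BoxData Γ) (z : Γ ⊕ Γ → ℝ) (t : ℝ) :
    O.foldr (fun c m => min m (min (z c.1 - c.2.1) (c.2.2 - z c.1))) 1 < t ↔
      1 < t ∨ ∃ c ∈ O, z c.1 < c.2.1 + t ∨ c.2.2 - t < z c.1 := by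
  induction O with
  | nil => simp
  | cons c O ih =>
    simp only [List.foldr_cons, min_lt_iff, ih, List.mem_cons, exists_eq_or_imp]
    constructor
    · rintro ((h | h) | (h | h))
      · exact Or.inl h
      · exact Or.inr (Or.inr h)
      · exact Or.inr (Or.inl (Or.inl (by linarith)))
      · exact Or.inr (Or.inl (Or.inr (by linarith)))
    · rintro (h | (h | h) | h)
      · exact Or.inl (Or.inl h)
      · exact Or.inr (Or.inl (by linarith))
      · exact Or.inr (Or.inr (by linarith))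
      · exact Or.inl (Or.inr h)

theorem lt_margin_iff (O : BoxData Γ) (z : Γ ⊕ Γ → ℝ) {t : ℝ} (ht : 0 ≤ t) :
    t < margin O z ↔ t < 1 ∧ ∀ c ∈ O, c.2.1 + t < z c.1 ∧ z c.1 < c.2.2 - t := by
  unfold margin
  rw [lt_max_iff, b3_lt_fold_iff]
  constructor
  · rintro (h | h)
    · exact absurd h (not_lt.2 ht)
    · exact h
  · exact Or.inr

theorem margin_lt_iff (O : BoxData Γ) (z : Γ ⊕ Γ → ℝ) {t : ℝ} (ht : 0 < t) :
    margin O z < t ↔ 1 < t ∨ ∃ c ∈ O, z c.1 < c.2.1 + t ∨ c.2.2 - t < z c.1 := by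
  unfold margin
  rw [max_lt_iff, b3_fold_lt_iff]
  exact ⟨fun h => h.2, fun h => ⟨ht, h⟩⟩

theorem margin_mem (O : BoxData Γ) (z : Γ ⊕ Γ → ℝ) : margin O z ∈ Icc (0 : ℝ) 1 := by
  refine ⟨le_max_left _ _, ?_⟩
  by_contra h
  have := (lt_margin_iff O z zero_le_one).1 (not_le.1 h)
  exact absurd this.1 (lt_irrefl _)

theorem margin_pos_iff (O : BoxData Γ) (z : Γ ⊕ Γ → ℝ) : 0 < margin O z ↔ InBox O z := by
  rw [lt_margin_iff O z le_rfl]
  simp [InBox]

theorem b3_margin_le (O : BoxData Γ) (z z' : Γ ⊕ Γ → ℝ) {δ : ℝ} (hδ : 0 ≤ δ) (h : ∀ c ∈ O, |z c.1 - z' c.1| ≤ δ) :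
    margin O z ≤ margin O z' + δ := by
  by_contra hcon
  have hcon' := not_le.1 hcon
  have h0 : 0 ≤ margin O z' := (margin_mem O z').1
  have h1 := (lt_margin_iff O z (by linarith : 0 ≤ margin O z' + δ)).1 hcon'
  have h2 : margin O z' < margin O z' := by
    rw [lt_margin_iff O z' h0]
    refine ⟨by linarith [h1.1], fun c hc => ?_⟩
    have h3 := h1.2 c hc
    have h4 := abs_le.1 (h c hc)
    constructor <;> linarith [h3.1, h3.2, h4.1, h4.2]
  exact lt_irrefl _ h2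

/-- the margin is `1`-Lipschitz for the sup distance on the coordinates which occur in `O` -/
theorem margin_lipschitz (O : BoxData Γ) (z z' : Γ ⊕ Γ → ℝ) {δ : ℝ} (hδ : 0 ≤ δ) (h : ∀ c ∈ O, |z c.1 - z' c.1| ≤ δ) :
    |margin O z - margin O z'| ≤ δ := by
  rw [abs_le]
  have h1 := b3_margin_le O z z' hδ h
  have h2 := b3_margin_le O z' z hδ (fun c hc => by rw [abs_sub_comm]; exact h c hc)
  constructor <;> linarith

theorem margin_trBox (g : Γ) (O : BoxData Γ) (z : Γ ⊕ Γ → ℝ) : margin (trBox g O) z = margin O fun i => z (trIdx g i) := by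
  unfold margin trBox
  congr 1
  induction O with
  | nil => rfl
  | cons c O ih =>
    simp only [List.map_cons, List.foldr_cons]
    rw [ih]

/-! ### translation of boxes -/

theorem trIdx_injective (g : Γ) : Function.Injective (trIdx g) :=
  Sum.map_injective.2 ⟨mul_right_injective g, mul_right_injective g⟩

theorem boxEnds_trBox (g : Γ) (O : BoxData Γ) : boxEnds (trBox g O) = (boxEnds O).map fun p => (trIdx g p.1, p.2) := by
  simp [boxEnds, trBox, List.map_append, List.map_map, Function.comp_def]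

theorem boxV_trBox (f : Γ → ℝ) (g : Γ) (O : BoxData Γ) (v : Γ) : g * v ∈ boxV f (trBox g O) ↔ v ∈ boxV f O := by
  constructor
  · intro h c hc
    have := h (trIdx g c.1, c.2) (List.mem_map.2 ⟨c, hc, rfl⟩)
    simpa [baseCoord_trIdx] using this
  · intro h c hc
    obtain ⟨c', hc', rfl⟩ := List.mem_map.1 hc
    simpa [baseCoord_trIdx] using h c' hc'

theorem b3_baseCoord_trIdx_eq (f : Γ → ℝ) (g : Γ) (i : Γ ⊕ Γ) : baseCoord f (trIdx g i) = trF g (baseCoord f i) := by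
  funext v
  have := baseCoord_trIdx f g i (g⁻¹ * v)
  rw [mul_inv_cancel_left] at this
  exact this

theorem regular_trIdx (f : Γ → ℝ) (g : Γ) (i : Γ ⊕ Γ) (t : ℝ) : Regular (baseCoord f (trIdx g i)) t ↔ Regular (baseCoord f i) t := by
  rw [b3_baseCoord_trIdx_eq, regular_trF]

theorem bcut_trIdx (f : Γ → ℝ) (g : Γ) (i : Γ ⊕ Γ) (t : ℝ) : bcut 𝔖 f (trIdx g i, t) = etr g '' bcut 𝔖 f (i, t) := by
  show cut 𝔖 (baseCoord f (trIdx g i)) t = etr g '' cut 𝔖 (baseCoord f i) t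
  rw [b3_baseCoord_trIdx_eq, cut_trF]

theorem FinInter.symm {f : Γ → ℝ} {p q : (Γ ⊕ Γ) × ℝ} (h : FinInter 𝔖 f p q) : FinInter 𝔖 f q p := by
  refine (Set.Finite.image Prod.swap h).subset ?_
  rintro ⟨e, e'⟩ ⟨h1, h2, h3⟩
  exact ⟨(e', e), ⟨h2, h1, h3.symm⟩, rfl⟩

theorem finInter_trIdx (f : Γ → ℝ) (g : Γ) (p q : (Γ ⊕ Γ) × ℝ) (h : FinInter 𝔖 f p q) :
    FinInter 𝔖 f (trIdx g p.1, p.2) (trIdx g q.1, q.2) := by
  refine (Set.Finite.image (fun ee : 𝔖.Edge × 𝔖.Edge => (etr g ee.1, etr g ee.2)) h).subset ?_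
  rintro ⟨e, e'⟩ ⟨h1, h2, h3⟩
  rw [bcut_trIdx] at h1 h2
  obtain ⟨a, ha, rfl⟩ := h1
  obtain ⟨b, hb, rfl⟩ := h2
  exact ⟨(a, b), ⟨ha, hb, (near_etr g a b).1 h3⟩, rfl⟩

theorem goodBox_trBox {f : Γ → ℝ} {O : BoxData Γ} (h : GoodBox 𝔖 f O) (g : Γ) : GoodBox 𝔖 f (trBox g O) := by
  rw [GoodBox, boxEnds_trBox]
  constructor
  · intro p hp
    obtain ⟨p', hp', rfl⟩ := List.mem_map.1 hp
    exact (regular_trIdx f g p'.1 p'.2).2 (h.1 p' hp')
  · intro p hp q hq hpq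
    obtain ⟨p', hp', rfl⟩ := List.mem_map.1 hp
    obtain ⟨q', hq', rfl⟩ := List.mem_map.1 hq
    exact finInter_trIdx f g p' q' (h.2 p' hp' q' hq' (fun h => hpq (by rw [h])))

/-! ### components of boxes -/

theorem boxComp_subset (f : Γ → ℝ) (O : BoxData Γ) (r : Γ) : boxComp 𝔖 f O r ⊆ boxV f O :=
  fun _ hw => hw.2.mem_right hw.1

theorem mem_boxComp_self {f : Γ → ℝ} {O : BoxData Γ} {r : Γ} (h : r ∈ boxV f O) : r ∈ boxComp 𝔖 f O r :=
  ⟨h, Relation.ReflTransGen.refl⟩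

/-- a path in the box does not leave a component -/
theorem boxComp_of_pathIn {f : Γ → ℝ} {O : BoxData Γ} {r u v : Γ} (h : PathIn 𝔖 (boxV f O) u v) :
    u ∈ boxComp 𝔖 f O r ↔ v ∈ boxComp 𝔖 f O r :=
  ⟨fun hu => ⟨hu.1, hu.2.trans h⟩, fun hv => ⟨hv.1, hv.2.trans h.symm⟩⟩

theorem boxComp_closed {f : Γ → ℝ} {O : BoxData Γ} {r u s : Γ} (hu : u ∈ boxComp 𝔖 f O r) (hs : s ∈ 𝔖.S)
    (h : u * s ∈ boxV f O) : u * s ∈ boxComp 𝔖 f O r :=
  ⟨hu.1, Relation.ReflTransGen.tail hu.2 ⟨boxComp_subset f O r hu, h, s, hs, rfl⟩⟩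

theorem b3_pathIn_comp {f : Γ → ℝ} {O : BoxData Γ} {r u : Γ} (hu : u ∈ boxComp 𝔖 f O r) :
    PathIn 𝔖 (boxComp 𝔖 f O r) r u := by
  obtain ⟨hr, hp⟩ := hu
  induction hp with
  | refl => exact Relation.ReflTransGen.refl
  | @tail b c hb hbc ih =>
    exact Relation.ReflTransGen.tail ih ⟨⟨hr, hb⟩, ⟨hr, Relation.ReflTransGen.tail hb hbc⟩, hbc.2.2⟩

/-- a component is connected, by paths inside the component -/
theorem boxComp_pathIn {f : Γ → ℝ} {O : BoxData Γ} {r u v : Γ} (hu : u ∈ boxComp 𝔖 f O r) (hv : v ∈ boxComp 𝔖 f O r) :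
    PathIn 𝔖 (boxComp 𝔖 f O r) u v :=
  (b3_pathIn_comp hu).symm.trans (b3_pathIn_comp hv)

theorem boxComp_trBox (f : Γ → ℝ) (g : Γ) (O : BoxData Γ) (r v : Γ) :
    g * v ∈ boxComp 𝔖 f (trBox g O) (g * r) ↔ v ∈ boxComp 𝔖 f O r := by
  constructor
  · rintro ⟨h1, h2⟩
    refine ⟨(boxV_trBox f g O r).1 h1, ?_⟩
    have h3 := h2.smul g⁻¹
    rw [inv_mul_cancel_left, inv_mul_cancel_left] at h3
    refine h3.mono ?_
    intro w hw
    have hw' : g⁻¹⁻¹ * w ∈ boxV f (trBox g O) := hw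
    rw [inv_inv] at hw'
    exact (boxV_trBox f g O w).1 hw'
  · rintro ⟨h1, h2⟩
    refine ⟨(boxV_trBox f g O r).2 h1, ?_⟩
    refine (h2.smul g).mono ?_
    intro w hw
    have hw' : g⁻¹ * w ∈ boxV f O := hw
    have := (boxV_trBox f g O (g⁻¹ * w)).2 hw'
    rwa [mul_inv_cancel_left] at this

/-! ### localized coordinates -/

theorem locCoord_of_mem (f : Γ → ℝ) (O : BoxData Γ) {U : Set Γ} {v : Γ} (h : v ∈ U) :
    locCoord f O U v = margin O fun i => baseCoord f i v := by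
  simp [locCoord, h]

theorem locCoord_of_not_mem (f : Γ → ℝ) (O : BoxData Γ) {U : Set Γ} {v : Γ} (h : v ∉ U) : locCoord f O U v = 0 := by
  simp [locCoord, h]

theorem locCoord_nonneg (f : Γ → ℝ) (O : BoxData Γ) (U : Set Γ) (v : Γ) : 0 ≤ locCoord f O U v := by
  by_cases h : v ∈ U
  · rw [locCoord_of_mem f O h]
    exact (margin_mem _ _).1
  · rw [locCoord_of_not_mem f O h]

theorem locCoord_le_margin (f : Γ → ℝ) (O : BoxData Γ) (U : Set Γ) (v : Γ) :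
    locCoord f O U v ≤ margin O fun i => baseCoord f i v := by
  by_cases h : v ∈ U
  · rw [locCoord_of_mem f O h]
  · rw [locCoord_of_not_mem f O h]
    exact (margin_mem _ _).1

/-- a vertex with positive localized coordinate lies in the component -/
theorem mem_of_locCoord_pos {f : Γ → ℝ} {O : BoxData Γ} {U : Set Γ} {v : Γ} (h : 0 < locCoord f O U v) : v ∈ U := by
  by_contra hv
  rw [locCoord_of_not_mem f O hv] at h
  exact lt_irrefl _ h

theorem b3_margin_eq_zero {f : Γ → ℝ} {O : BoxData Γ} {v : Γ} (h : v ∉ boxV f O) :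
    margin O (fun i => baseCoord f i v) = 0 :=
  le_antisymm (not_lt.1 fun hpos => h ((margin_pos_iff O _).1 hpos)) (margin_mem _ _).1

/-- on an edge which meets `U` the localized coordinate is the margin at both endpoints -/
theorem b3_loc_eq_of_adj {f : Γ → ℝ} {O : BoxData Γ} {U : Set Γ}
    (hUcl : ∀ u ∈ U, ∀ s ∈ 𝔖.S, u * s ∈ boxV f O → u * s ∈ U) {u y : Γ} (hu : u ∈ U) (hadj : u⁻¹ * y ∈ 𝔖.S) :
    locCoord f O U y = margin O fun i => baseCoord f i y := by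
  by_cases hy : y ∈ U
  · exact locCoord_of_mem f O hy
  · rw [locCoord_of_not_mem f O hy]
    refine (b3_margin_eq_zero fun hyV => hy ?_).symm
    have := hUcl u hu _ hadj (by rwa [mul_inv_cancel_left])
    rwa [mul_inv_cancel_left] at this

theorem b3_adj_src_tgt (e : 𝔖.Edge) : (esrc e)⁻¹ * etgt e ∈ 𝔖.S := by
  simp [esrc, etgt]

theorem b3_adj_tgt_src (e : 𝔖.Edge) : (etgt e)⁻¹ * esrc e ∈ 𝔖.S := by
  have := 𝔖.inv_mem _ e.2.2
  simpa [esrc, etgt] using this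

/-- `|d h_{O,U}| ≤ |dψ_O|` -/
theorem b3_grad_loc_le {f : Γ → ℝ} {O : BoxData Γ} {U : Set Γ}
    (hUcl : ∀ u ∈ U, ∀ s ∈ 𝔖.S, u * s ∈ boxV f O → u * s ∈ U) (e : 𝔖.Edge) :
    |grad (locCoord f O U) e| ≤ |grad (fun v => margin O fun i => baseCoord f i v) e| := by
  by_cases h1 : esrc e ∈ U
  · have h2 := b3_loc_eq_of_adj (𝔖 := 𝔖) hUcl h1 (b3_adj_src_tgt e)
    simp only [grad]
    rw [h2, locCoord_of_mem f O h1]
  · by_cases h2 : etgt e ∈ U
    · have h3 := b3_loc_eq_of_adj (𝔖 := 𝔖) hUcl h2 (b3_adj_tgt_src e)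
      simp only [grad]
      rw [h3, locCoord_of_mem f O h2]
    · simp only [grad]
      rw [locCoord_of_not_mem f O h1, locCoord_of_not_mem f O h2]
      simp

/-- **Lemma 3.4, energy.**  `|d h_{O,U}| ≤ |dψ_O|` edgewise (the endpoint outside `U` of an edge leaving `U` has margin `0`), and
`|dψ_O e|² ≤ Σ_{c ∈ O} |dF_c e|²` by `margin_lipschitz`. -/
theorem locCoord_finEnergy {f : Γ → ℝ} (hf : FinEnergy 𝔖 f) (O : BoxData Γ) (U : Set Γ) (hU : U ⊆ boxV f O)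
    (hUcl : ∀ u ∈ U, ∀ s ∈ 𝔖.S, u * s ∈ boxV f O → u * s ∈ U) : FinEnergy 𝔖 (locCoord f O U) := by
  classical
  have hsum : Summable fun e : 𝔖.Edge => ∑ c ∈ O.toFinset, (grad (baseCoord f c.1) e) ^ 2 :=
    summable_sum fun c _ => baseCoord_finEnergy hf c.1
  refine Summable.of_nonneg_of_le (fun e => sq_nonneg _) (fun e => ?_) hsum
  have h0 : 0 ≤ ∑ c ∈ O.toFinset, (grad (baseCoord f c.1) e) ^ 2 := Finset.sum_nonneg fun c _ => sq_nonneg _
  have h1 := b3_grad_loc_le (𝔖 := 𝔖) (f := f) (O := O) hUcl e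
  have h2 : |grad (fun v => margin O fun i => baseCoord f i v) e| ≤
      Real.sqrt (∑ c ∈ O.toFinset, (grad (baseCoord f c.1) e) ^ 2) := by
    refine margin_lipschitz O _ _ (Real.sqrt_nonneg _) (fun c hc => ?_)
    refine Real.abs_le_sqrt ?_
    exact Finset.single_le_sum (f := fun c : (Γ ⊕ Γ) × ℝ × ℝ => (grad (baseCoord f c.1) e) ^ 2)
      (fun c _ => sq_nonneg _) (List.mem_toFinset.2 hc)
  have h3 := h1.trans h2
  calc grad (locCoord f O U) e ^ 2 = |grad (locCoord f O U) e| ^ 2 := (sq_abs _).symm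
    _ ≤ Real.sqrt (∑ c ∈ O.toFinset, (grad (baseCoord f c.1) e) ^ 2) ^ 2 :=
        pow_le_pow_left₀ (abs_nonneg _) h3 2
    _ = _ := Real.sq_sqrt h0

/-- **Lemma 3.4, cuts** (`lt_margin_iff` at the upper endpoint, `margin_lt_iff` at the lower endpoint) -/
theorem locCoord_cut (f : Γ → ℝ) (O : BoxData Γ) (U : Set Γ) (hU : U ⊆ boxV f O)
    (hUcl : ∀ u ∈ U, ∀ s ∈ 𝔖.S, u * s ∈ boxV f O → u * s ∈ U) (t : ℝ) (ht : t ∈ Ioo (0 : ℝ) 1) :
    cut 𝔖 (locCoord f O U) t ⊆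
      ⋃ c ∈ O, (cut 𝔖 (baseCoord f c.1) (c.2.1 + t) ∪ cut 𝔖 (baseCoord f c.1) (c.2.2 - t)) := by
  intro e he
  have key : ∀ y w : Γ, w⁻¹ * y ∈ 𝔖.S → locCoord f O U y < t → t < locCoord f O U w →
      ∃ c ∈ O, (baseCoord f c.1 y < c.2.1 + t ∧ c.2.1 + t < baseCoord f c.1 w) ∨
        (baseCoord f c.1 w < c.2.2 - t ∧ c.2.2 - t < baseCoord f c.1 y) := by
    intro y w hadj hy hw
    have hwU : w ∈ U := mem_of_locCoord_pos (ht.1.trans hw)
    rw [locCoord_of_mem f O hwU, lt_margin_iff O _ ht.1.le] at hw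
    rw [b3_loc_eq_of_adj (𝔖 := 𝔖) hUcl hwU hadj, margin_lt_iff O _ ht.1] at hy
    rcases hy with hy | ⟨c, hc, hy | hy⟩
    · exact absurd hy (not_lt.2 ht.2.le)
    · exact ⟨c, hc, Or.inl ⟨hy, (hw.2 c hc).1⟩⟩
    · exact ⟨c, hc, Or.inr ⟨(hw.2 c hc).2, hy⟩⟩
  rw [mem_cut_iff] at he
  rcases he with ⟨h1, h2⟩ | ⟨h1, h2⟩
  · obtain ⟨c, hc, h | h⟩ := key _ _ (b3_adj_tgt_src e) h1 h2
    · exact mem_biUnion hc (Or.inl ((mem_cut_iff _ _ e).2 (Or.inl h)))
    · exact mem_biUnion hc (Or.inr ((mem_cut_iff _ _ e).2 (Or.inr h)))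
  · obtain ⟨c, hc, h | h⟩ := key _ _ (b3_adj_src_tgt e) h1 h2
    · exact mem_biUnion hc (Or.inl ((mem_cut_iff _ _ e).2 (Or.inr h)))
    · exact mem_biUnion hc (Or.inr ((mem_cut_iff _ _ e).2 (Or.inl h)))

/-! ### the family -/

theorem famCoord_mem {f : Γ → ℝ} (hf : ∀ v, 0 ≤ f v ∧ f v ≤ 1) (𝔅 : BoxBasis 𝔖 f) (i : FamIdx 𝔅) (v : Γ) :
    famCoord 𝔅 i v ∈ Icc (0 : ℝ) 1 := by
  rcases i with i | p
  · exact baseCoord_mem hf i v
  · exact ⟨locCoord_nonneg _ _ _ _, (locCoord_le_margin _ _ _ _).trans (margin_mem _ _).2⟩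

theorem famCoord_finEnergy {f : Γ → ℝ} (hf : FinEnergy 𝔖 f) (𝔅 : BoxBasis 𝔖 f) (i : FamIdx 𝔅) :
    FinEnergy 𝔖 (famCoord 𝔅 i) := by
  rcases i with i | p
  · exact baseCoord_finEnergy hf i
  · exact locCoord_finEnergy hf _ _ (boxComp_subset _ _ _) (fun u hu s hs h => boxComp_closed hu hs h)

/-- equivariance of the family -/
theorem famCoord_famAct {f : Γ → ℝ} (𝔅 : BoxBasis 𝔖 f) (g : Γ) (i : FamIdx 𝔅) (v : Γ) :
    famCoord 𝔅 (famAct 𝔅 g i) (g * v) = famCoord 𝔅 i v := by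
  rcases i with i | ⟨⟨O, hO⟩, r⟩
  · exact baseCoord_trIdx f g i v
  · show locCoord f (trBox g O) (boxComp 𝔖 f (trBox g O) (g * r)) (g * v) = locCoord f O (boxComp 𝔖 f O r) v
    by_cases h : v ∈ boxComp 𝔖 f O r
    · rw [locCoord_of_mem f O h, locCoord_of_mem f _ ((boxComp_trBox f g O r v).2 h), margin_trBox]
      simp_rw [baseCoord_trIdx]
    · rw [locCoord_of_not_mem f O h, locCoord_of_not_mem f _ (fun h' => h ((boxComp_trBox f g O r v).1 h'))]

theorem famIdx_countable {f : Γ → ℝ} (𝔅 : BoxBasis 𝔖 f) : Countable (FamIdx 𝔅) := by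
  have := 𝔖.countable
  have := 𝔅.countable.to_subtype
  infer_instance

/-- **the walls**: `I := Γ ⊕ Γ`, `bs := baseCoord f` (`base_cut`); for a base coordinate `L := [(i, 0, 1)]`, for a localized coordinate
`L := O.flatMap fun c => [(c.1, c.2.1, 1), (c.1, c.2.2, -1)]` (`locCoord_cut`). -/
theorem walls_of_isFam {f : Γ → ℝ} (hf : IsPot 𝔖 f) (𝔅 : BoxBasis 𝔖 f) (C : Cpt 𝔖) (en : ℕ → FamIdx 𝔅)
    (hC : C.IsFam (famCoord 𝔅) en) : C.Walls := by
  refine ⟨Γ ⊕ Γ, baseCoord f, fun i => baseCoord_finEnergy hf.fin i, fun i t ht => base_cut hf i t ht, fun j => ?_⟩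
  have hvc : C.vc j = famCoord 𝔅 (en j) := funext fun v => hC.2 j v
  rw [hvc]
  rcases en j with i | ⟨⟨O, hO⟩, r⟩
  · refine ⟨[(i, 0, 1)], by simp, fun t _ e he => ?_⟩
    simp only [List.mem_singleton, iUnion_iUnion_eq_left, zero_add, one_mul]
    exact he
  · refine ⟨O.flatMap fun c => [(c.1, c.2.1, 1), (c.1, c.2.2, -1)], ?_, fun t ht e he => ?_⟩
    · intro l hl
      obtain ⟨c, _, hl⟩ := List.mem_flatMap.1 hl
      simp only [List.mem_cons, List.not_mem_nil, or_false] at hl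
      rcases hl with rfl | rfl
      · exact Or.inl rfl
      · exact Or.inr rfl
    · have h1 := locCoord_cut (𝔖 := 𝔖) f O (boxComp 𝔖 f O r) (boxComp_subset _ _ _)
        (fun u hu s hs h => boxComp_closed hu hs h) t ht he
      obtain ⟨c, hc, h2⟩ := mem_iUnion₂.1 h1
      rcases h2 with h2 | h2
      · refine mem_biUnion (x := (c.1, c.2.1, 1)) (List.mem_flatMap.2 ⟨c, hc, by simp⟩) ?_
        simpa using h2
      · refine mem_biUnion (x := (c.1, c.2.2, -1)) (List.mem_flatMap.2 ⟨c, hc, by simp⟩) ?_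
        simpa [sub_eq_add_neg] using h2

end Claimed.Agent.R309
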