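import Claimed.Agent.R309.S34.Dyn1

/-!
# Row 309, S34, package **S34-F1 (Conv1)**: convergence dynamics, basics; elements of infinite order are loxodromic or parabolic
(replaces the citation of Bowditch, Memoir, Lemma 6.2).

Statements: helper146 (sub-captain).  OWNER = the seat that claims subtask `S34-F1`.  Keep the statements verbatim (tell helper146 if one is false or awkward);
helper lemmas with prefix `c1_`.  May use `Graph.lean`, `L2.lean`, `Bdry.lean`, `Dyn1.lean` as black boxes.  ~900 lines.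
Everything is for an arbitrary `C : Cpt 𝔖` with `hc : C.Convergence`.
-/

set_option autoImplicit false

namespace Claimed.Agent.R309

open Filter Topology Set

variable {Γ : Type} [Group Γ] {𝔖 : GenSet Γ}

/-! ### sequences -/

/-- a sequence has finite range or an injective subsequence (indices of first occurrence, `Nat.exists_strictMono_subsequence`) -/
theorem finite_range_or_injective_subseq {α : Type} (k : ℕ → α) :
    (range k).Finite ∨ ∃ φ : ℕ → ℕ, StrictMono φ ∧ Function.Injective (k ∘ φ) := by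
  classical
  by_cases hfin : (range k).Finite
  · exact Or.inl hfin
  right
  have hinf : (range k).Infinite := hfin
  have hN : ∀ i : ℕ, ∃ j, i < j ∧ k j ∉ k '' Set.Iic i := by
    intro i
    obtain ⟨y, ⟨j, rfl⟩, hy⟩ := (hinf.sdiff ((Set.finite_Iic i).image k)).nonempty
    refine ⟨j, ?_, hy⟩
    by_contra hle
    exact hy ⟨j, not_lt.1 hle, rfl⟩
  choose N hN1 hN2 using hN
  let φ : ℕ → ℕ := fun n => Nat.rec 0 (fun _ x => N x) n
  have hφs : ∀ n, φ (n + 1) = N (φ n) := fun n => rfl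
  have hmono : StrictMono φ := strictMono_nat_of_lt_succ fun n => by
    rw [hφs]; exact hN1 _
  refine ⟨φ, hmono, ?_⟩
  have key : ∀ m n, m < n → k (φ m) ≠ k (φ n) := by
    intro m n hmn h
    obtain ⟨n', rfl⟩ : ∃ n', n = n' + 1 := ⟨n - 1, by omega⟩
    have h1 : φ m ≤ φ n' := hmono.monotone (by omega)
    have h2 := hN2 (φ n')
    rw [← hφs] at h2
    exact h2 ⟨φ m, h1, h⟩
  intro m n h
  rcases lt_trichotomy m n with h1 | h1 | h1
  · exact absurd h (key m n h1)
  · exact h1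
  · exact absurd h.symm (key n m h1)

/-- pigeonhole -/
theorem exists_frequently_eq_of_finite_range {α : Type} {k : ℕ → α} (h : (range k).Finite) : ∃ c, ∃ᶠ n in atTop, k n = c := by
  by_contra hcon
  push Not at hcon
  have h1 : ∀ c ∈ range k, ∀ᶠ n in atTop, k n ≠ c := fun c _ => hcon c
  have h2 := (eventually_all_finite h).2 h1
  obtain ⟨n, hn⟩ := h2.exists
  exact hn (k n) ⟨n, rfl⟩ rfl

/-- first index at which the distance from `a` reaches `c` (`Nat.find`) -/
theorem exists_crossing {X : Type} [PseudoMetricSpace X] (u : ℕ → X) (a : X) {c η : ℝ} (h0 : dist a (u 0) < c)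
    (hstep : ∀ k, dist (u k) (u (k + 1)) < η) (hfar : ∃ k, c ≤ dist a (u k)) : ∃ k, c ≤ dist a (u k) ∧ dist a (u k) < c + η := by
  classical
  refine ⟨Nat.find hfar, Nat.find_spec hfar, ?_⟩
  obtain ⟨k', hk'⟩ : ∃ k', Nat.find hfar = k' + 1 := by
    refine ⟨Nat.find hfar - 1, ?_⟩
    have : Nat.find hfar ≠ 0 := by
      intro h
      have := Nat.find_spec hfar
      rw [h] at this
      linarith
    omega
  have h1 : dist a (u k') < c := by
    have := Nat.find_min hfar (m := k') (by omega)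
    linarith [not_le.1 this]
  rw [hk']
  have h2 := dist_triangle a (u k') (u (k' + 1))
  have h3 := hstep k'
  linarith

/-- a sequence with vanishing steps in a compact metric space, all of whose cluster points lie in `{a, b}`, converges.  (If `a ≠ b` were both cluster points, then with `δ := dist a b / 3`
the sequence would visit the compact set `{x | δ ≤ dist a x ∧ δ ≤ dist b x}` infinitely often (`exists_crossing`), which gives a third cluster point.  If only one of them is a cluster point: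
`le_nhds_of_unique_clusterPt`-type argument.) -/
theorem tendsto_of_clusterPt_pair {X : Type} [MetricSpace X] [CompactSpace X] (u : ℕ → X)
    (hstep : Tendsto (fun n => dist (u n) (u (n + 1))) atTop (𝓝 0)) (a b : X)
    (hcl : ∀ z, MapClusterPt z atTop u → z = a ∨ z = b) : Tendsto u atTop (𝓝 a) ∨ Tendsto u atTop (𝓝 b) := by
  by_cases ha : MapClusterPt a atTop u
  swap
  · right
    refine le_nhds_of_unique_clusterPt fun x hx => ?_
    rcases hcl x hx with h | h
    · exact absurd (h ▸ hx) ha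
    · exact h
  by_cases hb : MapClusterPt b atTop u
  swap
  · left
    refine le_nhds_of_unique_clusterPt fun x hx => ?_
    rcases hcl x hx with h | h
    · exact h
    · exact absurd (h ▸ hx) hb
  by_cases hab : a = b
  · left
    refine le_nhds_of_unique_clusterPt fun x hx => ?_
    rcases hcl x hx with h | h
    · exact h
    · exact h.trans hab.symm
  exfalso
  set δ := dist a b / 3 with hδ
  have hδpos : 0 < δ := by
    have := dist_pos.2 hab
    positivity
  set K : Set X := {x | δ ≤ dist a x ∧ δ ≤ dist b x} with hK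
  have hKc : IsCompact K := by
    have h1 : IsClosed {x : X | δ ≤ dist a x} := isClosed_le continuous_const (continuous_const.dist continuous_id)
    have h2 : IsClosed {x : X | δ ≤ dist b x} := isClosed_le continuous_const (continuous_const.dist continuous_id)
    exact (h1.inter h2).isCompact
  have hfreq : ∃ᶠ n in atTop, u n ∈ K := by
    rw [frequently_atTop]
    intro N
    have hst : ∀ᶠ n in atTop, dist (u n) (u (n + 1)) < δ := hstep.eventually (gt_mem_nhds hδpos)
    obtain ⟨N₁, hN₁⟩ := eventually_atTop.1 hst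
    obtain ⟨n₀, hn₀, hn₀a⟩ := frequently_atTop.1 (ha.frequently (Metric.ball_mem_nhds a hδpos)) (max N N₁)
    obtain ⟨n₁, hn₁, hn₁b⟩ := frequently_atTop.1 (hb.frequently (Metric.ball_mem_nhds b hδpos)) n₀
    have hn₀a' : dist (u n₀) a < δ := hn₀a
    have hn₁b' : dist (u n₁) b < δ := hn₁b
    have hfar : ∃ k, δ ≤ dist a (u (n₀ + k)) := by
      refine ⟨n₁ - n₀, ?_⟩
      rw [Nat.add_sub_cancel' hn₁]
      have := dist_triangle a (u n₁) b
      have h3 : dist a b = 3 * δ := by rw [hδ]; ring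
      linarith
    obtain ⟨k, hk1, hk2⟩ := exists_crossing (fun k => u (n₀ + k)) a (c := δ) (η := δ)
      (by simpa [dist_comm] using hn₀a')
      (fun k => hN₁ (n₀ + k) (le_trans (le_max_right N N₁) (le_trans hn₀ (Nat.le_add_right _ _)))) hfar
    refine ⟨n₀ + k, le_trans (le_max_left N N₁) (le_trans hn₀ (Nat.le_add_right _ _)), hk1, ?_⟩
    have := dist_triangle a (u (n₀ + k)) b
    have h3 : dist a b = 3 * δ := by rw [hδ]; ring
    rw [dist_comm b]
    linarith
  obtain ⟨z, hzK, hz⟩ := hKc.exists_mapClusterPt_of_frequently hfreq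
  rcases hcl z hz with h | h
  · have := hzK.1
    rw [h, dist_self] at this
    linarith
  · have := hzK.2
    rw [h, dist_self] at this
    linarith

/-! ### the convergence property -/

/-- a sequence which leaves every finite set subconverges in both directions (`Cpt.exists_subseq` twice; `g ↦ g⁻¹` preserves `cofinite`) -/
theorem Cpt.exists_subseq_ab (C : Cpt 𝔖) {g : ℕ → Γ} (hg : Tendsto g atTop cofinite) :
    ∃ a ∈ C.B, ∃ b ∈ C.B, ∃ φ : ℕ → ℕ, StrictMono φ ∧ Tendsto (fun n => C.ι (g (φ n))) atTop (𝓝 a) ∧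
      Tendsto (fun n => C.ι (g (φ n))⁻¹) atTop (𝓝 b) := by
  obtain ⟨a, ha, φ₁, hφ₁, h₁⟩ := C.exists_subseq hg
  have hinv : Tendsto (fun n => (g (φ₁ n))⁻¹) atTop cofinite :=
    (inv_injective.tendsto_cofinite).comp (hg.comp hφ₁.tendsto_atTop)
  obtain ⟨b, hb, φ₂, hφ₂, h₂⟩ := C.exists_subseq hinv
  exact ⟨a, ha, b, hb, φ₁ ∘ φ₂, hφ₁.comp hφ₂, h₁.comp hφ₂.tendsto_atTop, h₂⟩

/-- moving points (`K :=` closed ball of radius `dist r b / 2` around `r`) -/
theorem Cpt.Convergence.tendsto_smul_seq {C : Cpt 𝔖} (hc : C.Convergence) {g : ℕ → Γ} {a b : C.X} (ha : a ∈ C.B) (hb : b ∈ C.B)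
    (hga : Tendsto (fun n => C.ι (g n)) atTop (𝓝 a)) (hgb : Tendsto (fun n => C.ι (g n)⁻¹) atTop (𝓝 b))
    {x : ℕ → C.X} {r : C.X} (hx : Tendsto x atTop (𝓝 r)) (hr : r ≠ b) : Tendsto (fun n => g n • x n) atTop (𝓝 a) := by
  have hpos : 0 < dist r b / 2 := by
    have := dist_pos.2 hr
    positivity
  have hK : IsCompact (Metric.closedBall r (dist r b / 2)) := Metric.isClosed_closedBall.isCompact
  have hbK : b ∉ Metric.closedBall r (dist r b / 2) := by
    rw [Metric.mem_closedBall, dist_comm]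
    intro h
    linarith
  have hu := Metric.tendstoUniformlyOn_iff.1 (hc g a b ha hb hga hgb _ hK hbK)
  rw [Metric.tendsto_nhds]
  intro ε hε
  filter_upwards [hu ε hε, hx.eventually (Metric.closedBall_mem_nhds r hpos)] with n hn hxn
  rw [dist_comm]
  exact hn _ hxn

theorem Cpt.Convergence.tendsto_smul {C : Cpt 𝔖} (hc : C.Convergence) {g : ℕ → Γ} {a b : C.X} (ha : a ∈ C.B) (hb : b ∈ C.B)
    (hga : Tendsto (fun n => C.ι (g n)) atTop (𝓝 a)) (hgb : Tendsto (fun n => C.ι (g n)⁻¹) atTop (𝓝 b))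
    {x : C.X} (hx : x ≠ b) : Tendsto (fun n => g n • x) atTop (𝓝 a) :=
  hc.tendsto_smul_seq ha hb hga hgb tendsto_const_nhds hx

/-- a compact set missing `b` is eventually mapped into a given neighbourhood of `a` -/
theorem Cpt.Convergence.eventually_mapsTo {C : Cpt 𝔖} (hc : C.Convergence) {g : ℕ → Γ} {a b : C.X} (ha : a ∈ C.B) (hb : b ∈ C.B)
    (hga : Tendsto (fun n => C.ι (g n)) atTop (𝓝 a)) (hgb : Tendsto (fun n => C.ι (g n)⁻¹) atTop (𝓝 b))
    {K U : Set C.X} (hK : IsCompact K) (hbK : b ∉ K) (hU : U ∈ 𝓝 a) : ∀ᶠ n in atTop, ∀ x ∈ K, g n • x ∈ U := by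
  obtain ⟨ε, hε, hsub⟩ := Metric.mem_nhds_iff.1 hU
  have hu := Metric.tendstoUniformlyOn_iff.1 (hc g a b ha hb hga hgb _ hK hbK)
  filter_upwards [hu ε hε] with n hn x hx
  apply hsub
  rw [Metric.mem_ball, dist_comm]
  exact hn x hx

/-- **properness on triples** (moving points).  If the range were infinite: injective subsequence, `exists_subseq_ab`; two of the `p i` differ from `b`, their images tend to the same point. -/
theorem Cpt.Convergence.finite_range_of_triple {C : Cpt 𝔖} (hc : C.Convergence) {k : ℕ → Γ} {x : Fin 3 → ℕ → C.X} {p q : Fin 3 → C.X}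
    (hp : Function.Injective p) (hq : Function.Injective q) (hx : ∀ i, Tendsto (x i) atTop (𝓝 (p i)))
    (h : ∀ i, Tendsto (fun m => k m • x i m) atTop (𝓝 (q i))) : (range k).Finite := by
  rcases finite_range_or_injective_subseq k with hfin | ⟨φ, hφ, hinj⟩
  · exact hfin
  exfalso
  have hcof : Tendsto (k ∘ φ) atTop cofinite := by
    have := hinj.tendsto_cofinite
    rwa [Nat.cofinite_eq_atTop] at this
  obtain ⟨a, ha, b, hb, ψ, hψ, hga, hgb⟩ := C.exists_subseq_ab hcof
  have hsub : Tendsto (fun n => φ (ψ n)) atTop atTop := hφ.tendsto_atTop.comp hψ.tendsto_atTop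
  have key : ∀ i, p i ≠ b → q i = a := by
    intro i hi
    have h1 : Tendsto (fun n => (k ∘ φ) (ψ n) • x i (φ (ψ n))) atTop (𝓝 a) :=
      hc.tendsto_smul_seq ha hb hga hgb ((hx i).comp hsub) hi
    have h2 : Tendsto (fun n => (k ∘ φ) (ψ n) • x i (φ (ψ n))) atTop (𝓝 (q i)) := (h i).comp hsub
    exact tendsto_nhds_unique h2 h1
  have two : ∀ i j : Fin 3, i ≠ j → p i ≠ b → p j ≠ b → False := fun i j hij hi hj =>
    hij (hq ((key i hi).trans (key j hj).symm))
  by_cases h0 : p 0 = b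
  · exact two 1 2 (by decide) (fun h1 => absurd (hp (h1.trans h0.symm)) (by decide))
      (fun h1 => absurd (hp (h1.trans h0.symm)) (by decide))
  · by_cases h1 : p 1 = b
    · exact two 0 2 (by decide) h0 (fun h2 => absurd (hp (h2.trans h1.symm)) (by decide))
    · exact two 0 1 (by decide) h0 h1

/-! ### elements of infinite order -/

theorem InfOrd.pow_injective {g : Γ} (hg : InfOrd g) : Function.Injective fun n : ℕ => g ^ n := by
  rw [injective_pow_iff_not_isOfFinOrder, isOfFinOrder_iff_pow_eq_one]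
  rintro ⟨n, hn, h⟩
  exact hg n hn h

theorem InfOrd.tendsto_pow {g : Γ} (hg : InfOrd g) : Tendsto (fun n : ℕ => g ^ n) atTop cofinite := by
  have := hg.pow_injective.tendsto_cofinite
  rwa [Nat.cofinite_eq_atTop] at this

theorem InfOrd.inv {g : Γ} (hg : InfOrd g) : InfOrd g⁻¹ := by
  intro n hn h
  rw [inv_pow, inv_eq_one] at h
  exact hg n hn h

theorem InfOrd.conj {g : Γ} (hg : InfOrd g) (k : Γ) : InfOrd (k * g * k⁻¹) := by
  intro n hn h
  rw [conj_pow, mul_inv_eq_one, mul_eq_left] at h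
  exact hg n hn h

theorem InfOrd.pow {g : Γ} (hg : InfOrd g) {N : ℕ} (hN : 0 < N) : InfOrd (g ^ N) := by
  intro n hn h
  rw [← pow_mul] at h
  exact hg (N * n) (Nat.mul_pos hN hn) h

/-- a limit of vertices commuting with `g` is fixed by `g` (`ι (g k_n) = g • ι k_n → g • z`, `ι (k_n g) → z` by `Cpt.tendsto_mul_right`) -/
theorem Cpt.fixed_of_commute {α : Type} (C : Cpt 𝔖) {l : Filter α} [l.NeBot] {k : α → Γ} {z : C.X} (hz : z ∈ C.B)
    (h : Tendsto (fun n => C.ι (k n)) l (𝓝 z)) (g : Γ) (hcomm : ∀ n, g * k n = k n * g) : g • z = z := by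
  have h1 : Tendsto (fun n => g • C.ι (k n)) l (𝓝 (g • z)) := ((C.act_cont g).tendsto z).comp h
  have h2 : Tendsto (fun n => C.ι (k n * g)) l (𝓝 z) := C.tendsto_mul_right hz h g
  have e : (fun n => g • C.ι (k n)) = fun n => C.ι (k n * g) := by
    funext n
    rw [C.smul_ι, hcomm]
  rw [e] at h1
  exact tendsto_nhds_unique h1 h2

theorem Cpt.pow_smul_of_fixed (C : Cpt 𝔖) {g : Γ} {z : C.X} (hz : g • z = z) (n : ℕ) : g ^ n • z = z := by
  induction n with
  | zero => simp
  | succ n ih => rw [pow_succ, mul_smul, hz, ih]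

theorem Cpt.inv_smul_of_fixed (C : Cpt 𝔖) {g : Γ} {z : C.X} (hz : g • z = z) : g⁻¹ • z = z := by
  rw [inv_smul_eq_iff, hz]

/-- every fixed point is one of the two limit points of a sequence of powers -/
theorem Cpt.Convergence.fixB_subset {C : Cpt 𝔖} (hc : C.Convergence) {g : Γ} {φ : ℕ → ℕ} {a b : C.X} (ha : a ∈ C.B) (hb : b ∈ C.B)
    (hga : Tendsto (fun n => C.ι (g ^ φ n)) atTop (𝓝 a)) (hgb : Tendsto (fun n => C.ι (g ^ φ n)⁻¹) atTop (𝓝 b)) :
    C.fixB g ⊆ {a, b} := by
  rintro z ⟨-, hz⟩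
  by_cases hzb : z = b
  · exact Or.inr hzb
  · left
    have h1 := hc.tendsto_smul ha hb hga hgb hzb
    simp only [C.pow_smul_of_fixed hz] at h1
    exact tendsto_nhds_unique tendsto_const_nhds h1

/-- the powers of an element of infinite order converge -/
theorem c1_tendsto_pow {C : Cpt 𝔖} {g : Γ} (hg : InfOrd g) {a₀ b₀ : C.X} (hfix : C.fixB g ⊆ {a₀, b₀}) :
    ∃ a, a ∈ C.fixB g ∧ Tendsto (fun n : ℕ => C.ι (g ^ n)) atTop (𝓝 a) := by
  have hstep : Tendsto (fun n : ℕ => dist (C.ι (g ^ n)) (C.ι (g ^ (n + 1)))) atTop (𝓝 0) := by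
    have := (C.right_move g).comp hg.tendsto_pow
    simpa only [Function.comp_def, pow_succ] using this
  have hmem : ∀ z, MapClusterPt z atTop (fun n : ℕ => C.ι (g ^ n)) → z ∈ C.fixB g := by
    intro z hz
    obtain ⟨ψ, hψ, hlim⟩ := hz.tendsto_subseq
    have hlim' : Tendsto (fun n => C.ι (g ^ ψ n)) atTop (𝓝 z) := hlim
    have hzB : z ∈ C.B := C.mem_B_of_tendsto (hg.tendsto_pow.comp hψ.tendsto_atTop) hlim'
    exact ⟨hzB, C.fixed_of_commute hzB hlim' g fun n => by rw [← pow_succ, ← pow_succ']⟩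
  have hconv := tendsto_of_clusterPt_pair _ hstep a₀ b₀ fun z hz => hfix (hmem z hz)
  rcases hconv with h | h
  · exact ⟨a₀, hmem _ h.mapClusterPt, h⟩
  · exact ⟨b₀, hmem _ h.mapClusterPt, h⟩

theorem c1_fixB_inv (C : Cpt 𝔖) (g : Γ) : C.fixB g⁻¹ = C.fixB g := by
  ext z
  constructor
  · rintro ⟨h1, h2⟩
    have := C.inv_smul_of_fixed h2
    rw [inv_inv] at this
    exact ⟨h1, this⟩
  · rintro ⟨h1, h2⟩
    exact ⟨h1, C.inv_smul_of_fixed h2⟩

/-- **(E1)**  `exists_subseq_ab` for the powers gives `a₀, b₀`, both fixed, `fixB g ⊆ {a₀, b₀}`.  Every cluster point of `ι (g ^ n)` lies in `B` and is fixed, the steps vanish (`right_move`),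
so `ι (g ^ n) → a`, `ι (g ^ n)⁻¹ → b` (`tendsto_of_clusterPt_pair`); `fixB g = {a, b}` by `fixB_subset` with `φ = id`. -/
theorem Cpt.Convergence.lox_or_par {C : Cpt 𝔖} (hc : C.Convergence) {g : Γ} (hg : InfOrd g) :
    (∃ a b, C.Lox g a b) ∨ ∃ p, C.Par g p := by
  obtain ⟨a₀, ha₀, b₀, hb₀, φ, -, hga₀, hgb₀⟩ := C.exists_subseq_ab hg.tendsto_pow
  have hfix₀ : C.fixB g ⊆ {a₀, b₀} := hc.fixB_subset ha₀ hb₀ hga₀ hgb₀
  obtain ⟨a, ha, hfwd⟩ := c1_tendsto_pow hg hfix₀
  obtain ⟨b, hb, hbwd'⟩ := c1_tendsto_pow hg.inv (by rw [c1_fixB_inv]; exact hfix₀)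
  rw [c1_fixB_inv] at hb
  have hbwd : Tendsto (fun n : ℕ => C.ι (g ^ n)⁻¹) atTop (𝓝 b) := by
    simpa only [inv_pow] using hbwd'
  have hsub : C.fixB g ⊆ {a, b} := hc.fixB_subset (φ := id) ha.1 hb.1 hfwd hbwd
  have hfix : C.fixB g = {a, b} := by
    refine Subset.antisymm hsub ?_
    rintro z (rfl | rfl)
    · exact ha
    · exact hb
  by_cases hab : a = b
  · right
    subst hab
    exact ⟨a, ha.1, by rw [hfix, pair_eq_singleton], hfwd, hbwd⟩
  · left
    exact ⟨a, b, hab, ha.1, hb.1, hfix, hfwd, hbwd⟩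

theorem Cpt.Convergence.par_of_fixB {C : Cpt 𝔖} (hc : C.Convergence) {g : Γ} (hg : InfOrd g) {p : C.X} (hp : C.fixB g = {p}) :
    C.Par g p := by
  rcases hc.lox_or_par hg with ⟨a, b, hl⟩ | ⟨p', hpar⟩
  · exfalso
    have h1 : a ∈ C.fixB g := by rw [hl.fix]; exact Or.inl rfl
    have h2 : b ∈ C.fixB g := by rw [hl.fix]; exact Or.inr rfl
    rw [hp] at h1 h2
    exact hl.ne (h1.trans h2.symm)
  · have h1 : p' ∈ C.fixB g := by rw [hpar.fix]; rfl
    rw [hp] at h1
    have h2 : p' = p := h1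
    rwa [h2] at hpar

/-- at most two fixed points -/
theorem Cpt.Convergence.fixB_not_three {C : Cpt 𝔖} (hc : C.Convergence) {g : Γ} (hg : InfOrd g) {z : Fin 3 → C.X}
    (hz : Function.Injective z) : ¬ ∀ i, z i ∈ C.fixB g := by
  intro h
  obtain ⟨a, b, hsub⟩ : ∃ a b, C.fixB g ⊆ {a, b} := by
    rcases hc.lox_or_par hg with ⟨a, b, hl⟩ | ⟨p, hpar⟩
    · exact ⟨a, b, hl.fix.subset⟩
    · exact ⟨p, p, by rw [hpar.fix, pair_eq_singleton]⟩
  have h0 := hsub (h 0)
  have h1 := hsub (h 1)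
  have h2 := hsub (h 2)
  have e01 : z 0 ≠ z 1 := fun e => absurd (hz e) (by decide)
  have e02 : z 0 ≠ z 2 := fun e => absurd (hz e) (by decide)
  have e12 : z 1 ≠ z 2 := fun e => absurd (hz e) (by decide)
  simp only [mem_insert_iff, mem_singleton_iff] at h0 h1 h2
  rcases h0 with h0 | h0 <;> rcases h1 with h1 | h1 <;> rcases h2 with h2 | h2 <;>
    first
      | exact e01 (h0.trans h1.symm)
      | exact e02 (h0.trans h2.symm)
      | exact e12 (h1.trans h2.symm)

theorem Cpt.Lox.symm {C : Cpt 𝔖} {g : Γ} {a b : C.X} (h : C.Lox g a b) : C.Lox g⁻¹ b a := by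
  refine ⟨h.ne.symm, h.memB, h.memA, by rw [c1_fixB_inv, h.fix, pair_comm], ?_, ?_⟩
  · simpa only [inv_pow] using h.bwd
  · simpa only [inv_pow, inv_inv] using h.fwd

/-- (`ι ((h g h⁻¹) ^ n) = h • ι (g ^ n * h⁻¹)`, `Cpt.tendsto_mul_right`, continuity of `h`) -/
theorem Cpt.Lox.conj {C : Cpt 𝔖} {g : Γ} {a b : C.X} (hl : C.Lox g a b) (h : Γ) : C.Lox (h * g * h⁻¹) (h • a) (h • b) := by
  refine ⟨fun e => hl.ne (smul_left_cancel h e), (C.smul_mem_B_iff h a).2 hl.memA, (C.smul_mem_B_iff h b).2 hl.memB,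
    ?_, ?_, ?_⟩
  · ext x
    have key : x ∈ C.fixB (h * g * h⁻¹) ↔ h⁻¹ • x ∈ C.fixB g := by
      constructor
      · rintro ⟨h1, h2⟩
        refine ⟨(C.smul_mem_B_iff _ _).2 h1, ?_⟩
        rw [mul_smul, mul_smul] at h2
        have h3 : h⁻¹ • h • g • h⁻¹ • x = h⁻¹ • x := by rw [h2]
        rwa [inv_smul_smul] at h3
      · rintro ⟨h1, h2⟩
        refine ⟨(C.smul_mem_B_iff _ _).1 h1, ?_⟩
        rw [mul_smul, mul_smul, h2, smul_inv_smul]
    rw [key, hl.fix]
    simp only [mem_insert_iff, mem_singleton_iff, inv_smul_eq_iff]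
  · have h1 : Tendsto (fun n : ℕ => h • C.ι (g ^ n * h⁻¹)) atTop (𝓝 (h • a)) :=
      ((C.act_cont h).tendsto a).comp (C.tendsto_mul_right hl.memA hl.fwd h⁻¹)
    refine h1.congr fun n => ?_
    rw [C.smul_ι, conj_pow, mul_assoc]
  · have h1 : Tendsto (fun n : ℕ => h • C.ι ((g ^ n)⁻¹ * h⁻¹)) atTop (𝓝 (h • b)) :=
      ((C.act_cont h).tendsto b).comp (C.tendsto_mul_right hl.memB hl.bwd h⁻¹)
    refine h1.congr fun n => ?_
    rw [C.smul_ι, conj_pow]
    congr 1
    group

theorem Cpt.Lox.pow {C : Cpt 𝔖} (hc : C.Convergence) {g : Γ} {a b : C.X} (hl : C.Lox g a b) {N : ℕ} (hN : 0 < N) :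
    C.Lox (g ^ N) a b := by
  have hsub : Tendsto (fun n : ℕ => N * n) atTop atTop :=
    tendsto_id.const_mul_atTop' hN
  have hfwd : Tendsto (fun n : ℕ => C.ι ((g ^ N) ^ n)) atTop (𝓝 a) := by
    simpa only [← pow_mul, Function.comp_def] using hl.fwd.comp hsub
  have hbwd : Tendsto (fun n : ℕ => C.ι ((g ^ N) ^ n)⁻¹) atTop (𝓝 b) := by
    simpa only [← pow_mul, Function.comp_def] using hl.bwd.comp hsub
  refine ⟨hl.ne, hl.memA, hl.memB, ?_, hfwd, hbwd⟩
  refine Subset.antisymm (hc.fixB_subset (φ := id) hl.memA hl.memB hfwd hbwd) ?_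
  have ha : a ∈ C.fixB g := by rw [hl.fix]; exact Or.inl rfl
  have hb : b ∈ C.fixB g := by rw [hl.fix]; exact Or.inr rfl
  rintro z (rfl | rfl)
  · exact ⟨ha.1, C.pow_smul_of_fixed ha.2 N⟩
  · exact ⟨hb.1, C.pow_smul_of_fixed hb.2 N⟩

/-- pointwise dynamics of a loxodromic element -/
theorem Cpt.Lox.tendsto_smul {C : Cpt 𝔖} (hc : C.Convergence) {g : Γ} {a b : C.X} (hl : C.Lox g a b) {x : C.X} (hx : x ≠ b) :
    Tendsto (fun n : ℕ => g ^ n • x) atTop (𝓝 a) :=
  hc.tendsto_smul hl.memA hl.memB hl.fwd hl.bwd hx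

/-- pointwise dynamics of a parabolic element (all points of `X`) -/
theorem Cpt.Par.tendsto_smul {C : Cpt 𝔖} (hc : C.Convergence) {g : Γ} {p : C.X} (hl : C.Par g p) (x : C.X) :
    Tendsto (fun n : ℕ => g ^ n • x) atTop (𝓝 p) := by
  by_cases hx : x = p
  · have hp : p ∈ C.fixB g := by rw [hl.fix]; rfl
    subst hx
    simp only [C.pow_smul_of_fixed hp.2]
    exact tendsto_const_nhds
  · exact hc.tendsto_smul hl.mem hl.mem hl.fwd hl.bwd hx

end Claimed.Agent.R309
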