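import Claimed.Agent.R309.S34.Conv1

/-!
# Row 309, S34, package **S34-F2 (Conv2)**: fixed points of loxodromic elements; no global fixed point
(replaces the citation of Bowditch, Memoir, Proposition 6.4 / Tukia, in the form needed for Proposition 4.5).

Statements: helper146 (sub-captain).  OWNER = the seat that claims subtask `S34-F2`.  Keep the statements verbatim; helper lemmas with prefix `c2_`.
May use `Bdry.lean`, `Dyn1.lean`, `Conv1.lean` as black boxes.  ~700 lines.
-/

set_option autoImplicit false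

namespace Claimed.Agent.R309

open Filter Topology Set

variable {Γ : Type} [Group Γ] {𝔖 : GenSet Γ}

/-- `finite_range_of_triple` without `Fin 3` -/
theorem c2_finite_range {C : Cpt 𝔖} (hc : C.Convergence) {k : ℕ → Γ} {x₀ x₁ x₂ : ℕ → C.X} {p₀ p₁ p₂ q₀ q₁ q₂ : C.X}
    (hp01 : p₀ ≠ p₁) (hp02 : p₀ ≠ p₂) (hp12 : p₁ ≠ p₂) (hq01 : q₀ ≠ q₁) (hq02 : q₀ ≠ q₂) (hq12 : q₁ ≠ q₂)
    (hx₀ : Tendsto x₀ atTop (𝓝 p₀)) (hx₁ : Tendsto x₁ atTop (𝓝 p₁)) (hx₂ : Tendsto x₂ atTop (𝓝 p₂))
    (h₀ : Tendsto (fun m => k m • x₀ m) atTop (𝓝 q₀)) (h₁ : Tendsto (fun m => k m • x₁ m) atTop (𝓝 q₁))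
    (h₂ : Tendsto (fun m => k m • x₂ m) atTop (𝓝 q₂)) : (range k).Finite := by
  have inj : ∀ r₀ r₁ r₂ : C.X, r₀ ≠ r₁ → r₀ ≠ r₂ → r₁ ≠ r₂ → Function.Injective ![r₀, r₁, r₂] := by
    intro r₀ r₁ r₂ h01 h02 h12 i j hij
    fin_cases i <;> fin_cases j <;> simp_all [eq_comm]
  refine hc.finite_range_of_triple (x := ![x₀, x₁, x₂]) (p := ![p₀, p₁, p₂]) (q := ![q₀, q₁, q₂])
    (inj _ _ _ hp01 hp02 hp12) (inj _ _ _ hq01 hq02 hq12) ?_ ?_
  · intro i
    fin_cases i
    · exact hx₀
    · exact hx₁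
    · exact hx₂
  · intro i
    fin_cases i
    · exact h₀
    · exact h₁
    · exact h₂

/-- **an element fixing the repelling point of a loxodromic element fixes the attracting point.**
Suppose `a'' := h • a ≠ a`; `a'' ≠ b`.  `g' := h g h⁻¹` is loxodromic with points `a'', b` (`Lox.conj`).
`Ā := closedBall a ρ`, `U := ball a ρ`, `ρ := dist a b / 2`.  `eventually_mapsTo`: `N > 0` with `g ^ N • Ā ⊆ U`; `γ := g ^ N` (`Lox.pow`).
`y m := (g' ^ m)⁻¹ • a → b` (`Lox.symm`, `Lox.tendsto_smul`, `a ≠ a''`), `y m ≠ b`.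
`n m :=` least `n` with `γ ^ n • y m ∈ U` (exists: `Lox.tendsto_smul`, `y m ≠ b`).  For each fixed `n`: `γ ^ n • y m → b ∉ Ā` as `m → ∞`, hence `n m → ∞`.
`z m := γ ^ n m • y m ∈ K := Ā \ γ • U` for large `m` (`n m ≥ 1`, minimality); `K` is compact, `a ∉ K` (`a = γ • a`), `b ∉ K`.  Subsequence with `z m → κ ∈ K`.
`k m := γ ^ n m * (g' ^ m)⁻¹`:  `k m • a = z m → κ`,  `k m • b = b`,  `k m • a'' = γ ^ n m • a'' → a`.  The points `a, b, a''` are distinct and `κ, b, a` are distinct:
`finite_range_of_triple`, `exists_frequently_eq_of_finite_range`: `k m = k₀` frequently, so `k₀ • a'' = a`, so `γ ^ n m • a'' = a` for some `m`, so `a'' = a`. -/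
theorem Cpt.Lox.fix_other {C : Cpt 𝔖} (hc : C.Convergence) {g : Γ} {a b : C.X} (hl : C.Lox g a b) {h : Γ} (hb : h • b = b) :
    h • a = a := by
  classical
  by_contra hne
  set a'' := h • a with ha''
  have ha''b : a'' ≠ b := by
    intro e
    rw [ha'', ← hb] at e
    exact hl.ne (smul_left_cancel h e)
  have hl' : C.Lox (h * g * h⁻¹) a'' b := by
    have := hl.conj h
    rwa [hb] at this
  set g' := h * g * h⁻¹ with hg'
  set ρ := dist a b / 2 with hρ
  have hρpos : 0 < ρ := by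
    have := dist_pos.2 hl.ne
    positivity
  have hbA : b ∉ Metric.closedBall a ρ := by
    rw [Metric.mem_closedBall, dist_comm]
    intro h'
    have := dist_pos.2 hl.ne
    linarith
  have hAc : IsCompact (Metric.closedBall a ρ) := Metric.isClosed_closedBall.isCompact
  -- the power `γ`
  obtain ⟨N, hNpos, hN⟩ : ∃ N : ℕ, 0 < N ∧ ∀ x ∈ Metric.closedBall a ρ, g ^ N • x ∈ Metric.ball a ρ := by
    have h1 := hc.eventually_mapsTo hl.memA hl.memB hl.fwd hl.bwd hAc hbA (Metric.ball_mem_nhds a hρpos)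
    obtain ⟨N, hN1, hN2⟩ := (h1.and (eventually_gt_atTop 0)).exists
    exact ⟨N, hN2, hN1⟩
  have hlγ : C.Lox (g ^ N) a b := hl.pow hc hNpos
  set γ := g ^ N with hγ
  have hγa : γ • a = a := by
    have : a ∈ C.fixB γ := by rw [hlγ.fix]; exact Or.inl rfl
    exact this.2
  have hγb : γ • b = b := by
    have : b ∈ C.fixB γ := by rw [hlγ.fix]; exact Or.inr rfl
    exact this.2
  have hg'a : g' • a'' = a'' := by
    have : a'' ∈ C.fixB g' := by rw [hl'.fix]; exact Or.inl rfl
    exact this.2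
  have hg'b : g' • b = b := by
    have : b ∈ C.fixB g' := by rw [hl'.fix]; exact Or.inr rfl
    exact this.2
  -- the points `y m`
  set y : ℕ → C.X := fun m => (g' ^ m)⁻¹ • a with hy
  have hylim : Tendsto y atTop (𝓝 b) := by
    have := hl'.symm.tendsto_smul hc (x := a) (Ne.symm hne)
    simpa only [inv_pow] using this
  have hyb : ∀ m, y m ≠ b := by
    intro m e
    have h1 : (g' ^ m)⁻¹ • b = b := C.inv_smul_of_fixed (C.pow_smul_of_fixed hg'b m)
    rw [hy] at e
    simp only at e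
    rw [← h1] at e
    exact hl.ne (smul_left_cancel _ e)
  have hex : ∀ m, ∃ n : ℕ, γ ^ n • y m ∈ Metric.ball a ρ := by
    intro m
    exact ((hlγ.tendsto_smul hc (hyb m)).eventually (Metric.ball_mem_nhds a hρpos)).exists
  set n : ℕ → ℕ := fun m => Nat.find (hex m) with hn
  have hnspec : ∀ m, γ ^ n m • y m ∈ Metric.ball a ρ := fun m => Nat.find_spec (hex m)
  have hnmin : ∀ m j, j < n m → γ ^ j • y m ∉ Metric.ball a ρ := fun m j hj => Nat.find_min (hex m) hj
  have hninf : Tendsto n atTop atTop := by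
    rw [tendsto_atTop]
    intro n₀
    have h1 : ∀ j ∈ Set.Iio n₀, ∀ᶠ m in atTop, γ ^ j • y m ∉ Metric.ball a ρ := by
      intro j _
      have h2 : Tendsto (fun m => γ ^ j • y m) atTop (𝓝 b) := by
        have := ((C.act_cont (γ ^ j)).tendsto b).comp hylim
        rwa [C.pow_smul_of_fixed hγb j] at this
      have h3 := h2.eventually (Metric.isClosed_closedBall.isOpen_compl.mem_nhds hbA)
      filter_upwards [h3] with m hm hm'
      exact hm (Metric.ball_subset_closedBall hm')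
    filter_upwards [(eventually_all_finite (Set.finite_Iio n₀)).2 h1] with m hm
    by_contra hlt
    exact hm (n m) (not_le.1 hlt) (hnspec m)
  -- the compact set `K`
  set K : Set C.X := Metric.closedBall a ρ \ ((fun x => γ • x) '' Metric.ball a ρ) with hK
  have hopen : IsOpen ((fun x : C.X => γ • x) '' Metric.ball a ρ) := by
    have e : (fun x : C.X => γ • x) '' Metric.ball a ρ = (fun x : C.X => γ⁻¹ • x) ⁻¹' Metric.ball a ρ := by
      ext x
      constructor
      · rintro ⟨w, hw, rfl⟩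
        show γ⁻¹ • γ • w ∈ Metric.ball a ρ
        rwa [inv_smul_smul]
      · intro hx
        exact ⟨γ⁻¹ • x, hx, smul_inv_smul _ _⟩
    rw [e]
    exact Metric.isOpen_ball.preimage (C.act_cont γ⁻¹)
  have hKc : IsCompact K := (Metric.isClosed_closedBall.sdiff hopen).isCompact
  have haK : a ∉ K := fun h' => h'.2 ⟨a, Metric.mem_ball_self hρpos, hγa⟩
  have hbK : b ∉ K := fun h' => hbA h'.1
  have hzK : ∀ᶠ m in atTop, γ ^ n m • y m ∈ K := by
    filter_upwards [hninf.eventually (eventually_ge_atTop 1)] with m hm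
    refine ⟨Metric.ball_subset_closedBall (hnspec m), ?_⟩
    rintro ⟨w, hw, hwe⟩
    obtain ⟨j, hj⟩ : ∃ j, n m = j + 1 := ⟨n m - 1, by omega⟩
    have h1 : γ • w = γ • (γ ^ j • y m) := by
      have : (fun x : C.X => γ • x) w = γ ^ n m • y m := hwe
      rw [show (fun x : C.X => γ • x) w = γ • w from rfl] at this
      rw [this, hj, pow_succ', mul_smul]
    have h2 : w = γ ^ j • y m := smul_left_cancel γ h1
    exact hnmin m j (by omega) (h2 ▸ hw)
  obtain ⟨κ, hκK, φ, hφ, hκ⟩ := hKc.tendsto_subseq' hzK.frequently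
  have hκa : κ ≠ a := fun e => haK (e ▸ hκK)
  have hκb : κ ≠ b := fun e => hbK (e ▸ hκK)
  set k : ℕ → Γ := fun j => γ ^ n (φ j) * (g' ^ φ j)⁻¹ with hk
  have hka : Tendsto (fun j => k j • a) atTop (𝓝 κ) := by
    refine hκ.congr fun j => ?_
    simp only [hk, mul_smul, Function.comp_apply, hy]
  have hkb : Tendsto (fun j => k j • b) atTop (𝓝 b) := by
    have e : ∀ j, k j • b = b := by
      intro j
      simp only [hk, mul_smul]
      rw [C.inv_smul_of_fixed (C.pow_smul_of_fixed hg'b _), C.pow_smul_of_fixed hγb]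
    simp only [e]
    exact tendsto_const_nhds
  have hka''e : ∀ j, k j • a'' = γ ^ n (φ j) • a'' := by
    intro j
    simp only [hk, mul_smul]
    rw [C.inv_smul_of_fixed (C.pow_smul_of_fixed hg'a _)]
  have hka'' : Tendsto (fun j => k j • a'') atTop (𝓝 a) := by
    simp only [hka''e]
    exact (hlγ.tendsto_smul hc ha''b).comp (hninf.comp hφ.tendsto_atTop)
  have hfin : (range k).Finite :=
    c2_finite_range hc hl.ne (Ne.symm hne) (Ne.symm ha''b) hκb hκa (Ne.symm hl.ne)
      tendsto_const_nhds tendsto_const_nhds tendsto_const_nhds hka hkb hka''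
  obtain ⟨k₀, hk₀⟩ := exists_frequently_eq_of_finite_range hfin
  have hk₀a : k₀ • a'' = a := by
    refine (tendsto_nhds_unique_of_frequently_eq hka'' (tendsto_const_nhds (x := k₀ • a'')) ?_).symm
    exact hk₀.mono fun j hj => by rw [hj]
  obtain ⟨j, hj⟩ := hk₀.exists
  have h1 : γ ^ n (φ j) • a'' = a := by rw [← hka''e, hj, hk₀a]
  have h2 : γ ^ n (φ j) • a'' = γ ^ n (φ j) • a := by rw [h1, C.pow_smul_of_fixed hγa]
  exact hne (smul_left_cancel _ h2)

/-- if `Γ` fixes two boundary points there is no other boundary point: `x ∈ B`, `u_n → x` (`Cpt.exists_seq`, `Cpt.tendsto_cofinite`), `exists_subseq_ab` gives `β`;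
`a ≠ β` or `b ≠ β`; `u_n • a = a → x` or `u_n • b = b → x`. -/
theorem Cpt.Convergence.B_subset_of_two_fixed {C : Cpt 𝔖} (hc : C.Convergence) {a b : C.X} (hab : a ≠ b)
    (hfa : ∀ h : Γ, h • a = a) (hfb : ∀ h : Γ, h • b = b) : C.B ⊆ {a, b} := by
  intro x hx
  obtain ⟨u, hu⟩ := C.exists_seq x
  have hcof := C.tendsto_cofinite hx hu
  obtain ⟨α, hα, β, hβ, φ, hφ, h1, h2⟩ := C.exists_subseq_ab hcof
  have hαx : α = x := tendsto_nhds_unique h1 (hu.comp hφ.tendsto_atTop)
  subst hαx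
  by_cases haβ : a = β
  · right
    have hbβ : b ≠ β := fun e => hab (haβ.trans e.symm)
    have h3 := hc.tendsto_smul hα hβ h1 h2 hbβ
    simp only [hfb] at h3
    exact (tendsto_nhds_unique tendsto_const_nhds h3).symm
  · left
    have h3 := hc.tendsto_smul hα hβ h1 h2 haβ
    simp only [hfa] at h3
    exact (tendsto_nhds_unique tendsto_const_nhds h3).symm

/-- **no global fixed point if there is a loxodromic element** -/
theorem Cpt.Lox.no_global_fix {C : Cpt 𝔖} (hc : C.Convergence) (hB : C.B.Infinite) {g : Γ} {a b : C.X} (hl : C.Lox g a b)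
    {c : C.X} (hcB : c ∈ C.B) : ¬ ∀ h : Γ, h • c = c := by
  intro hfix
  have hc' : c ∈ C.fixB g := ⟨hcB, hfix g⟩
  rw [hl.fix] at hc'
  have hfin : ({a, b} : Set C.X).Finite := by simp
  rcases hc' with rfl | hcb
  · exact hB (hfin.subset (hc.B_subset_of_two_fixed hl.ne hfix fun h => hl.symm.fix_other hc (hfix h)))
  · have hcb' : c = b := hcb
    subst hcb'
    exact hB (hfin.subset (hc.B_subset_of_two_fixed hl.ne (fun h => hl.fix_other hc (hfix h)) hfix))

end Claimed.Agent.R309
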