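import Claimed.Agent.R309.S34.Conv2

/-!
# Row 309, S34, package **S34-F3 (Conv3)**: parabolic comparison (Lemma 4.4) and minimality (Proposition 4.5).

Statements: helper146 (sub-captain).  OWNER = the seat that claims subtask `S34-F3`.  Keep the statements verbatim; helper lemmas with prefix `c3_`.
May use `Bdry.lean`, `Dyn1.lean`, `Conv1.lean`, `Conv2.lean` as black boxes.  ~1000 lines.  May be split between two seats (the two theorems are independent).
-/

set_option autoImplicit false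

namespace Claimed.Agent.R309

open Filter Topology Set

variable {Γ : Type} [Group Γ] {𝔖 : GenSet Γ}

theorem c3_par_fixed {C : Cpt 𝔖} {h : Γ} {p : C.X} (hpar : C.Par h p) : h • p = p := by
  have : p ∈ C.fixB h := by rw [hpar.fix]; rfl
  exact this.2

/-- step (1) -/
theorem c3_fiber {C : Cpt 𝔖} {h : Γ} {p : C.X} (hpar : C.Par h p) {ε : ℝ} (hε : 0 < ε) (w : Γ) :
    {g : Γ | ε ≤ dist (C.ι g) (g • p) ∧ ∃ j : ℕ, g * h ^ j = w}.Finite := by
  have hlim : Tendsto (fun j : ℕ => C.ι (w * (h ^ j)⁻¹)) atTop (𝓝 (w • p)) := by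
    have := ((C.act_cont w).tendsto p).comp hpar.bwd
    refine this.congr fun j => ?_
    exact C.smul_ι _ _
  obtain ⟨J, hJ⟩ := eventually_atTop.1 (hlim.eventually (Metric.ball_mem_nhds _ hε))
  refine ((Set.finite_Iio J).image (fun j : ℕ => w * (h ^ j)⁻¹)).subset ?_
  rintro g ⟨hg, j, rfl⟩
  refine ⟨j, ?_, by group⟩
  by_contra hj
  have h1 := hJ j (not_lt.1 hj)
  rw [mul_inv_cancel_right, mul_smul, C.pow_smul_of_fixed (c3_par_fixed hpar)] at h1
  linarith

/-- step (2) -/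
theorem c3_steps {C : Cpt 𝔖} {h : Γ} {p : C.X} (hpar : C.Par h p) {ε : ℝ} (hε : 0 < ε) {η : ℝ} (hη : 0 < η) :
    {g : Γ | ε ≤ dist (C.ι g) (g • p) ∧ ∃ j : ℕ, η ≤ dist (C.ι (g * h ^ j)) (C.ι (g * h ^ (j + 1)))}.Finite := by
  have hE : {w : Γ | η ≤ dist (C.ι w) (C.ι (w * h))}.Finite := by
    have h1 := (C.right_move h).eventually (gt_mem_nhds hη)
    rw [Filter.eventually_cofinite] at h1
    refine h1.subset ?_
    intro w hw
    exact not_lt.2 hw
  refine (Set.Finite.biUnion hE fun w _ => c3_fiber hpar hε w).subset ?_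
  rintro g ⟨hg, j, hj⟩
  simp only [Set.mem_iUnion]
  refine ⟨g * h ^ j, ?_, hg, j, rfl⟩
  show η ≤ dist (C.ι (g * h ^ j)) (C.ι (g * h ^ j * h))
  rwa [mul_assoc, ← pow_succ]

/-- step (3) -/
theorem c3_cross {C : Cpt 𝔖} {h : Γ} {p : C.X} (hpar : C.Par h p) {ε : ℝ} {g : Γ} (hg : ε ≤ dist (C.ι g) (g • p)) {η : ℝ}
    (hstep : ∀ j : ℕ, dist (C.ι (g * h ^ j)) (C.ι (g * h ^ (j + 1))) < η) {c : ℝ} (hc0 : 0 < c) (hcε : c < ε) :
    ∃ j : ℕ, c ≤ dist (C.ι g) (C.ι (g * h ^ j)) ∧ dist (C.ι g) (C.ι (g * h ^ j)) < c + η := by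
  refine exists_crossing (fun j : ℕ => C.ι (g * h ^ j)) (C.ι g) (by simpa using hc0) hstep ?_
  have hlim : Tendsto (fun j : ℕ => C.ι (g * h ^ j)) atTop (𝓝 (g • p)) := by
    have := ((C.act_cont g).tendsto p).comp hpar.fwd
    refine this.congr fun j => ?_
    exact C.smul_ι _ _
  have h1 : Tendsto (fun j : ℕ => dist (C.ι g) (C.ι (g * h ^ j))) atTop (𝓝 (dist (C.ι g) (g • p))) :=
    tendsto_const_nhds.dist hlim
  obtain ⟨j, hj⟩ := (h1.eventually (lt_mem_nhds (lt_of_lt_of_le hcε hg))).exists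
  exact ⟨j, hj.le⟩

/-- passage to the limit in step (4) -/
theorem c3_limit {X : Type} [MetricSpace X] {A Y Y' : ℕ → X} {α z : X} {c : ℝ} {δ : ℕ → ℝ} (hδ : Tendsto δ atTop (𝓝 0))
    (hA : Tendsto A atTop (𝓝 α)) (hY : Tendsto Y atTop (𝓝 z)) (h1 : ∀ n, c ≤ dist (A n) (Y n))
    (h2 : ∀ n, dist (A n) (Y n) < c + δ n) (h3 : ∀ n, dist (Y n) (Y' n) < δ n) :
    dist α z = c ∧ Tendsto Y' atTop (𝓝 z) := by
  constructor
  · have hd : Tendsto (fun n => dist (A n) (Y n)) atTop (𝓝 (dist α z)) := hA.dist hY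
    have hc : Tendsto (fun n => dist (A n) (Y n)) atTop (𝓝 c) := by
      refine tendsto_of_tendsto_of_tendsto_of_le_of_le tendsto_const_nhds ?_ h1 fun n => (h2 n).le
      simpa using (tendsto_const_nhds (x := c)).add hδ
    exact tendsto_nhds_unique hd hc
  · have h0 : Tendsto (fun n => dist (Y n) (Y' n)) atTop (𝓝 0) :=
      squeeze_zero (fun _ => dist_nonneg) (fun n => (h3 n).le) hδ
    rw [tendsto_iff_dist_tendsto_zero] at hY ⊢
    refine squeeze_zero (fun _ => dist_nonneg) (fun n => ?_) (by simpa using h0.add hY)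
    rw [dist_comm (Y n) (Y' n)]
    exact dist_triangle _ _ _

theorem c3_inj {X : Type} {r₀ r₁ r₂ : X} (h01 : r₀ ≠ r₁) (h02 : r₀ ≠ r₂) (h12 : r₁ ≠ r₂) :
    Function.Injective ![r₀, r₁, r₂] := by
  intro i j hij
  fin_cases i <;> fin_cases j <;> simp_all [eq_comm]

/-- a nontrivial element fixes no vertex -/
theorem c3_mem_B_of_fixed (C : Cpt 𝔖) {k : Γ} (hk : k ≠ 1) {z : C.X} (hz : k • z = z) : z ∈ C.B := by
  intro hzr
  obtain ⟨v, rfl⟩ := hzr
  rw [C.smul_ι] at hz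
  exact hk (mul_eq_right.1 (C.ι_inj hz))

/-- **Lemma 4.4.**  `Par h p` by `par_of_fixB`; first assertion = `Par.tendsto_smul`.  Second assertion: fix `ε > 0`, `Bad := {g | ε ≤ dist (ι g) (g • p)}`; show `Bad` finite.
(1) for each `w`: `{g ∈ Bad | ∃ j : ℕ, g * h ^ j = w}` is finite: such a `g` is `w * (h ^ j)⁻¹`, `g • p = w • p`, and `ι (w * (h ^ j)⁻¹) = w • ι (h ^ j)⁻¹ → w • p` (`Par.bwd`).
(2) for each `η > 0`: for all but finitely many `g ∈ Bad`: `∀ j, dist (ι (g h^j)) (ι (g h^(j+1))) < η`  (`right_move` for `s = h`: finitely many exceptional vertices `w`; (1)).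
(3) for `g ∈ Bad` the sequence `u j := ι (g * h ^ j)` starts at `ι g` and tends to `g • p` (`Par.fwd`, continuity of `g`), which has distance `≥ ε` from `ι g`.  `exists_crossing` with centre `ι g` and
    `c_i := (i+1) ε / 4`, `i = 0, 1, 2`: indices `j_i` with `c_i ≤ dist (ι g) (u (j_i)) < c_i + η`.
(4) if `Bad` is infinite: an injective sequence `g_n ∈ Bad` with steps `< 1/(n+1)`; `y i n := ι (g_n h^{j_i(n)})`, `y' i n := ι (g_n h^{j_i(n)+1}) = k_n • y i n`, `k_n := g_n h g_n⁻¹`.  Subsequence with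
    `ι g_n → a`, `y i n → z i` (`i = 0,1,2`); `dist a (z i) = c_i`, so the `z i` are distinct; `y' i n → z i`.  `z i ∈ B` because `g_n h^{j_i(n)}` leaves every finite set, by (1).
    `finite_range_of_triple`: `k_n = k₀` frequently; `k₀ • z i = z i`; `k₀` has infinite order (`InfOrd.conj`): contradiction with `fixB_not_three`. -/
theorem Cpt.Convergence.parab_comp {C : Cpt 𝔖} (hc : C.Convergence) {h : Γ} {p : C.X} (hh : InfOrd h) (hp : C.fixB h = {p}) :
    (∀ z ∈ C.B, Tendsto (fun n : ℕ => h ^ n • z) atTop (𝓝 p)) ∧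
    Tendsto (fun g : Γ => dist (C.ι g) (g • p)) cofinite (𝓝 0) := by
  have hpar := hc.par_of_fixB hh hp
  refine ⟨fun z _ => hpar.tendsto_smul hc z, ?_⟩
  rw [Metric.tendsto_nhds]
  intro ε hε
  rw [Filter.eventually_cofinite]
  have hbad : {g : Γ | ε ≤ dist (C.ι g) (g • p)}.Finite := by
    by_contra hinf
    have hinf' : {g : Γ | ε ≤ dist (C.ι g) (g • p)}.Infinite := hinf
    set e := hinf'.natEmbedding with he
    have hecof : Tendsto (fun m => (e m : Γ)) atTop cofinite := by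
      have hinj : Function.Injective fun m => (e m : Γ) := fun m n hmn => e.injective (Subtype.ext hmn)
      have := hinj.tendsto_cofinite
      rwa [Nat.cofinite_eq_atTop] at this
    have hP : ∀ n : ℕ, ∃ N, ∀ m ≥ N, ∀ j : ℕ,
        dist (C.ι ((e m : Γ) * h ^ j)) (C.ι ((e m : Γ) * h ^ (j + 1))) < 1 / ((n : ℝ) + 1) := by
      intro n
      have hη : (0 : ℝ) < 1 / ((n : ℝ) + 1) := by positivity
      have h1 := hecof.eventually (c3_steps hpar hε hη).compl_mem_cofinite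
      obtain ⟨N, hN⟩ := eventually_atTop.1 h1
      refine ⟨N, fun m hm j => ?_⟩
      by_contra hcon
      exact hN m hm ⟨(e m).2, j, not_lt.1 hcon⟩
    obtain ⟨σ, hσ, hstep⟩ := extraction_forall_of_eventually' hP
    set G : ℕ → Γ := fun n => (e (σ n) : Γ) with hG
    have hGbad : ∀ n, ε ≤ dist (C.ι (G n)) (G n • p) := fun n => (e (σ n)).2
    choose j₀ hj₀a hj₀b using fun n => c3_cross hpar (hGbad n) (hstep n) (c := ε / 4) (by linarith) (by linarith)
    choose j₁ hj₁a hj₁b using fun n => c3_cross hpar (hGbad n) (hstep n) (c := ε / 2) (by linarith) (by linarith)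
    choose j₂ hj₂a hj₂b using fun n => c3_cross hpar (hGbad n) (hstep n) (c := 3 * ε / 4) (by linarith) (by linarith)
    obtain ⟨⟨α, z₀, z₁, z₂⟩, φ, hφ, hlim⟩ := CompactSpace.tendsto_subseq
      (fun n => (C.ι (G n), C.ι (G n * h ^ j₀ n), C.ι (G n * h ^ j₁ n), C.ι (G n * h ^ j₂ n)))
    have hA : Tendsto (fun n => C.ι (G (φ n))) atTop (𝓝 α) := hlim.fst_nhds
    have hY₀ : Tendsto (fun n => C.ι (G (φ n) * h ^ j₀ (φ n))) atTop (𝓝 z₀) := hlim.snd_nhds.fst_nhds
    have hY₁ : Tendsto (fun n => C.ι (G (φ n) * h ^ j₁ (φ n))) atTop (𝓝 z₁) := hlim.snd_nhds.snd_nhds.fst_nhds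
    have hY₂ : Tendsto (fun n => C.ι (G (φ n) * h ^ j₂ (φ n))) atTop (𝓝 z₂) := hlim.snd_nhds.snd_nhds.snd_nhds
    have hδ : Tendsto (fun n : ℕ => 1 / (((φ n : ℕ) : ℝ) + 1)) atTop (𝓝 0) :=
      tendsto_one_div_add_atTop_nhds_zero_nat.comp hφ.tendsto_atTop
    obtain ⟨hd₀, hY₀'⟩ := c3_limit (Y' := fun n => C.ι (G (φ n) * h ^ (j₀ (φ n) + 1))) hδ hA hY₀
      (fun n => hj₀a (φ n)) (fun n => hj₀b (φ n)) (fun n => hstep (φ n) _)
    obtain ⟨hd₁, hY₁'⟩ := c3_limit (Y' := fun n => C.ι (G (φ n) * h ^ (j₁ (φ n) + 1))) hδ hA hY₁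
      (fun n => hj₁a (φ n)) (fun n => hj₁b (φ n)) (fun n => hstep (φ n) _)
    obtain ⟨hd₂, hY₂'⟩ := c3_limit (Y' := fun n => C.ι (G (φ n) * h ^ (j₂ (φ n) + 1))) hδ hA hY₂
      (fun n => hj₂a (φ n)) (fun n => hj₂b (φ n)) (fun n => hstep (φ n) _)
    have h01 : z₀ ≠ z₁ := by
      rintro rfl
      linarith
    have h02 : z₀ ≠ z₂ := by
      rintro rfl
      linarith
    have h12 : z₁ ≠ z₂ := by
      rintro rfl
      linarith
    set k : ℕ → Γ := fun n => G (φ n) * h * (G (φ n))⁻¹ with hk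
    have hkY : ∀ (n j : ℕ), k n • C.ι (G (φ n) * h ^ j) = C.ι (G (φ n) * h ^ (j + 1)) := by
      intro n j
      rw [C.smul_ι]
      congr 1
      simp only [hk]
      rw [pow_succ']
      group
    have hfin : (range k).Finite :=
      c2_finite_range hc h01 h02 h12 h01 h02 h12 hY₀ hY₁ hY₂ (by simpa only [hkY] using hY₀')
        (by simpa only [hkY] using hY₁') (by simpa only [hkY] using hY₂')
    obtain ⟨k₀, hk₀⟩ := exists_frequently_eq_of_finite_range hfin
    obtain ⟨n₀, hn₀⟩ := hk₀.exists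
    have hk₀inf : InfOrd k₀ := by
      rw [← hn₀]
      exact hh.conj _
    have hk₀1 : k₀ ≠ 1 := by
      have := hk₀inf 1 one_pos
      rwa [pow_one] at this
    have hfixz : ∀ (j : ℕ → ℕ) (z : C.X), Tendsto (fun n => C.ι (G (φ n) * h ^ j (φ n))) atTop (𝓝 z) →
        Tendsto (fun n => C.ι (G (φ n) * h ^ (j (φ n) + 1))) atTop (𝓝 z) → z ∈ C.fixB k₀ := by
      intro j z hz hz'
      have h1 : Tendsto (fun n => k₀ • C.ι (G (φ n) * h ^ j (φ n))) atTop (𝓝 (k₀ • z)) :=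
        ((C.act_cont k₀).tendsto z).comp hz
      have h2 : k₀ • z = z := by
        refine tendsto_nhds_unique_of_frequently_eq h1 hz' ?_
        exact hk₀.mono fun n hn => by rw [← hn, hkY]
      exact ⟨c3_mem_B_of_fixed C hk₀1 h2, h2⟩
    have hinj : Function.Injective ![z₀, z₁, z₂] := c3_inj h01 h02 h12
    refine hc.fixB_not_three hk₀inf hinj ?_
    intro i
    fin_cases i
    · exact hfixz j₀ z₀ hY₀ hY₀'
    · exact hfixz j₁ z₁ hY₁ hY₁'
    · exact hfixz j₂ z₂ hY₂ hY₂'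
  refine hbad.subset ?_
  intro g hg
  have hg' : ¬ dist (dist (C.ι g) (g • p)) 0 < ε := hg
  rw [Real.dist_eq, sub_zero, abs_of_nonneg dist_nonneg] at hg'
  exact not_lt.1 hg'

/-- **Proposition 4.5, first half**: a point which is not a global fixed point has a dense orbit.  Given `a ∈ B`: `g_n → a`, `g_n⁻¹ → b` (`Cpt.exists_seq`, `exists_subseq_ab`).
If `x ≠ b`: `g_n • x → a`.  If `x = b`: `g_n • (h • x) → a`, where `h • x ≠ x`. -/
theorem Cpt.Convergence.dense_orbit {C : Cpt 𝔖} (hc : C.Convergence) {x : C.X} {h : Γ} (hx : h • x ≠ x) :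
    C.B ⊆ closure (range fun g : Γ => g • x) := by
  intro a ha
  obtain ⟨u, hu⟩ := C.exists_seq a
  have hcof := C.tendsto_cofinite ha hu
  obtain ⟨α, hα, b, hb, φ, hφ, h1, h2⟩ := C.exists_subseq_ab hcof
  have hαa : α = a := tendsto_nhds_unique h1 (hu.comp hφ.tendsto_atTop)
  subst hαa
  by_cases hxb : x = b
  · have h3 := hc.tendsto_smul hα hb h1 h2 (x := h • x) (by rw [← hxb]; exact hx)
    refine mem_closure_of_tendsto h3 (Eventually.of_forall fun n => ⟨u (φ n) * h, ?_⟩)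
    exact mul_smul _ _ _
  · have h3 := hc.tendsto_smul hα hb h1 h2 hxb
    exact mem_closure_of_tendsto h3 (Eventually.of_forall fun n => ⟨u (φ n), rfl⟩)

/-- **Proposition 4.5, second half**: no global fixed point `c`.  Choose `a ∈ B`, `a ≠ c`, `g_n → a`, `g_n⁻¹ → b`; `g_n • c = c` forces `b = c`.  `A := closedBall a ρ`, `ρ := dist a c / 3`.
For large `n`: `g_n • A ⊆ A` (`eventually_mapsTo`) and `g_n ≠ 1`.  Fix such `g`; it has infinite order.  If `Par g p`: `p = c` (`c ∈ fixB g`) and `g ^ k • a ∈ A` tends to `p`, so `c ∈ A`: absurd.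
If `Lox g a' b'`: `Lox.no_global_fix`. -/
theorem Cpt.Convergence.no_global_fix {C : Cpt 𝔖} (hc : C.Convergence) (htf : ∀ g : Γ, g ≠ 1 → InfOrd g) (hB : C.B.Infinite)
    {c : C.X} (hcB : c ∈ C.B) : ¬ ∀ h : Γ, h • c = c := by
  intro hfix
  obtain ⟨a, ha, hac⟩ : ∃ a ∈ C.B, a ≠ c := by
    obtain ⟨a, ha, hac⟩ := (hB.sdiff (Set.finite_singleton c)).nonempty
    exact ⟨a, ha, hac⟩
  obtain ⟨u, hu⟩ := C.exists_seq a
  have hcof := C.tendsto_cofinite ha hu
  obtain ⟨α, hα, b, hb, φ, hφ, h1, h2⟩ := C.exists_subseq_ab hcof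
  have hαa : α = a := tendsto_nhds_unique h1 (hu.comp hφ.tendsto_atTop)
  subst hαa
  have hbc : c = b := by
    by_contra hcb
    have h3 := hc.tendsto_smul hα hb h1 h2 hcb
    simp only [hfix] at h3
    exact hac (tendsto_nhds_unique tendsto_const_nhds h3).symm
  subst hbc
  set ρ := dist α c / 3 with hρ
  have hρpos : 0 < ρ := by
    have := dist_pos.2 hac
    positivity
  have hcA : c ∉ Metric.closedBall α ρ := by
    rw [Metric.mem_closedBall, dist_comm]
    intro h'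
    have := dist_pos.2 hac
    linarith
  have hev := hc.eventually_mapsTo hα hb h1 h2 (Metric.isClosed_closedBall.isCompact) hcA
    (Metric.closedBall_mem_nhds α hρpos)
  have hne1 : ∀ᶠ n in atTop, u (φ n) ≠ 1 :=
    (hcof.comp hφ.tendsto_atTop).eventually (Set.finite_singleton (1 : Γ)).compl_mem_cofinite
  obtain ⟨n, hn, hn1⟩ := (hev.and hne1).exists
  set g := u (φ n) with hg
  have hginf : InfOrd g := htf g hn1
  rcases hc.lox_or_par hginf with ⟨a', b', hl⟩ | ⟨p, hpar⟩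
  · exact hl.no_global_fix hc hB hcB hfix
  · have hpc : c = p := by
      have : c ∈ C.fixB g := ⟨hcB, hfix g⟩
      rw [hpar.fix] at this
      exact this
    have hpow : ∀ k : ℕ, g ^ k • α ∈ Metric.closedBall α ρ := by
      intro k
      induction k with
      | zero => simpa using hρpos.le
      | succ k ih => rw [pow_succ', mul_smul]; exact hn _ ih
    have := Metric.isClosed_closedBall.mem_of_tendsto (hpar.tendsto_smul hc α) (Eventually.of_forall hpow)
    rw [← hpc] at this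
    exact hcA this

/-- **Proposition 4.5** -/
theorem Cpt.Convergence.minimal {C : Cpt 𝔖} (hc : C.Convergence) (htf : ∀ g : Γ, g ≠ 1 → InfOrd g) (hB : C.B.Infinite)
    (x : C.X) (hx : x ∈ C.B) : C.B ⊆ closure (range fun g : Γ => g • x) := by
  have h := hc.no_global_fix htf hB hx
  push Not at h
  obtain ⟨k, hk⟩ := h
  exact hc.dense_orbit hk

end Claimed.Agent.R309
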