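import Claimed.Agent.R309.Defs

/-!
# Row 309, Sections 3-4 (finite-energy compactification, convergence dynamics): DEFINITIONS

Sub-captain: helper146.  Definitions only, no sorry.  Do not edit without a message to helper146.

Target of the package S34:  `exists_good_cpt : FEHyp 𝔖 → ∃ C : Cpt 𝔖, C.Good`  (`S34/Main.lean`), plus the
API on convergence dynamics for S6, S7 (`S34/Conv1.lean`, `Conv2.lean`, `Conv3.lean`).

Conventions: oriented edges `Γ × S` (both orientations and loops are kept), triangles `(g, s₁, s₂)`.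
Paper: `/opt/papers/The-Singer-conjecture-in-dimension-four-September-25-2026/build/compactification.tex`, `dynamics.tex`.
-/

set_option autoImplicit false

namespace Claimed.Agent.R309

open Filter Topology Set MeasureTheory

variable {Γ : Type} [Group Γ] {𝔖 : GenSet Γ}

/-! ## graph -/

/-- reverse edge -/
def erev (e : 𝔖.Edge) : 𝔖.Edge := (e.1 * e.2.1, ⟨e.2.1⁻¹, 𝔖.inv_mem _ e.2.2⟩)

variable (𝔖) in
/-- `u` and `v` are joined by a graph path all of whose vertices lie in `U`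
(`VConnected 𝔖 U` is `∀ u ∈ U, ∀ v ∈ U, PathIn 𝔖 U u v`, by `Iff.rfl`) -/
def PathIn (U : Set Γ) (u v : Γ) : Prop :=
  Relation.ReflTransGen (fun a b => a ∈ U ∧ b ∈ U ∧ ∃ s ∈ 𝔖.S, b = a * s) u v

/-- `e` and `e'` are joined by a dual path inside `D`
(`DuallyConnected D` is `∀ e ∈ D, ∀ e' ∈ D, DualPathIn D e e'`, by `Iff.rfl`) -/
def DualPathIn (D : Set 𝔖.Edge) (e e' : 𝔖.Edge) : Prop :=
  Relation.ReflTransGen (fun a b => a ∈ D ∧ b ∈ D ∧ Near a b) e e'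

variable (𝔖) in
/-- energy (both orientations are counted) -/
noncomputable def energy (F : Γ → ℝ) : ℝ := ∑' e : 𝔖.Edge, (grad F e) ^ 2

/-- `Σ_{e' near e} a(e')` -/
noncomputable def nearSum (a : 𝔖.Edge → ℝ) (e : 𝔖.Edge) : ℝ := ∑' e' : {e' : 𝔖.Edge // Near e e'}, a e'.1

/-! ## base coordinates and boxes -/

/-- translate of a function: `(g F)(v) = F (g⁻¹ v)` -/
def trF (g : Γ) (F : Γ → ℝ) : Γ → ℝ := fun v => F (g⁻¹ * v)

/-- base coordinates `F₀`: translates of `f` and singleton indicators (index type `Γ ⊕ Γ`) -/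
noncomputable def baseCoord (f : Γ → ℝ) : Γ ⊕ Γ → Γ → ℝ
  | Sum.inl g => trF g f
  | Sum.inr v => fun w => by classical exact if w = v then 1 else 0

/-- translation of the index of a base coordinate -/
def trIdx (g : Γ) : Γ ⊕ Γ → Γ ⊕ Γ := Sum.map (g * ·) (g * ·)

/-- box data: finitely many conditions `a < F_i < b` on base coordinates -/
abbrev BoxData (Γ : Type) : Type := List ((Γ ⊕ Γ) × ℝ × ℝ)

/-- translation of box data (same endpoints) -/
def trBox (g : Γ) (O : BoxData Γ) : BoxData Γ := O.map fun c => (trIdx g c.1, c.2)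

/-- a base profile lies in the box -/
def InBox (O : BoxData Γ) (z : Γ ⊕ Γ → ℝ) : Prop := ∀ c ∈ O, c.2.1 < z c.1 ∧ z c.1 < c.2.2

/-- vertex set of a box -/
def boxV (f : Γ → ℝ) (O : BoxData Γ) : Set Γ :=
  {v | ∀ c ∈ O, c.2.1 < baseCoord f c.1 v ∧ baseCoord f c.1 v < c.2.2}

/-- the endpoint cuts `(coordinate, level)` of a box -/
def boxEnds (O : BoxData Γ) : List ((Γ ⊕ Γ) × ℝ) :=
  O.map (fun c => (c.1, c.2.1)) ++ O.map (fun c => (c.1, c.2.2))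

variable (𝔖) in
/-- the cut of a base coordinate at a level -/
def bcut (f : Γ → ℝ) (p : (Γ ⊕ Γ) × ℝ) : Set 𝔖.Edge := cut 𝔖 (baseCoord f p.1) p.2

variable (𝔖) in
/-- two cuts interact finitely -/
def FinInter (f : Γ → ℝ) (p q : (Γ ⊕ Γ) × ℝ) : Prop :=
  {ee : 𝔖.Edge × 𝔖.Edge | ee.1 ∈ bcut 𝔖 f p ∧ ee.2 ∈ bcut 𝔖 f q ∧ Near ee.1 ee.2}.Finite

variable (𝔖) in
/-- good box: endpoints regular, any two DISTINCT endpoint cuts interact finitely -/
def GoodBox (f : Γ → ℝ) (O : BoxData Γ) : Prop :=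
  (∀ p ∈ boxEnds O, Regular (baseCoord f p.1) p.2) ∧
  ∀ p ∈ boxEnds O, ∀ q ∈ boxEnds O, p ≠ q → FinInter 𝔖 f p q

variable (𝔖) in
/-- admissible level: regular, and the cut has finite weight for the near-sums of all base gradients.
(Almost every level is admissible; a later generic level interacts finitely with an admissible one.) -/
def AdmLevel (f : Γ → ℝ) (p : (Γ ⊕ Γ) × ℝ) : Prop :=
  Regular (baseCoord f p.1) p.2 ∧
    ∀ i : Γ ⊕ Γ, Summable fun e : bcut 𝔖 f p => nearSum (fun e' : 𝔖.Edge => |grad (baseCoord f i) e'|) e.1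

variable (𝔖) in
/-- a countable invariant basis of good boxes (Lemma 3.3) -/
structure BoxBasis (f : Γ → ℝ) where
  𝒪 : Set (BoxData Γ)
  countable : 𝒪.Countable
  good : ∀ O ∈ 𝒪, GoodBox 𝔖 f O
  inv : ∀ g : Γ, ∀ O ∈ 𝒪, trBox g O ∈ 𝒪
  basis : ∀ (z : Γ ⊕ Γ → ℝ) (I : Finset (Γ ⊕ Γ)) (ε : ℝ), 0 < ε →
    ∃ O ∈ 𝒪, InBox O z ∧ ∀ i ∈ I, ∃ c ∈ O, c.1 = i ∧ z i - ε < c.2.1 ∧ c.2.2 < z i + ε

variable (𝔖) in
/-- graph component of `v` in the vertex set of the box `O` (empty if `v` is not in the box) -/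
def boxComp (f : Γ → ℝ) (O : BoxData Γ) (v : Γ) : Set Γ :=
  {w | v ∈ boxV f O ∧ PathIn 𝔖 (boxV f O) v w}

/-- margin `ψ_O` of a box, as a function of a base profile -/
noncomputable def margin (O : BoxData Γ) (z : Γ ⊕ Γ → ℝ) : ℝ :=
  max 0 (O.foldr (fun c m => min m (min (z c.1 - c.2.1) (c.2.2 - z c.1))) 1)

/-- localized coordinate `h_{O,U} = ψ_O 1_U` -/
noncomputable def locCoord (f : Γ → ℝ) (O : BoxData Γ) (U : Set Γ) : Γ → ℝ :=
  fun v => by classical exact if v ∈ U then margin O (fun i => baseCoord f i v) else 0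

/-! ## the coordinate family `𝓕` -/

/-- index set of the family: base coordinates, and (box of the basis, vertex representing a component) -/
abbrev FamIdx {f : Γ → ℝ} (𝔅 : BoxBasis 𝔖 f) : Type := (Γ ⊕ Γ) ⊕ (𝔅.𝒪 × Γ)

/-- the coordinate family -/
noncomputable def famCoord {f : Γ → ℝ} (𝔅 : BoxBasis 𝔖 f) : FamIdx 𝔅 → Γ → ℝ
  | Sum.inl i => baseCoord f i
  | Sum.inr p => locCoord f p.1.1 (boxComp 𝔖 f p.1.1 p.2)

/-- translation of the indices -/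
def famAct {f : Γ → ℝ} (𝔅 : BoxBasis 𝔖 f) (g : Γ) : FamIdx 𝔅 → FamIdx 𝔅
  | Sum.inl i => Sum.inl (trIdx g i)
  | Sum.inr p => Sum.inr (⟨trBox g p.1.1, 𝔅.inv g _ p.1.2⟩, g * p.2)

/-- `C` is a compactification by the family `Φ` (enumerated by `en`) -/
def Cpt.IsFam (C : Cpt 𝔖) {Idx : Type} (Φ : Idx → Γ → ℝ) (en : ℕ → Idx) : Prop :=
  Function.Surjective en ∧ ∀ j v, C.coord j (C.ι v) = Φ (en j) v

/-! ## walls -/

/-- vertex function of the `j`-th coordinate -/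
def Cpt.vc (C : Cpt 𝔖) (j : ℕ) : Γ → ℝ := fun v => C.coord j (C.ι v)

/-- every coordinate cut is covered by finitely many cuts, at affinely shifted levels, of finite-energy functions all of whose
regular cuts are dually connected or finite (Lemmas 3.2 and 3.4) -/
def Cpt.Walls (C : Cpt 𝔖) : Prop :=
  ∃ (I : Type) (bs : I → Γ → ℝ), (∀ i, FinEnergy 𝔖 (bs i)) ∧
    (∀ i t, Regular (bs i) t → DuallyConnected (cut 𝔖 (bs i) t) ∨ (cut 𝔖 (bs i) t).Finite) ∧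
    ∀ j, ∃ L : List (I × ℝ × ℝ), (∀ l ∈ L, l.2.2 = 1 ∨ l.2.2 = -1) ∧
      ∀ t ∈ Ioo (0 : ℝ) 1, cut 𝔖 (C.vc j) t ⊆ ⋃ l ∈ L, cut 𝔖 (bs l.1) (l.2.1 + l.2.2 * t)

/-- collapse of translated cuts (conclusion of Lemma 4.2) -/
def Cpt.Collapse (C : Cpt 𝔖) : Prop :=
  ∀ (g : ℕ → Γ) (a b : C.X), a ∈ C.B → b ∈ C.B →
    Tendsto (fun n => C.ι (g n)) atTop (𝓝 a) → Tendsto (fun n => C.ι (g n)⁻¹) atTop (𝓝 b) →
    ∀ J : Finset ℕ, ∃ φ : ℕ → ℕ, StrictMono φ ∧ ∀ j ∈ J, ∀ᵐ t : ℝ, t ∈ Ioo (0 : ℝ) 1 → ∀ ε > 0, ∀ᶠ n in atTop,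
      ∀ e ∈ cut 𝔖 (C.vc j) t,
        dist (C.ι (g (φ n) * esrc e)) a < ε ∧ dist (C.ι ((g (φ n))⁻¹ * esrc e)) b < ε

/-- a.e. tameness (field `tame` of `Cpt.Good`) -/
def Cpt.TameAE (C : Cpt 𝔖) : Prop :=
  ∀ j, ∀ᵐ t : ℝ, t ∈ Ioo (0 : ℝ) 1 →
    Regular (fun v => C.coord j (C.ι v)) t ∧ C.Tame (cut 𝔖 (fun v => C.coord j (C.ι v)) t)

/-! ## dynamics -/

/-- infinite order -/
def InfOrd (g : Γ) : Prop := ∀ n : ℕ, 0 < n → g ^ n ≠ 1

/-- `g` is loxodromic with attracting point `a` and repelling point `b` -/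
structure Cpt.Lox (C : Cpt 𝔖) (g : Γ) (a b : C.X) : Prop where
  ne : a ≠ b
  memA : a ∈ C.B
  memB : b ∈ C.B
  fix : C.fixB g = {a, b}
  fwd : Tendsto (fun n : ℕ => C.ι (g ^ n)) atTop (𝓝 a)
  bwd : Tendsto (fun n : ℕ => C.ι (g ^ n)⁻¹) atTop (𝓝 b)

/-- `g` is parabolic with fixed point `p` -/
structure Cpt.Par (C : Cpt 𝔖) (g : Γ) (p : C.X) : Prop where
  mem : p ∈ C.B
  fix : C.fixB g = {p}
  fwd : Tendsto (fun n : ℕ => C.ι (g ^ n)) atTop (𝓝 p)
  bwd : Tendsto (fun n : ℕ => C.ι (g ^ n)⁻¹) atTop (𝓝 p)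

end Claimed.Agent.R309
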