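import Claimed.Agent.R309.S34.Bdry

/-!
# Row 309, S34, package **S34-E1 (Dyn1+Dyn2)**: right moves, lengths of translated cuts, collapse of translated cuts, tameness ((4.1), Lemmas 4.1, 4.2).

Owner: helper146.  Prefix `dy_`.  Uses `Graph.lean`, `L2.lean`, `Bdry.lean` as black boxes.
-/

set_option autoImplicit false

namespace Claimed.Agent.R309

open Filter Topology Set MeasureTheory

variable {Γ : Type} [Group Γ] {𝔖 : GenSet Γ}

/-- **(4.1)** -/
theorem Cpt.right_move (C : Cpt 𝔖) (s : Γ) : Tendsto (fun u : Γ => dist (C.ι u) (C.ι (u * s))) cofinite (𝓝 0) := by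
  have h := pathIn_univ 𝔖 1 s
  induction h with
  | refl => simpa using tendsto_const_nhds
  | @tail b c _ hbc ih =>
    obtain ⟨-, -, t, ht, rfl⟩ := hbc
    have h1 : Tendsto (fun u : Γ => C.lam ((u * b, ⟨t, ht⟩) : 𝔖.Edge)) cofinite (𝓝 0) := by
      have hinj : Function.Injective (fun u : Γ => ((u * b, ⟨t, ht⟩) : 𝔖.Edge)) := by
        intro u u' h
        have : u * b = u' * b := congrArg Prod.fst h
        exact mul_right_cancel this
      exact (l2_tendsto_zero C.lam_sq').comp hinj.tendsto_cofinite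
    have h2 := ih.add h1
    rw [add_zero] at h2
    refine squeeze_zero (fun u => dist_nonneg) (fun u => ?_) h2
    have h3 : C.lam ((u * b, ⟨t, ht⟩) : 𝔖.Edge) = dist (C.ι (u * b)) (C.ι (u * (b * t))) := by
      simp [Cpt.lam, esrc, etgt, mul_assoc]
    rw [h3]
    exact dist_triangle _ _ _

/-- consequence: `g_n → a` implies `g_n s → a` -/
theorem Cpt.tendsto_mul_right {α : Type} (C : Cpt 𝔖) {l : Filter α} {g : α → Γ} {a : C.X} (ha : a ∈ C.B)
    (h : Tendsto (fun n => C.ι (g n)) l (𝓝 a)) (s : Γ) : Tendsto (fun n => C.ι (g n * s)) l (𝓝 a) :=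
  h.congr_dist ((C.right_move s).comp (C.tendsto_cofinite ha h))

theorem Cpt.nearLen_eq (C : Cpt 𝔖) (g : Γ) (e : 𝔖.Edge) : C.nearLen g e = nearSum C.lam (etr g e) :=
  nearSum_etr C.lam g e

theorem Cpt.nearLen_nonneg (C : Cpt 𝔖) (g : Γ) (e : 𝔖.Edge) : 0 ≤ C.nearLen g e := by
  rw [C.nearLen_eq]
  exact nearSum_nonneg C.lam_nonneg _

/-- **Lemma 4.1 (a)** -/
theorem Cpt.cut_length_tendsto (C : Cpt 𝔖) {F : Γ → ℝ} (hF : FinEnergy 𝔖 F) :
    (∀ g, Summable fun e : 𝔖.Edge => |grad F e| * C.nearLen g e) ∧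
    Tendsto (fun g : Γ => ∑' e : 𝔖.Edge, |grad F e| * C.nearLen g e) cofinite (𝓝 0) := by
  have ha : Summable fun e : 𝔖.Edge => |grad F e| ^ 2 := by
    have h : Summable fun e : 𝔖.Edge => grad F e ^ 2 := hF
    simpa only [sq_abs] using h
  have hb : Summable fun e : 𝔖.Edge => nearSum C.lam e ^ 2 := nearSum_sq_summable C.lam_sq'
  simp only [C.nearLen_eq]
  exact ⟨fun g => l2_summable_mul ha (l2_summable_etr hb g), l2_mixing ha hb⟩

theorem Cpt.dy_step (C : Cpt 𝔖) (g : Γ) {x y : 𝔖.Edge} (h : Near x y) :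
    dist (C.ι (g * esrc x)) (C.ι (g * esrc y)) ≤ C.nearLen g x := by
  rcases near_join h (u := esrc x) (u' := esrc y) (Or.inl rfl) (Or.inl rfl) with h1 | ⟨e'', h1, -, h2, h3⟩
  · rw [h1, dist_self]; exact C.nearLen_nonneg g x
  · have h4 : dist (C.ι (g * esrc x)) (C.ι (g * esrc y)) = C.lam (etr g e'') := by
      rw [Cpt.lam, esrc_etr, etgt_etr, h2, h3]
    rw [h4]
    exact le_nearSum (a := fun e' => C.lam (etr g e')) (fun _ => C.lam_nonneg _) h1

theorem Cpt.dy_chain (C : Cpt 𝔖) (g : Γ) : ∀ (l : List 𝔖.Edge) (e e' : 𝔖.Edge), l.head? = some e → l.getLast? = some e' →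
    l.IsChain (fun a b => Near a b) →
    dist (C.ι (g * esrc e)) (C.ι (g * esrc e')) ≤ (l.map (C.nearLen g)).sum
  | [], e, e', h, _, _ => by simp at h
  | [x], e, e', h, h', _ => by
      simp only [List.head?_cons, Option.some.injEq] at h
      simp only [List.getLast?_singleton, Option.some.injEq] at h'
      subst h; subst h'
      simp [C.nearLen_nonneg]
  | x :: y :: l, e, e', h, h', hc => by
      simp only [List.head?_cons, Option.some.injEq] at h
      subst h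
      rw [List.isChain_cons_cons] at hc
      have h1 := C.dy_chain g (y :: l) y e' rfl (by simpa using h') hc.2
      have h2 := C.dy_step g hc.1
      calc dist (C.ι (g * esrc x)) (C.ι (g * esrc e'))
          ≤ dist (C.ι (g * esrc x)) (C.ι (g * esrc y)) + dist (C.ι (g * esrc y)) (C.ι (g * esrc e')) := dist_triangle _ _ _
        _ ≤ C.nearLen g x + ((y :: l).map (C.nearLen g)).sum := add_le_add h2 h1
        _ = ((x :: y :: l).map (C.nearLen g)).sum := by simp

/-- **Lemma 4.1 (b)** -/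
theorem Cpt.dual_diam (C : Cpt 𝔖) (g : Γ) (D : Set 𝔖.Edge) (hD : DuallyConnected D)
    (hs : Summable fun e : D => C.nearLen g e.1) (e e' : 𝔖.Edge) (he : e ∈ D) (he' : e' ∈ D) :
    dist (C.ι (g * esrc e)) (C.ι (g * esrc e')) ≤ ∑' e : D, C.nearLen g e.1 := by
  classical
  obtain ⟨l, hnd, hlD, hh, hl, hc⟩ := DualPathIn.exists_chain (hD e he e' he') he
  refine (C.dy_chain g l e e' hh hl hc).trans ?_
  have hs' : Summable (D.indicator (C.nearLen g)) := by
    have : Summable ((C.nearLen g) ∘ (Subtype.val : D → 𝔖.Edge)) := hs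
    rwa [summable_subtype_iff_indicator] at this
  have h1 : ∑' e : D, C.nearLen g e.1 = ∑' e, D.indicator (C.nearLen g) e := tsum_subtype D (C.nearLen g)
  rw [h1, ← List.sum_toFinset _ hnd]
  have h2 : ∑ x ∈ l.toFinset, C.nearLen g x = ∑ x ∈ l.toFinset, D.indicator (C.nearLen g) x := by
    refine Finset.sum_congr rfl fun x hx => ?_
    rw [Set.indicator_of_mem (hlD x (List.mem_toFinset.1 hx))]
  rw [h2]
  exact hs'.sum_le_tsum _ fun x _ => Set.indicator_nonneg (fun y _ => C.nearLen_nonneg g y) x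

/-! ### tameness -/

theorem Cpt.Tame.mono (C : Cpt 𝔖) {D D' : Set 𝔖.Edge} (h : C.Tame D') (hD : D ⊆ D') : C.Tame D := by
  obtain ⟨n, P, hP, h⟩ := h
  exact ⟨n, P, hD.trans hP, h⟩

theorem Cpt.tame_empty (C : Cpt 𝔖) : C.Tame (∅ : Set 𝔖.Edge) :=
  ⟨0, fun i => i.elim0, empty_subset _, fun i => i.elim0⟩

theorem Cpt.Tame.union (C : Cpt 𝔖) {D D' : Set 𝔖.Edge} (h : C.Tame D) (h' : C.Tame D') : C.Tame (D ∪ D') := by
  obtain ⟨n, P, hP, h⟩ := h
  obtain ⟨m, P', hP', h'⟩ := h'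
  refine ⟨n + m, Fin.append P P', ?_, ?_⟩
  · rintro e (he | he)
    · obtain ⟨i, hi⟩ := mem_iUnion.1 (hP he)
      exact mem_iUnion.2 ⟨Fin.castAdd m i, by rw [Fin.append_left]; exact hi⟩
    · obtain ⟨i, hi⟩ := mem_iUnion.1 (hP' he)
      exact mem_iUnion.2 ⟨Fin.natAdd n i, by rw [Fin.append_right]; exact hi⟩
  · intro i
    refine Fin.addCases (fun i => ?_) (fun i => ?_) i
    · rw [Fin.append_left]; exact h i
    · rw [Fin.append_right]; exact h' i

theorem Cpt.tame_of_dual (C : Cpt 𝔖) {D : Set 𝔖.Edge} (h : DuallyConnected D) (hs : Summable fun e : D => C.nearLen 1 e.1) :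
    C.Tame D :=
  ⟨1, fun _ => D, fun _ he => mem_iUnion.2 ⟨0, he⟩, fun _ => ⟨h, hs⟩⟩

theorem Cpt.tame_of_finite (C : Cpt 𝔖) {D : Set 𝔖.Edge} (h : D.Finite) : C.Tame D := by
  induction D, h using Set.Finite.induction_on with
  | empty => exact C.tame_empty
  | @insert a s _ _ ih =>
    rw [Set.insert_eq]
    refine Cpt.Tame.union C (C.tame_of_dual (duallyConnected_singleton a) ?_) ih
    haveI : Finite ({a} : Set 𝔖.Edge) := (Set.finite_singleton a).to_subtype
    exact Summable.of_finite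

theorem Cpt.dy_tame_list (C : Cpt 𝔖) {α : Type} (L : List α) (S : α → Set 𝔖.Edge) (h : ∀ l ∈ L, C.Tame (S l)) :
    C.Tame (⋃ l ∈ L, S l) := by
  induction L with
  | nil => simpa using C.tame_empty
  | cons x L ih =>
    have : (⋃ l ∈ x :: L, S l) = S x ∪ ⋃ l ∈ L, S l := by
      ext e; simp
    rw [this]
    exact Cpt.Tame.union C (h x List.mem_cons_self) (ih fun l hl => h l (List.mem_cons_of_mem _ hl))

/-- **a.e. tameness** -/
theorem Cpt.tameAE_of_walls (C : Cpt 𝔖) (h : C.Walls) : C.TameAE := by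
  obtain ⟨I, bs, hE, hdich, hcov⟩ := h
  intro j
  obtain ⟨L, hL, hsub⟩ := hcov j
  have base : ∀ i, ∀ᵐ s : ℝ, Regular (bs i) s ∧ Summable fun e : cut 𝔖 (bs i) s => C.nearLen 1 e.1 := by
    intro i
    filter_upwards [ae_regular 𝔖 (bs i), ae_summable_cut (bs i) (w := C.nearLen 1) (C.nearLen_nonneg 1)
      ((C.cut_length_tendsto (hE i)).1 1)] with s h1 h2
    exact ⟨h1, h2⟩
  have key : ∀ᵐ t : ℝ, ∀ l ∈ {l | l ∈ L}, Regular (bs l.1) (l.2.1 + l.2.2 * t) ∧
      Summable fun e : cut 𝔖 (bs l.1) (l.2.1 + l.2.2 * t) => C.nearLen 1 e.1 :=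
    (Filter.eventually_all_finite L.finite_toSet).2 fun l hl => ae_affine (base l.1) l.2.1 l.2.2 (hL l hl)
  filter_upwards [ae_regular 𝔖 (C.vc j), key] with t h1 h2 ht
  refine ⟨h1, Cpt.Tame.mono C (C.dy_tame_list L (fun l => cut 𝔖 (bs l.1) (l.2.1 + l.2.2 * t)) fun l hl => ?_) (hsub t ht)⟩
  obtain ⟨h3, h4⟩ := h2 l hl
  rcases hdich l.1 _ h3 with h5 | h5
  · exact C.tame_of_dual h5 h4
  · exact C.tame_of_finite h5

/-! ### collapse -/

/-- collapse of ONE cut along a sequence for which the length sums tend to zero -/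
theorem Cpt.collapse_one (C : Cpt 𝔖) {D : Set 𝔖.Edge} (hD : DuallyConnected D ∨ D.Finite) {g : ℕ → Γ} {a : C.X} (ha : a ∈ C.B)
    (hg : Tendsto (fun n => C.ι (g n)) atTop (𝓝 a)) (hs : ∀ n, Summable fun e : D => C.nearLen (g n) e.1)
    (h0 : Tendsto (fun n => ∑' e : D, C.nearLen (g n) e.1) atTop (𝓝 0)) {ε : ℝ} (hε : 0 < ε) :
    ∀ᶠ n in atTop, ∀ e ∈ D, dist (C.ι (g n * esrc e)) a < ε := by
  rcases hD with hD | hD
  · rcases D.eq_empty_or_nonempty with rfl | ⟨e₀, he₀⟩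
    · simp
    · have h1 := (Metric.tendsto_nhds.1 (C.tendsto_mul_right ha hg (esrc e₀))) (ε / 2) (by linarith)
      have h2 := h0.eventually (gt_mem_nhds (show (0 : ℝ) < ε / 2 by linarith))
      filter_upwards [h1, h2] with n h1 h2 e he
      have h3 := C.dual_diam (g n) D hD (hs n) e e₀ he he₀
      calc dist (C.ι (g n * esrc e)) a ≤ dist (C.ι (g n * esrc e)) (C.ι (g n * esrc e₀)) + dist (C.ι (g n * esrc e₀)) a :=
            dist_triangle _ _ _
        _ < ε := by linarith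
  · exact (Filter.eventually_all_finite hD).2 fun e _ =>
      (Metric.tendsto_nhds.1 (C.tendsto_mul_right ha hg (esrc e))) ε hε

/-- **Lemma 4.2** -/
theorem Cpt.collapse_of_walls (C : Cpt 𝔖) (h : C.Walls) : C.Collapse := by
  classical
  obtain ⟨I, bs, hE, hdich, hcov⟩ := h
  intro g a b ha hb hga hgb J
  choose L hL hsub using hcov
  set 𝓛 : Finset I := J.biUnion fun j => ((L j).map fun l => l.1).toFinset with h𝓛
  set A : I → Γ → ℝ := fun i k => ∑' e : 𝔖.Edge, |grad (bs i) e| * C.nearLen k e with hA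
  have hA0 : ∀ i k, 0 ≤ A i k := fun i k => tsum_nonneg fun e => mul_nonneg (abs_nonneg _) (C.nearLen_nonneg k e)
  have hgc : Tendsto g atTop cofinite := C.tendsto_cofinite ha hga
  have hgc' : Tendsto (fun n => (g n)⁻¹) atTop cofinite := C.tendsto_cofinite hb hgb
  set T : ℕ → ℝ := fun n => ∑ i ∈ 𝓛, (A i (g n) + A i (g n)⁻¹) with hT
  have hT0 : Tendsto T atTop (𝓝 0) := by
    have : Tendsto T atTop (𝓝 (∑ i ∈ 𝓛, ((0 : ℝ) + 0))) :=
      tendsto_finsetSum _ fun i _ => (((C.cut_length_tendsto (hE i)).2.comp hgc).add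
        ((C.cut_length_tendsto (hE i)).2.comp hgc'))
    simpa using this
  obtain ⟨φ, hφ, hφT⟩ := extraction_forall_of_eventually (P := fun n k => T k < (1 / 2) ^ n)
    (fun n => hT0.eventually (gt_mem_nhds (by positivity)))
  have hle : ∀ i ∈ 𝓛, ∀ n, A i (g (φ n)) + A i (g (φ n))⁻¹ ≤ (1 / 2) ^ n := by
    intro i hi n
    refine le_trans ?_ (hφT n).le
    exact Finset.single_le_sum (f := fun i => A i (g (φ n)) + A i (g (φ n))⁻¹)
      (fun i _ => add_nonneg (hA0 _ _) (hA0 _ _)) hi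
  have hhalf : Summable fun n : ℕ => ((1 : ℝ) / 2) ^ n := summable_geometric_of_lt_one (by norm_num) (by norm_num)
  have hgood : ∀ i ∈ 𝓛, ∀ᵐ s : ℝ, Regular (bs i) s ∧
      ((∀ n, Summable fun e : cut 𝔖 (bs i) s => C.nearLen (g (φ n)) e.1) ∧
        Tendsto (fun n => ∑' e : cut 𝔖 (bs i) s, C.nearLen (g (φ n)) e.1) atTop (𝓝 0)) ∧
      ((∀ n, Summable fun e : cut 𝔖 (bs i) s => C.nearLen (g (φ n))⁻¹ e.1) ∧
        Tendsto (fun n => ∑' e : cut 𝔖 (bs i) s, C.nearLen (g (φ n))⁻¹ e.1) atTop (𝓝 0)) := by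
    intro i hi
    have h1 := ae_tendsto_cut (bs i) (w := fun n e => C.nearLen (g (φ n)) e) (fun n e => C.nearLen_nonneg _ e)
      (fun n => (C.cut_length_tendsto (hE i)).1 _)
      (Summable.of_nonneg_of_le (fun n => hA0 i _) (fun n => by linarith [hle i hi n, hA0 i (g (φ n))⁻¹]) hhalf)
    have h2 := ae_tendsto_cut (bs i) (w := fun n e => C.nearLen (g (φ n))⁻¹ e) (fun n e => C.nearLen_nonneg _ e)
      (fun n => (C.cut_length_tendsto (hE i)).1 _)
      (Summable.of_nonneg_of_le (fun n => hA0 i _) (fun n => by linarith [hle i hi n, hA0 i (g (φ n))]) hhalf)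
    filter_upwards [ae_regular 𝔖 (bs i), h1, h2] with s h1 h2 h3
    exact ⟨h1, h2, h3⟩
  refine ⟨φ, hφ, fun j hj => ?_⟩
  have hmem : ∀ l ∈ L j, l.1 ∈ 𝓛 := by
    intro l hl
    rw [h𝓛, Finset.mem_biUnion]
    exact ⟨j, hj, List.mem_toFinset.2 (List.mem_map.2 ⟨l, hl, rfl⟩)⟩
  have key := (Filter.eventually_all_finite (l := ae (volume : Measure ℝ)) (L j).finite_toSet).2 fun l hl =>
    ae_affine (hgood l.1 (hmem l hl)) l.2.1 l.2.2 (hL j l hl)
  have hga' : Tendsto (fun n => C.ι (g (φ n))) atTop (𝓝 a) := hga.comp hφ.tendsto_atTop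
  have hgb' : Tendsto (fun n => C.ι (g (φ n))⁻¹) atTop (𝓝 b) := hgb.comp hφ.tendsto_atTop
  filter_upwards [key] with t ht ht01 ε hε
  have h1 : ∀ᶠ n in atTop, ∀ l ∈ {l | l ∈ L j}, ∀ e ∈ cut 𝔖 (bs l.1) (l.2.1 + l.2.2 * t),
      dist (C.ι (g (φ n) * esrc e)) a < ε ∧ dist (C.ι ((g (φ n))⁻¹ * esrc e)) b < ε := by
    refine (Filter.eventually_all_finite (L j).finite_toSet).2 fun l hl => ?_
    obtain ⟨hr, ⟨hs1, ht1⟩, hs2, ht2⟩ := ht l hl
    filter_upwards [C.collapse_one (hdich l.1 _ hr) ha hga' hs1 ht1 hε,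
      C.collapse_one (g := fun n => (g (φ n))⁻¹) (hdich l.1 _ hr) hb hgb' hs2 ht2 hε] with n h1 h2 e he
    exact ⟨h1 e he, h2 e he⟩
  filter_upwards [h1] with n hn e he
  have := hsub j t ht01 he
  simp only [mem_iUnion] at this
  obtain ⟨l, hl, hel⟩ := this
  exact hn l hl e hel

end Claimed.Agent.R309
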