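import Claimed.Agent.R309.S34.Dyn1

/-!
# Row 309, S34, package **S34-E3 (Dyn3)**: the convergence property (Proposition 4.3).

Statements: helper146 (sub-captain).  OWNER = the seat that claims subtask `S34-E3`.  Keep the statements verbatim; helper lemmas with prefix `d3_`.
May use `Graph.lean`, `L2.lean`, `Bdry.lean`, `Dyn1.lean` as black boxes.  ~800 lines.   Proofs: helper47.
-/

set_option autoImplicit false

namespace Claimed.Agent.R309

open Filter Topology Set MeasureTheory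

variable {Γ : Type} [Group Γ] {𝔖 : GenSet Γ}

/-- the side of the level `t` of `c` that contains `p`. -/
def d3Side {X : Type} (c : X → ℝ) (t : ℝ) (p : X) : Set X := {y | c y < t ↔ c p < t}

theorem d3_side_nhds {X : Type} [TopologicalSpace X] {c : X → ℝ} (hc : Continuous c) {t : ℝ} {p : X}
    (hp : c p ≠ t) : d3Side c t p ∈ 𝓝 p := by
  rcases lt_or_gt_of_ne hp with h | h
  · refine mem_of_superset ((isOpen_lt hc continuous_const).mem_nhds h) fun y hy => ?_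
    exact ⟨fun _ => h, fun _ => hy⟩
  · refine mem_of_superset ((isOpen_lt continuous_const hc).mem_nhds h) fun y hy => ?_
    have hy' : t < c y := hy
    exact ⟨fun h1 => absurd h1 (not_lt.2 hy'.le), fun h1 => absurd h1 (not_lt.2 h.le)⟩

theorem d3_side_compl_nhds {X : Type} [TopologicalSpace X] {c : X → ℝ} (hc : Continuous c) {t : ℝ} {p q : X}
    (h : t ∈ Ioo (min (c p) (c q)) (max (c p) (c q))) : (d3Side c t p)ᶜ ∈ 𝓝 q := by
  obtain ⟨h1, h2⟩ := h
  rw [min_lt_iff] at h1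
  rw [lt_max_iff] at h2
  by_cases hp : c p < t
  · have hq : t < c q := by
      rcases h2 with h2 | h2
      · exact absurd hp (not_lt.2 h2.le)
      · exact h2
    refine mem_of_superset ((isOpen_lt continuous_const hc).mem_nhds hq) fun y hy hy2 => ?_
    have hy' : t < c y := hy
    exact absurd (hy2.2 hp) (not_lt.2 hy'.le)
  · have hq : c q < t := by
      rcases h1 with h1 | h1
      · exact absurd h1 hp
      · exact h1
    refine mem_of_superset ((isOpen_lt hc continuous_const).mem_nhds hq) fun y hy hy2 => ?_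
    exact hp (hy2.1 hy)

theorem d3_ne_of_mem_Ioo {x y t : ℝ} (h : t ∈ Ioo (min x y) (max x y)) : x ≠ t := by
  rintro rfl
  obtain ⟨h1, h2⟩ := h
  rw [min_lt_iff] at h1
  rw [lt_max_iff] at h2
  rcases h1 with h1 | h1
  · exact lt_irrefl _ h1
  · rcases h2 with h2 | h2
    · exact lt_irrefl _ h2
    · exact lt_asymm h1 h2

/-- an edge which leaves a side at a regular level lies in the cut. -/
theorem Cpt.d3_mem_cut (C : Cpt 𝔖) (j : ℕ) {t : ℝ} (ht : Regular (C.vc j) t) (p : C.X) (w : Γ)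
    (σ : {s : Γ // s ∈ 𝔖.S}) (h1 : C.ι w ∈ d3Side (C.coord j) t p) (h2 : C.ι (w * σ.1) ∉ d3Side (C.coord j) t p) :
    ((w, σ) : 𝔖.Edge) ∈ cut 𝔖 (C.vc j) t := by
  by_contra hcon
  rw [not_mem_cut_iff ht] at hcon
  apply h2
  have h3 : (C.coord j (C.ι w) < t ↔ C.coord j (C.ι (w * σ.1)) < t) := hcon
  exact h3.symm.trans h1

/-- choice of a good level between two different values of a coordinate. -/
theorem Cpt.d3_exists_level (C : Cpt 𝔖) (j : ℕ) {p q : C.X} (hpq : C.coord j p ≠ C.coord j q) {P : ℝ → Prop}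
    (hP : ∀ᵐ t : ℝ, t ∈ Ioo (0 : ℝ) 1 → P t) :
    ∃ t, t ∈ Ioo (min (C.coord j p) (C.coord j q)) (max (C.coord j p) (C.coord j q)) ∧
      Regular (C.vc j) t ∧ P t := by
  have hlt : min (C.coord j p) (C.coord j q) < max (C.coord j p) (C.coord j q) := by
    rcases lt_or_gt_of_ne hpq with h | h
    · rw [min_eq_left h.le, max_eq_right h.le]; exact h
    · rw [min_eq_right h.le, max_eq_left h.le]; exact h
  obtain ⟨t, ht, h1, h2⟩ := ae_exists_mem_Ioo ((ae_regular 𝔖 (C.vc j)).and hP) hlt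
  refine ⟨t, ht, h1, h2 ⟨?_, ?_⟩⟩
  · exact lt_of_le_of_lt (le_min (C.coord_mem j p).1 (C.coord_mem j q).1) ht.1
  · exact lt_of_lt_of_le ht.2 (max_le (C.coord_mem j p).2 (C.coord_mem j q).2)

/-- **core of Proposition 4.3.**  Suppose `s ≠ a`.  `Cpt.exists_coord_ne`: `j₁` with `coord j₁ r ≠ coord j₁ b`, `j₂` with `coord j₂ s ≠ coord j₂ a`.  `Collapse` with `J = {j₁, j₂}`
gives `φ`.  Choose `t₁` strictly between `coord j₁ r` and `coord j₁ b`, `t₂` strictly between `coord j₂ s` and `coord j₂ a` (these intervals lie in `(0,1)`), regular for `vc j₁`, `vc j₂`,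
outside the null sets (`ae_exists_mem_Ioo`, `ae_regular`).  `R₁ := ` the set of vertices on the `r`-side of `t₁` for `vc j₁`.  There is `ε > 0` such that no vertex within `ε` of `b`
lies in `R₁`, and all points within `ε` of `a` are on the `a`-side of `t₂` for `coord j₂`.  For large `n` (along `φ`): `v_n ∈ R₁`; `g_n v_n` is on the `s`-side of `t₂`.
A path from `v_n` to a vertex outside `R₁` (there are vertices near `b`) and `PathIn.first_exit`: `w_n ∈ R₁`, `PathIn 𝔖 R₁ v_n w_n`, and `(w_n, σ) ∈ cut (vc j₁) t₁`, so `g_n w_n` is within `ε` of `a`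
(first part of `Collapse`), hence on the `a`-side of `t₂`.  Translate the path by `g_n` (`PathIn.smul`) and apply `first_exit` for the `s`-side of `t₂`: an edge `e' ∈ cut (vc j₂) t₂` with
`g_n⁻¹ * esrc e' ∈ R₁`; by the second part of `Collapse` this vertex is within `ε` of `b`: contradiction. -/
theorem Cpt.conv_vertices (C : Cpt 𝔖) (h : C.Collapse) {g v : ℕ → Γ} {a b r s : C.X} (ha : a ∈ C.B) (hb : b ∈ C.B)
    (hga : Tendsto (fun n => C.ι (g n)) atTop (𝓝 a)) (hgb : Tendsto (fun n => C.ι (g n)⁻¹) atTop (𝓝 b))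
    (hr : Tendsto (fun n => C.ι (v n)) atTop (𝓝 r)) (hrb : r ≠ b)
    (hs : Tendsto (fun n => C.ι (g n * v n)) atTop (𝓝 s)) : s = a := by
  by_contra hsa
  obtain ⟨j₁, hj₁⟩ := C.exists_coord_ne hrb
  obtain ⟨j₂, hj₂⟩ := C.exists_coord_ne hsa
  obtain ⟨φ, hφ, hcol⟩ := h g a b ha hb hga hgb {j₁, j₂}
  obtain ⟨t₁, ht₁, hreg₁, hc₁⟩ := C.d3_exists_level j₁ hj₁ (hcol j₁ (by simp))
  obtain ⟨t₂, ht₂, hreg₂, hc₂⟩ := C.d3_exists_level j₂ hj₂ (hcol j₂ (by simp))
  have hS1r : d3Side (C.coord j₁) t₁ r ∈ 𝓝 r :=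
    d3_side_nhds (C.coord_cont j₁) (d3_ne_of_mem_Ioo ht₁)
  have hS1b : (d3Side (C.coord j₁) t₁ r)ᶜ ∈ 𝓝 b := d3_side_compl_nhds (C.coord_cont j₁) ht₁
  have hS2s : d3Side (C.coord j₂) t₂ s ∈ 𝓝 s :=
    d3_side_nhds (C.coord_cont j₂) (d3_ne_of_mem_Ioo ht₂)
  have hS2a : (d3Side (C.coord j₂) t₂ s)ᶜ ∈ 𝓝 a := d3_side_compl_nhds (C.coord_cont j₂) ht₂
  obtain ⟨ε₁, hε₁, hb₁⟩ := Metric.mem_nhds_iff.1 hS1b
  obtain ⟨ε₂, hε₂, hb₂⟩ := Metric.mem_nhds_iff.1 hS2a
  have hφt : Tendsto φ atTop atTop := hφ.tendsto_atTop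
  have e1 : ∀ᶠ n in atTop, C.ι (v (φ n)) ∈ d3Side (C.coord j₁) t₁ r := (hr.comp hφt).eventually hS1r
  have e2 : ∀ᶠ n in atTop, C.ι (g (φ n) * v (φ n)) ∈ d3Side (C.coord j₂) t₂ s :=
    (hs.comp hφt).eventually hS2s
  obtain ⟨n, hn1, hn2, hn3, hn4⟩ := (e1.and (e2.and ((hc₁ ε₂ hε₂).and (hc₂ ε₁ hε₁)))).exists
  -- a vertex near `b`
  obtain ⟨u, hu⟩ : ∃ u : Γ, C.ι u ∈ Metric.ball b ε₁ :=
    C.ι_dense.exists_mem_open Metric.isOpen_ball ⟨b, Metric.mem_ball_self hε₁⟩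
  set R₁ : Set Γ := {w | C.ι w ∈ d3Side (C.coord j₁) t₁ r} with hR₁
  have huR : u ∉ R₁ := fun hc => hb₁ hu hc
  obtain ⟨w, σ, hpath, hw1, hw2, -, -, -⟩ := (pathIn_univ 𝔖 (v (φ n)) u).first_exit (U := R₁) hn1 huR
  have hcut1 : ((w, σ) : 𝔖.Edge) ∈ cut 𝔖 (C.vc j₁) t₁ := C.d3_mem_cut j₁ hreg₁ r w σ hw1 hw2
  have hwa : C.ι (g (φ n) * w) ∈ (d3Side (C.coord j₂) t₂ s)ᶜ := hb₂ (hn3 _ hcut1).1
  set U₂ : Set Γ := {x | C.ι x ∈ d3Side (C.coord j₂) t₂ s} with hU₂
  obtain ⟨w', σ', -, hw1', hw2', hw3', -, -⟩ := (hpath.smul (g (φ n))).first_exit (U := U₂) hn2 hwa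
  have hcut2 : ((w', σ') : 𝔖.Edge) ∈ cut 𝔖 (C.vc j₂) t₂ := C.d3_mem_cut j₂ hreg₂ s w' σ' hw1' hw2'
  have hfin : C.ι ((g (φ n))⁻¹ * w') ∈ (d3Side (C.coord j₁) t₁ r)ᶜ := hb₁ (hn4 _ hcut2).2
  exact hfin hw3'.2

/-- the same for arbitrary points (approximate `x n` by a vertex `v n` with `dist (ι (v n)) (x n) < 1/(n+1)` and `dist (g n • ι (v n)) (g n • x n) < 1/(n+1)`:
density and continuity of `g n`) -/
theorem Cpt.conv_points (C : Cpt 𝔖) (h : C.Collapse) {g : ℕ → Γ} {x : ℕ → C.X} {a b r s : C.X} (ha : a ∈ C.B) (hb : b ∈ C.B)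
    (hga : Tendsto (fun n => C.ι (g n)) atTop (𝓝 a)) (hgb : Tendsto (fun n => C.ι (g n)⁻¹) atTop (𝓝 b))
    (hr : Tendsto x atTop (𝓝 r)) (hrb : r ≠ b) (hs : Tendsto (fun n => g n • x n) atTop (𝓝 s)) : s = a := by
  have hex : ∀ n : ℕ, ∃ v : Γ, dist (C.ι v) (x n) < 1 / ((n : ℝ) + 1) ∧
      dist (g n • C.ι v) (g n • x n) < 1 / ((n : ℝ) + 1) := by
    intro n
    have hpos : (0 : ℝ) < 1 / ((n : ℝ) + 1) := by positivity
    have hopen : IsOpen {y : C.X | dist y (x n) < 1 / ((n : ℝ) + 1) ∧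
        dist (g n • y) (g n • x n) < 1 / ((n : ℝ) + 1)} := by
      refine IsOpen.inter ?_ ?_
      · exact isOpen_lt (continuous_id.dist continuous_const) continuous_const
      · exact isOpen_lt ((C.act_cont (g n)).dist continuous_const) continuous_const
    obtain ⟨v, hv⟩ := C.ι_dense.exists_mem_open hopen ⟨x n, by simpa using hpos⟩
    exact ⟨v, hv⟩
  choose v hv1 hv2 using hex
  have h0 : Tendsto (fun n : ℕ => 1 / ((n : ℝ) + 1)) atTop (𝓝 0) := tendsto_one_div_add_atTop_nhds_zero_nat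
  have hr' : Tendsto (fun n => C.ι (v n)) atTop (𝓝 r) := by
    refine hr.congr_dist ?_
    refine squeeze_zero (fun n => dist_nonneg) (fun n => ?_) h0
    rw [dist_comm]
    exact (hv1 n).le
  have hs' : Tendsto (fun n => C.ι (g n * v n)) atTop (𝓝 s) := by
    refine hs.congr_dist ?_
    refine squeeze_zero (fun n => dist_nonneg) (fun n => ?_) h0
    rw [dist_comm, C.ι_mul]
    exact (hv2 n).le
  exact C.conv_vertices h ha hb hga hgb hr' hrb hs'

/-- **Proposition 4.3.**  If the convergence is not uniform on `K`: `ε₀ > 0`, a subsequence and `x_n ∈ K` with `dist (g_n x_n) a ≥ ε₀`; pass to `x_n → r ∈ K`, `g_n x_n → s` (compactness of `K`, `X`);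
`conv_points` gives `s = a`. -/
theorem Cpt.convergence_of_collapse (C : Cpt 𝔖) (h : C.Collapse) : C.Convergence := by
  intro g a b ha hb hga hgb K hK hbK
  rw [Metric.tendstoUniformlyOn_iff]
  by_contra hcon
  push Not at hcon
  obtain ⟨ε₀, hε₀, hfreq⟩ := hcon
  obtain ⟨φ, hφ, hx⟩ := extraction_of_frequently_atTop hfreq
  choose x hxK hxd using hx
  obtain ⟨r, hrK, ψ, hψ, hxr⟩ := hK.tendsto_subseq hxK
  obtain ⟨s, -, θ, hθ, hgs⟩ := isCompact_univ.tendsto_subseq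
    (x := fun n => g (φ (ψ n)) • x (ψ n)) (fun n => mem_univ _)
  have hsub : Tendsto (fun n => φ (ψ (θ n))) atTop atTop :=
    hφ.tendsto_atTop.comp (hψ.tendsto_atTop.comp hθ.tendsto_atTop)
  have hsa : s = a := C.conv_points h (g := fun n => g (φ (ψ (θ n)))) (x := fun n => x (ψ (θ n))) ha hb
    (hga.comp hsub) (hgb.comp hsub) (hxr.comp hθ.tendsto_atTop) (fun hc => hbK (hc ▸ hrK)) hgs
  have hlim : Tendsto (fun n => dist a (g (φ (ψ (θ n))) • x (ψ (θ n)))) atTop (𝓝 (dist a s)) :=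
    tendsto_const_nhds.dist hgs
  have hge : ε₀ ≤ dist a s := ge_of_tendsto' hlim fun n => hxd (ψ (θ n))
  rw [hsa, dist_self] at hge
  exact absurd hge (not_le.2 hε₀)

end Claimed.Agent.R309
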