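import Claimed.Agent.R309.S34.Defs

/-!
# Row 309, S34, package **S34-A1 (Graph)**: elementary facts on the Cayley graph, edges, `Near`, cuts, translations.

Statements: helper146 (sub-captain).  OWNER = the seat that claims subtask `S34-A1`.  Keep the statements verbatim (tell helper146 if one
is false or awkward); add helper lemmas with prefix `gr_`.  All proofs are elementary (unfold, induction on `ReflTransGen`).  ~700 lines.
These lemmas are used as black boxes by all other packages of S34 and by S5.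
-/

set_option autoImplicit false

namespace Claimed.Agent.R309

open Filter Topology Set

variable {Γ : Type} [Group Γ] {𝔖 : GenSet Γ}

/-! ### vertices and paths -/

/-- every element is a product of generators -/
theorem gr_exists_list (𝔖 : GenSet Γ) (x : Γ) : ∃ l : List {s : Γ // s ∈ 𝔖.S}, (l.map Subtype.val).prod = x := by
  have hx : x ∈ Subgroup.closure (𝔖.S : Set Γ) := by rw [𝔖.closure_eq]; trivial
  induction hx using Subgroup.closure_induction_right with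
  | one => exact ⟨[], rfl⟩
  | mul_right x hx y hy ih =>
    obtain ⟨l, hl⟩ := ih
    exact ⟨l ++ [⟨y, hy⟩], by rw [List.map_append, List.prod_append, hl]; simp⟩
  | mul_inv_cancel x hx y hy ih =>
    obtain ⟨l, hl⟩ := ih
    exact ⟨l ++ [⟨y⁻¹, 𝔖.inv_mem y hy⟩], by rw [List.map_append, List.prod_append, hl]; simp⟩

/-- a finitely generated group is countable (`Subgroup.closure` of a finite set; `closure_eq`) -/
theorem GenSet.countable (𝔖 : GenSet Γ) : Countable Γ :=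
  Function.Surjective.countable (f := fun l : List {s : Γ // s ∈ 𝔖.S} => (l.map Subtype.val).prod)
    (gr_exists_list 𝔖)

theorem GenSet.countable_edge (𝔖 : GenSet Γ) : Countable 𝔖.Edge := by
  have := 𝔖.countable
  infer_instance

/-- the Cayley graph is connected (`Subgroup.closure_induction` on `u⁻¹ v`) -/
theorem pathIn_univ (𝔖 : GenSet Γ) (u v : Γ) : PathIn 𝔖 univ u v := by
  have key : ∀ l : List {s : Γ // s ∈ 𝔖.S}, ∀ u : Γ, PathIn 𝔖 univ u (u * (l.map Subtype.val).prod) := by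
    intro l
    induction l with
    | nil =>
      intro u
      rw [List.map_nil, List.prod_nil, mul_one]
      exact Relation.ReflTransGen.refl
    | cons s l ih =>
      intro u
      have h1 := ih (u * s.1)
      have h2 : u * (List.map Subtype.val (s :: l)).prod = u * s.1 * (l.map Subtype.val).prod := by
        simp [mul_assoc]
      rw [h2]
      exact Relation.ReflTransGen.head ⟨mem_univ _, mem_univ _, s.1, s.2, rfl⟩ h1
  obtain ⟨l, hl⟩ := gr_exists_list 𝔖 (u⁻¹ * v)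
  have := key l u
  rwa [hl, mul_inv_cancel_left] at this

theorem PathIn.symm {U : Set Γ} {u v : Γ} (h : PathIn 𝔖 U u v) : PathIn 𝔖 U v u := by
  induction h with
  | refl => exact Relation.ReflTransGen.refl
  | tail _ hbc ih =>
    obtain ⟨hb, hc, s, hs, rfl⟩ := hbc
    exact Relation.ReflTransGen.head ⟨hc, hb, s⁻¹, 𝔖.inv_mem s hs, by simp⟩ ih

theorem PathIn.trans {U : Set Γ} {u v w : Γ} (h : PathIn 𝔖 U u v) (h' : PathIn 𝔖 U v w) : PathIn 𝔖 U u w :=
  Relation.ReflTransGen.trans h h'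

theorem PathIn.mono {U V : Set Γ} (hUV : U ⊆ V) {u v : Γ} (h : PathIn 𝔖 U u v) : PathIn 𝔖 V u v :=
  Relation.ReflTransGen.mono (fun _ _ h => ⟨hUV h.1, hUV h.2.1, h.2.2⟩) _ _ h

theorem PathIn.mem_right {U : Set Γ} {u v : Γ} (h : PathIn 𝔖 U u v) (hu : u ∈ U) : v ∈ U := by
  cases h with
  | refl => exact hu
  | tail _ hbc => exact hbc.2.1

/-- left translation of a path -/
theorem PathIn.smul {U : Set Γ} {u v : Γ} (g : Γ) (h : PathIn 𝔖 U u v) :
    PathIn 𝔖 {w | g⁻¹ * w ∈ U} (g * u) (g * v) := by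
  induction h with
  | refl => exact Relation.ReflTransGen.refl
  | tail _ hbc ih =>
    obtain ⟨hb, hc, s, hs, rfl⟩ := hbc
    refine Relation.ReflTransGen.tail ih ⟨?_, ?_, s, hs, by simp [mul_assoc]⟩
    · show g⁻¹ * (g * _) ∈ U
      rwa [inv_mul_cancel_left]
    · show g⁻¹ * (g * _) ∈ U
      rwa [inv_mul_cancel_left]

/-- **first exit**: a path inside `W` from a point of `U` to a point outside `U` leaves `U` through an edge -/
theorem PathIn.first_exit {W U : Set Γ} {u v : Γ} (h : PathIn 𝔖 W u v) (hu : u ∈ U) (hv : v ∉ U) :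
    ∃ (w : Γ) (s : {s : Γ // s ∈ 𝔖.S}), PathIn 𝔖 (W ∩ U) u w ∧ w ∈ U ∧ w * s.1 ∉ U ∧ w ∈ W ∧ w * s.1 ∈ W ∧
      PathIn 𝔖 W (w * s.1) v := by
  have key : ∀ u : Γ, PathIn 𝔖 W u v → u ∈ U →
      ∃ (w : Γ) (s : {s : Γ // s ∈ 𝔖.S}), PathIn 𝔖 (W ∩ U) u w ∧ w ∈ U ∧ w * s.1 ∉ U ∧ w ∈ W ∧ w * s.1 ∈ W ∧
        PathIn 𝔖 W (w * s.1) v := by
    intro u h
    induction h using Relation.ReflTransGen.head_induction_on with
    | refl => intro hu; exact absurd hu hv
    | @head a _ hab hbc ih =>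
      intro hu
      obtain ⟨ha, hb, s, hs, rfl⟩ := hab
      by_cases hU : a * s ∈ U
      · obtain ⟨w, t, h1, h2⟩ := ih hU
        exact ⟨w, t, Relation.ReflTransGen.head ⟨⟨ha, hu⟩, ⟨hb, hU⟩, s, hs, rfl⟩ h1, h2⟩
      · exact ⟨a, ⟨s, hs⟩, Relation.ReflTransGen.refl, hu, hU, ha, hb, hbc⟩
  exact key u h hu

/-- a function which does not change along the edges inside `U` is constant along paths in `U` -/
theorem PathIn.const {A : Type} {U : Set Γ} {u v : Γ} (h : PathIn 𝔖 U u v) (φ : Γ → A)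
    (hφ : ∀ a ∈ U, ∀ s ∈ 𝔖.S, a * s ∈ U → φ (a * s) = φ a) : φ v = φ u := by
  induction h with
  | refl => rfl
  | tail _ hbc ih =>
    obtain ⟨hb, hc, s, hs, rfl⟩ := hbc
    rw [hφ _ hb s hs hc, ih]

/-! ### edges -/

@[simp] theorem esrc_erev (e : 𝔖.Edge) : esrc (erev e) = etgt e := rfl

@[simp] theorem etgt_erev (e : 𝔖.Edge) : etgt (erev e) = esrc e := by
  simp [etgt, erev, esrc]

@[simp] theorem esrc_etr (g : Γ) (e : 𝔖.Edge) : esrc (etr g e) = g * esrc e := rfl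

@[simp] theorem etgt_etr (g : Γ) (e : 𝔖.Edge) : etgt (etr g e) = g * etgt e := by
  simp [etgt, etr, esrc, mul_assoc]

theorem etr_mul (g h : Γ) (e : 𝔖.Edge) : etr (g * h) e = etr g (etr h e) := by
  simp [etr, mul_assoc]

theorem etr_one (e : 𝔖.Edge) : etr 1 e = e := by
  simp [etr]

theorem etr_injective (g : Γ) : Function.Injective (etr g : 𝔖.Edge → 𝔖.Edge) := by
  intro e e' h
  have h1 : etr g⁻¹ (etr g e) = etr g⁻¹ (etr g e') := by rw [h]
  rwa [← etr_mul, ← etr_mul, inv_mul_cancel, etr_one, etr_one] at h1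

/-- for fixed edges `e, e'` at most one `g` has `g e = e'` -/
theorem etr_left_injective (e : 𝔖.Edge) : Function.Injective fun g : Γ => etr g e := by
  intro g g' h
  have h1 : g * e.1 = g' * e.1 := congrArg Prod.fst h
  exact mul_right_cancel h1

/-- an edge is determined by its endpoints -/
theorem gr_edge_ext {e e' : 𝔖.Edge} (h1 : esrc e = esrc e') (h2 : etgt e = etgt e') : e = e' := by
  obtain ⟨g, s, hs⟩ := e
  obtain ⟨g', s', hs'⟩ := e'
  simp only [esrc] at h1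
  subst h1
  simp only [etgt] at h2
  have := mul_left_cancel h2
  subst this
  rfl

/-- finitely many edges meet a finite vertex set -/
theorem edges_at_finite (W : Set Γ) (hW : W.Finite) : {e : 𝔖.Edge | esrc e ∈ W ∨ etgt e ∈ W}.Finite := by
  have h1 : (W ×ˢ (univ : Set {s : Γ // s ∈ 𝔖.S})).Finite := hW.prod finite_univ
  have h2 := h1.image (fun p : Γ × {s : Γ // s ∈ 𝔖.S} => ((p.1 * p.2.1⁻¹, p.2) : 𝔖.Edge))
  refine (h1.union h2).subset ?_
  rintro e (he | he)
  · exact Or.inl ⟨he, mem_univ _⟩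
  · refine Or.inr ⟨(etgt e, e.2), ⟨he, mem_univ _⟩, ?_⟩
    simp [etgt]

/-! ### the relation `Near` -/

theorem Near.refl (e : 𝔖.Edge) : Near e e := Or.inl rfl

theorem Near.symm {e e' : 𝔖.Edge} (h : Near e e') : Near e' e := by
  rcases h with rfl | ⟨g, s₁, s₂, h, he, he'⟩
  · exact Or.inl rfl
  · exact Or.inr ⟨g, s₁, s₂, h, he', he⟩

/-- triangle `(g, s, s⁻¹)` -/
theorem near_erev (e : 𝔖.Edge) : Near e (erev e) := by
  refine Or.inr ⟨e.1, e.2, ⟨e.2.1⁻¹, 𝔖.inv_mem _ e.2.2⟩, by simpa using 𝔖.one_mem, ?_, ?_⟩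
  · exact Or.inl rfl
  · exact Or.inr (Or.inl rfl)

theorem gr_near_etr_of {e e' : 𝔖.Edge} (g : Γ) (h : Near e e') : Near (etr g e) (etr g e') := by
  rcases h with rfl | ⟨x, s₁, s₂, h, he, he'⟩
  · exact Or.inl rfl
  · have key : ∀ e : 𝔖.Edge, e ∈ triEdges x s₁ s₂ h → etr g e ∈ triEdges (g * x) s₁ s₂ h := by
      intro e he
      rcases he with rfl | rfl | rfl
      · exact Or.inl rfl
      · refine Or.inr (Or.inl ?_)
        simp [etr, mul_assoc]
      · exact Or.inr (Or.inr rfl)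
    exact Or.inr ⟨g * x, s₁, s₂, h, key e he, key e' he'⟩

theorem near_etr (g : Γ) (e e' : 𝔖.Edge) : Near (etr g e) (etr g e') ↔ Near e e' := by
  refine ⟨fun h => ?_, gr_near_etr_of g⟩
  have := gr_near_etr_of g⁻¹ h
  rwa [← etr_mul, ← etr_mul, inv_mul_cancel, etr_one, etr_one] at this

/-- all edges near `e` start at `e.1 * x` with `x` a generator -/
theorem gr_near_subset (e : 𝔖.Edge) :
    {e' : 𝔖.Edge | Near e e'} ⊆
      (fun p : {s : Γ // s ∈ 𝔖.S} × {s : Γ // s ∈ 𝔖.S} => ((e.1 * p.1.1, p.2) : 𝔖.Edge)) '' univ := by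
  intro e' h
  have one : (1 : Γ) ∈ 𝔖.S := 𝔖.one_mem
  have key : ∃ x : {s : Γ // s ∈ 𝔖.S}, e.1 * x.1 = e'.1 := by
    rcases h with rfl | ⟨g, s₁, s₂, h, he, he'⟩
    · exact ⟨⟨1, one⟩, by simp⟩
    · have inv1 : s₁.1⁻¹ ∈ 𝔖.S := 𝔖.inv_mem _ s₁.2
      rcases he with rfl | rfl | rfl <;> rcases he' with rfl | rfl | rfl
      · exact ⟨⟨1, one⟩, by simp⟩
      · exact ⟨s₁, rfl⟩
      · exact ⟨⟨1, one⟩, by simp⟩
      · exact ⟨⟨s₁.1⁻¹, inv1⟩, by simp⟩
      · exact ⟨⟨1, one⟩, by simp⟩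
      · exact ⟨⟨s₁.1⁻¹, inv1⟩, by simp⟩
      · exact ⟨⟨1, one⟩, by simp⟩
      · exact ⟨s₁, rfl⟩
      · exact ⟨⟨1, one⟩, by simp⟩
  obtain ⟨x, hx⟩ := key
  exact ⟨(x, e'.2), mem_univ _, Prod.ext hx rfl⟩

theorem near_finite (e : 𝔖.Edge) : {e' : 𝔖.Edge | Near e e'}.Finite :=
  (finite_univ.image _).subset (gr_near_subset e)

/-- bounded degree -/
theorem near_card_le (𝔖 : GenSet Γ) : ∃ D : ℕ, ∀ e : 𝔖.Edge, {e' : 𝔖.Edge | Near e e'}.ncard ≤ D := by
  refine ⟨(univ : Set ({s : Γ // s ∈ 𝔖.S} × {s : Γ // s ∈ 𝔖.S})).ncard, fun e => ?_⟩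
  exact (Set.ncard_le_ncard (gr_near_subset e) (finite_univ.image _)).trans (Set.ncard_image_le finite_univ)

/-- two edges with the same source whose targets are adjacent -/
theorem gr_near_src_src {e e' : 𝔖.Edge} (h1 : esrc e = esrc e') (h2 : (etgt e)⁻¹ * etgt e' ∈ 𝔖.S) : Near e e' := by
  have h3 : e.2.1 * ((etgt e)⁻¹ * etgt e') = e'.2.1 := by
    have : e.1 = e'.1 := h1
    simp [etgt, this, mul_assoc]
  refine Or.inr ⟨e.1, e.2, ⟨_, h2⟩, by rw [h3]; exact e'.2.2, Or.inl rfl, Or.inr (Or.inr ?_)⟩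
  refine gr_edge_ext h1.symm ?_
  simp only [etgt] at h3 ⊢
  rw [h3]
  have : e.1 = e'.1 := h1
  rw [this]

/-- consecutive edges whose outer endpoints are adjacent -/
theorem gr_near_tgt_src {e e' : 𝔖.Edge} (h1 : etgt e = esrc e') (h2 : (esrc e)⁻¹ * etgt e' ∈ 𝔖.S) : Near e e' := by
  have h3 : e.2.1 * e'.2.1 = (esrc e)⁻¹ * etgt e' := by
    have : e.1 * e.2.1 = e'.1 := h1
    simp [etgt, esrc, ← this, mul_assoc]
  refine Or.inr ⟨e.1, e.2, e'.2, by rw [h3]; exact h2, Or.inl rfl, Or.inr (Or.inl ?_)⟩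
  refine gr_edge_ext h1.symm ?_
  have : e.1 * e.2.1 = e'.1 := h1
  simp only [etgt]
  rw [this]

/-- two edges with the same target whose sources are adjacent -/
theorem gr_near_tgt_tgt {e e' : 𝔖.Edge} (h1 : etgt e = etgt e') (h2 : (esrc e')⁻¹ * esrc e ∈ 𝔖.S) : Near e e' := by
  have h0 : e.1 * e.2.1 = e'.1 * e'.2.1 := h1
  have h3 : (esrc e')⁻¹ * esrc e * e.2.1 = e'.2.1 := by
    simp only [esrc]
    rw [mul_assoc, h0, inv_mul_cancel_left]
  refine Or.inr ⟨e'.1, ⟨_, h2⟩, e.2, by rw [h3]; exact e'.2.2, Or.inr (Or.inl ?_), Or.inr (Or.inr ?_)⟩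
  · refine gr_edge_ext ?_ ?_
    · simp [esrc]
    · simp [etgt, esrc]
  · refine gr_edge_ext rfl ?_
    simp only [etgt]
    rw [h3]

/-- the vertices of a triangle are pairwise adjacent -/
theorem gr_tri_clique (g : Γ) (s₁ s₂ : {s : Γ // s ∈ 𝔖.S}) (h : s₁.1 * s₂.1 ∈ 𝔖.S) {a b : Γ}
    (ha : a = g ∨ a = g * s₁.1 ∨ a = g * s₁.1 * s₂.1) (hb : b = g ∨ b = g * s₁.1 ∨ b = g * s₁.1 * s₂.1) :
    a⁻¹ * b ∈ 𝔖.S := by
  have one : (1 : Γ) ∈ 𝔖.S := 𝔖.one_mem
  rcases ha with rfl | rfl | rfl <;> rcases hb with rfl | rfl | rfl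
  · rw [inv_mul_cancel]; exact one
  · simp
  · simpa [mul_assoc] using h
  · simpa using 𝔖.inv_mem _ s₁.2
  · rw [inv_mul_cancel]; exact one
  · simp [mul_assoc]
  · simpa [mul_assoc] using 𝔖.inv_mem _ h
  · simpa [mul_assoc] using 𝔖.inv_mem _ s₂.2
  · rw [inv_mul_cancel]; exact one

theorem gr_tri_ends (g : Γ) (s₁ s₂ : {s : Γ // s ∈ 𝔖.S}) (h : s₁.1 * s₂.1 ∈ 𝔖.S) {e : 𝔖.Edge}
    (he : e ∈ triEdges g s₁ s₂ h) :
    (esrc e = g ∨ esrc e = g * s₁.1 ∨ esrc e = g * s₁.1 * s₂.1) ∧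
      (etgt e = g ∨ etgt e = g * s₁.1 ∨ etgt e = g * s₁.1 * s₂.1) := by
  rcases he with rfl | rfl | rfl
  · exact ⟨Or.inl rfl, Or.inr (Or.inl rfl)⟩
  · exact ⟨Or.inr (Or.inl rfl), Or.inr (Or.inr rfl)⟩
  · exact ⟨Or.inl rfl, Or.inr (Or.inr (by simp [etgt, mul_assoc]))⟩

/-- **triangle lemma**: two endpoints of two near edges coincide or are joined by an edge near both -/
theorem near_join {e e' : 𝔖.Edge} (h : Near e e') {u u' : Γ} (hu : u = esrc e ∨ u = etgt e)
    (hu' : u' = esrc e' ∨ u' = etgt e') :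
    u = u' ∨ ∃ e'' : 𝔖.Edge, Near e e'' ∧ Near e' e'' ∧ esrc e'' = u ∧ etgt e'' = u' := by
  rcases h with rfl | ⟨g, s₁, s₂, h, he, he'⟩
  · rcases hu with rfl | rfl <;> rcases hu' with rfl | rfl
    · exact Or.inl rfl
    · exact Or.inr ⟨e, Near.refl e, Near.refl e, rfl, rfl⟩
    · exact Or.inr ⟨erev e, near_erev e, near_erev e, esrc_erev e, etgt_erev e⟩
    · exact Or.inl rfl
  · right
    obtain ⟨ha, hb⟩ := gr_tri_ends g s₁ s₂ h he
    obtain ⟨hc, hd⟩ := gr_tri_ends g s₁ s₂ h he'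
    have hcl := fun {a b : Γ} => gr_tri_clique (a := a) (b := b) g s₁ s₂ h
    have hPu : u = g ∨ u = g * s₁.1 ∨ u = g * s₁.1 * s₂.1 := by
      rcases hu with rfl | rfl
      · exact ha
      · exact hb
    have hPu' : u' = g ∨ u' = g * s₁.1 ∨ u' = g * s₁.1 * s₂.1 := by
      rcases hu' with rfl | rfl
      · exact hc
      · exact hd
    have hs : esrc ((u, ⟨u⁻¹ * u', hcl hPu hPu'⟩) : 𝔖.Edge) = u := rfl
    have ht : etgt ((u, ⟨u⁻¹ * u', hcl hPu hPu'⟩) : 𝔖.Edge) = u' := by simp [etgt]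
    refine ⟨(u, ⟨u⁻¹ * u', hcl hPu hPu'⟩), ?_, ?_, hs, ht⟩
    · rcases hu with hu | hu
      · exact gr_near_src_src (by rw [hs, hu]) (by rw [ht]; exact hcl hb hPu')
      · exact gr_near_tgt_src (by rw [hs, hu]) (by rw [ht]; exact hcl ha hPu')
    · rcases hu' with hu' | hu'
      · exact (gr_near_tgt_src (by rw [ht, hu']) (by rw [hs]; exact hcl hPu hd)).symm
      · exact gr_near_tgt_tgt (by rw [ht, hu']) (by rw [hs]; exact hcl hPu hc)

/-- all edges of one triangle are near each other -/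
theorem near_of_tri (g : Γ) (s₁ s₂ : {s : Γ // s ∈ 𝔖.S}) (h : s₁.1 * s₂.1 ∈ 𝔖.S) {e e' : 𝔖.Edge}
    (he : e ∈ triEdges g s₁ s₂ h) (he' : e' ∈ triEdges g s₁ s₂ h) : Near e e' :=
  Or.inr ⟨g, s₁, s₂, h, he, he'⟩

/-! ### dual paths -/

theorem DualPathIn.symm {D : Set 𝔖.Edge} {e e' : 𝔖.Edge} (h : DualPathIn D e e') : DualPathIn D e' e := by
  induction h with
  | refl => exact Relation.ReflTransGen.refl
  | tail _ hbc ih => exact Relation.ReflTransGen.head ⟨hbc.2.1, hbc.1, hbc.2.2.symm⟩ ih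

theorem DualPathIn.trans {D : Set 𝔖.Edge} {e e' e'' : 𝔖.Edge} (h : DualPathIn D e e') (h' : DualPathIn D e' e'') :
    DualPathIn D e e'' := Relation.ReflTransGen.trans h h'

theorem DualPathIn.mono {D D' : Set 𝔖.Edge} (hD : D ⊆ D') {e e' : 𝔖.Edge} (h : DualPathIn D e e') :
    DualPathIn D' e e' :=
  Relation.ReflTransGen.mono (fun _ _ h => ⟨hD h.1, hD h.2.1, h.2.2⟩) _ _ h

theorem duallyConnected_singleton (e : 𝔖.Edge) : DuallyConnected ({e} : Set 𝔖.Edge) := by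
  intro a ha b hb
  rw [mem_singleton_iff] at ha hb
  rw [ha, hb]

theorem duallyConnected_empty : DuallyConnected (∅ : Set 𝔖.Edge) := by
  intro e he
  exact absurd he (Set.notMem_empty e)

theorem gr_dualPathIn_etr {D : Set 𝔖.Edge} {e e' : 𝔖.Edge} (g : Γ) (h : DualPathIn D e e') :
    DualPathIn (etr g '' D) (etr g e) (etr g e') := by
  induction h with
  | refl => exact Relation.ReflTransGen.refl
  | tail _ hbc ih =>
    exact Relation.ReflTransGen.tail ih ⟨mem_image_of_mem _ hbc.1, mem_image_of_mem _ hbc.2.1, (near_etr g _ _).2 hbc.2.2⟩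

theorem DuallyConnected.image_etr {D : Set 𝔖.Edge} (h : DuallyConnected D) (g : Γ) :
    DuallyConnected (etr g '' D) := by
  rintro _ ⟨a, ha, rfl⟩ _ ⟨b, hb, rfl⟩
  exact gr_dualPathIn_etr g (h a ha b hb)

/-- **deleting finitely many edges** from a dually connected set leaves finitely many dual components
(representatives: the edges of `D \ E` near `E`, and one more edge).  Also used in S5. -/
theorem dual_delete_finite (D : Set 𝔖.Edge) (hD : DuallyConnected D) (E : Set 𝔖.Edge) (hE : E.Finite) :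
    ∃ R : Finset 𝔖.Edge, (R : Set 𝔖.Edge) ⊆ D \ E ∧ ∀ e ∈ D \ E, ∃ r ∈ R, DualPathIn (D \ E) r e := by
  classical
  by_cases hne : (D \ E).Nonempty
  swap
  · refine ⟨∅, by simp, fun e he => absurd ⟨e, he⟩ hne⟩
  obtain ⟨e₀, he₀⟩ := hne
  have hfin : ({y | y ∈ D \ E ∧ ∃ x ∈ E, Near x y} ∪ {e₀}).Finite := by
    refine Set.Finite.union ?_ (finite_singleton _)
    refine (hE.biUnion fun x _ => near_finite x).subset ?_
    rintro y ⟨_, x, hx, hxy⟩
    exact mem_biUnion hx hxy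
  refine ⟨hfin.toFinset, ?_, ?_⟩
  · intro y hy
    rw [Set.Finite.coe_toFinset] at hy
    rcases hy with hy | hy
    · exact hy.1
    · rw [mem_singleton_iff] at hy
      rw [hy]
      exact he₀
  · intro e he
    have key : ∀ x : 𝔖.Edge, DualPathIn D x e → x ∈ D →
        (x ∈ D \ E ∧ DualPathIn (D \ E) x e) ∨
          ∃ r, (r ∈ D \ E ∧ ∃ x ∈ E, Near x r) ∧ DualPathIn (D \ E) r e := by
      intro x h
      induction h using Relation.ReflTransGen.head_induction_on with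
      | refl => intro _; exact Or.inl ⟨he, Relation.ReflTransGen.refl⟩
      | @head a b hab _ ih =>
        intro hx
        rcases ih hab.2.1 with ⟨hb, hp⟩ | hr
        · by_cases haE : a ∈ E
          · exact Or.inr ⟨b, ⟨hb, a, haE, hab.2.2⟩, hp⟩
          · exact Or.inl ⟨⟨hx, haE⟩, Relation.ReflTransGen.head ⟨⟨hx, haE⟩, hb, hab.2.2⟩ hp⟩
        · exact Or.inr hr
    rcases key e₀ (hD e₀ he₀.1 e he.1) he₀.1 with ⟨_, hp⟩ | ⟨r, hr, hp⟩
    · exact ⟨e₀, by rw [Set.Finite.mem_toFinset]; exact Or.inr rfl, hp⟩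
    · exact ⟨r, by rw [Set.Finite.mem_toFinset]; exact Or.inl hr, hp⟩

/-- a dual path visits each edge at most once, after shortening: a duplicate-free chain -/
theorem DualPathIn.exists_chain {D : Set 𝔖.Edge} {e e' : 𝔖.Edge} (h : DualPathIn D e e') (he : e ∈ D) :
    ∃ l : List 𝔖.Edge, l.Nodup ∧ (∀ x ∈ l, x ∈ D) ∧ l.head? = some e ∧ l.getLast? = some e' ∧
      l.IsChain (fun a b => Near a b) := by
  classical
  have key : ∀ e : 𝔖.Edge, DualPathIn D e e' → e ∈ D →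
      ∃ l : List 𝔖.Edge, l.Nodup ∧ (∀ x ∈ l, x ∈ D) ∧ l.head? = some e ∧ l.getLast? = some e' ∧
        l.IsChain (fun a b => Near a b) := by
    intro e h
    induction h using Relation.ReflTransGen.head_induction_on with
    | refl =>
      intro he
      exact ⟨[e'], List.nodup_singleton _, by simpa using he, rfl, rfl, List.isChain_singleton _⟩
    | @head a b hab _ ih =>
      intro ha
      obtain ⟨l, h1, h2, h3, h4, h5⟩ := ih hab.2.1
      by_cases hal : a ∈ l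
      · obtain ⟨s, t, rfl⟩ := List.append_of_mem hal
        refine ⟨a :: t, h1.of_append_right, fun x hx => h2 x (List.mem_append_right _ hx), rfl, ?_,
          h5.right_of_append⟩
        rwa [List.getLast?_append_cons] at h4
      · refine ⟨a :: l, List.nodup_cons.2 ⟨hal, h1⟩, ?_, rfl, ?_, ?_⟩
        · intro x hx
          rcases List.mem_cons.1 hx with rfl | hx
          · exact ha
          · exact h2 x hx
        · rw [List.getLast?_cons, h4]
          rfl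
        · refine h5.cons ?_
          intro y hy
          rw [h3] at hy
          have : b = y := by simpa using hy
          rw [← this]
          exact hab.2.2
  exact key e h he

/-! ### cuts, gradients, translations -/

theorem mem_cut_iff (F : Γ → ℝ) (t : ℝ) (e : 𝔖.Edge) :
    e ∈ cut 𝔖 F t ↔ (F (esrc e) < t ∧ t < F (etgt e)) ∨ (F (etgt e) < t ∧ t < F (esrc e)) := by
  show (min (F (esrc e)) (F (etgt e)) < t ∧ t < max (F (esrc e)) (F (etgt e))) ↔ _
  rw [min_lt_iff, lt_max_iff]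
  constructor
  · rintro ⟨h1 | h1, h2 | h2⟩
    · exact absurd (h1.trans h2) (lt_irrefl _)
    · exact Or.inl ⟨h1, h2⟩
    · exact Or.inr ⟨h1, h2⟩
    · exact absurd (h1.trans h2) (lt_irrefl _)
  · rintro (⟨h1, h2⟩ | ⟨h1, h2⟩)
    · exact ⟨Or.inl h1, Or.inr h2⟩
    · exact ⟨Or.inr h1, Or.inl h2⟩

theorem erev_mem_cut (F : Γ → ℝ) (t : ℝ) (e : 𝔖.Edge) : erev e ∈ cut 𝔖 F t ↔ e ∈ cut 𝔖 F t := by
  rw [mem_cut_iff, mem_cut_iff, esrc_erev, etgt_erev, or_comm]

/-- at a regular level an edge outside the cut has both endpoints on the same side -/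
theorem not_mem_cut_iff {F : Γ → ℝ} {t : ℝ} (ht : Regular F t) (e : 𝔖.Edge) :
    e ∉ cut 𝔖 F t ↔ (F (esrc e) < t ↔ F (etgt e) < t) := by
  rw [mem_cut_iff]
  have h1 := ht (esrc e)
  have h2 := ht (etgt e)
  constructor
  · intro h
    push Not at h
    constructor
    · intro h3
      exact lt_of_le_of_ne (h.1 h3) h2
    · intro h3
      exact lt_of_le_of_ne (h.2 h3) h1
  · rintro h (⟨h3, h4⟩ | ⟨h3, h4⟩)
    · exact absurd (h.1 h3) (not_lt.2 h4.le)
    · exact absurd (h.2 h3) (not_lt.2 h4.le)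

theorem cut_eq_empty_of_range {F : Γ → ℝ} (hF : ∀ v, 0 ≤ F v ∧ F v ≤ 1) {t : ℝ} (ht : t ∉ Ioo (0 : ℝ) 1) :
    cut 𝔖 F t = ∅ := by
  rw [Set.eq_empty_iff_forall_notMem]
  intro e he
  apply ht
  rw [mem_cut_iff] at he
  rcases he with ⟨h1, h2⟩ | ⟨h1, h2⟩
  · exact ⟨(hF _).1.trans_lt h1, h2.trans_le (hF _).2⟩
  · exact ⟨(hF _).1.trans_lt h1, h2.trans_le (hF _).2⟩

theorem grad_erev (F : Γ → ℝ) (e : 𝔖.Edge) : grad F (erev e) = - grad F e := by
  simp [grad]

theorem grad_trF (g : Γ) (F : Γ → ℝ) (e : 𝔖.Edge) : grad (trF g F) (etr g e) = grad F e := by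
  simp [grad, trF]

theorem etr_mem_cut_trF (g : Γ) (F : Γ → ℝ) (t : ℝ) (e : 𝔖.Edge) :
    etr g e ∈ cut 𝔖 (trF g F) t ↔ e ∈ cut 𝔖 F t := by
  rw [mem_cut_iff, mem_cut_iff]
  simp [trF]

theorem cut_trF (g : Γ) (F : Γ → ℝ) (t : ℝ) : cut 𝔖 (trF g F) t = etr g '' cut 𝔖 F t := by
  ext e
  constructor
  · intro he
    refine ⟨etr g⁻¹ e, ?_, ?_⟩
    · rw [← etr_mem_cut_trF g, ← etr_mul, mul_inv_cancel, etr_one]
      exact he
    · rw [← etr_mul, mul_inv_cancel, etr_one]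
  · rintro ⟨e', he', rfl⟩
    exact (etr_mem_cut_trF g F t e').2 he'

theorem regular_trF (g : Γ) (F : Γ → ℝ) (t : ℝ) : Regular (trF g F) t ↔ Regular F t := by
  constructor
  · intro h v
    have := h (g * v)
    simpa [trF] using this
  · intro h v
    exact h _

theorem finEnergy_trF (g : Γ) {F : Γ → ℝ} (hF : FinEnergy 𝔖 F) : FinEnergy 𝔖 (trF g F) := by
  have h : Summable fun e : 𝔖.Edge => (grad F (etr g⁻¹ e)) ^ 2 :=
    Summable.comp_injective (f := fun e : 𝔖.Edge => (grad F e) ^ 2) hF (etr_injective g⁻¹)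
  refine h.congr fun e => ?_
  have h2 := grad_trF g F (etr g⁻¹ e)
  rw [← etr_mul, mul_inv_cancel, etr_one] at h2
  rw [h2]

/-- a finitely supported function has a finitely supported gradient -/
theorem grad_support_finite {φ : Γ → ℝ} (hφ : (Function.support φ).Finite) :
    (Function.support fun e : 𝔖.Edge => grad φ e).Finite := by
  refine (edges_at_finite _ hφ).subset ?_
  intro e he
  by_contra hcon
  have hcon' : ¬ (esrc e ∈ Function.support φ ∨ etgt e ∈ Function.support φ) := hcon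
  push Not at hcon'
  apply he
  have h1 : φ (esrc e) = 0 := by simpa using hcon'.1
  have h2 : φ (etgt e) = 0 := by simpa using hcon'.2
  show grad φ e = 0
  simp [grad, h1, h2]

theorem finEnergy_of_support_finite {φ : Γ → ℝ} (hφ : (Function.support φ).Finite) : FinEnergy 𝔖 φ := by
  refine summable_of_hasFiniteSupport ((grad_support_finite (𝔖 := 𝔖) hφ).subset ?_)
  intro e he hcon
  apply he
  have : grad φ e = 0 := hcon
  show grad φ e ^ 2 = 0
  rw [this]
  norm_num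

/-- comparison: `|dF'| ≤ |dF|` edgewise -/
theorem FinEnergy.of_le {F F' : Γ → ℝ} (hF : FinEnergy 𝔖 F) (h : ∀ e : 𝔖.Edge, |grad F' e| ≤ |grad F e|) :
    FinEnergy 𝔖 F' ∧ energy 𝔖 F' ≤ energy 𝔖 F := by
  have h1 : ∀ e : 𝔖.Edge, grad F' e ^ 2 ≤ grad F e ^ 2 := fun e => sq_le_sq.2 (h e)
  have h2 : FinEnergy 𝔖 F' := Summable.of_nonneg_of_le (fun e => sq_nonneg _) h1 hF
  exact ⟨h2, Summable.tsum_le_tsum h1 h2 hF⟩

/-- strict comparison -/
theorem energy_lt_of_le_of_lt {F F' : Γ → ℝ} (hF : FinEnergy 𝔖 F) (h : ∀ e : 𝔖.Edge, |grad F' e| ≤ |grad F e|)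
    (e₀ : 𝔖.Edge) (h₀ : |grad F' e₀| < |grad F e₀|) : energy 𝔖 F' < energy 𝔖 F := by
  have h1 : ∀ e : 𝔖.Edge, grad F' e ^ 2 ≤ grad F e ^ 2 := fun e => sq_le_sq.2 (h e)
  exact Summable.tsum_lt_tsum h1 (sq_lt_sq.2 h₀) (hF.of_le h).1 hF

theorem FinEnergy.add {F F' : Γ → ℝ} (hF : FinEnergy 𝔖 F) (hF' : FinEnergy 𝔖 F') :
    FinEnergy 𝔖 (fun v => F v + F' v) := by
  refine Summable.of_nonneg_of_le (fun e => sq_nonneg _) ?_ ((hF.mul_left 2).add (hF'.mul_left 2))
  intro e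
  have : grad (fun v => F v + F' v) e = grad F e + grad F' e := by
    simp only [grad]
    ring
  rw [this]
  nlinarith [sq_nonneg (grad F e - grad F' e)]

theorem FinEnergy.const_mul {F : Γ → ℝ} (hF : FinEnergy 𝔖 F) (c : ℝ) : FinEnergy 𝔖 (fun v => c * F v) := by
  refine (hF.mul_left (c ^ 2)).congr fun e => ?_
  simp only [grad]
  ring

/-- a function with zero gradient is constant -/
theorem eq_of_grad_eq {F F' : Γ → ℝ} (h : ∀ e : 𝔖.Edge, grad F e = grad F' e) (a : Γ) (ha : F a = F' a) : F = F' := by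
  funext v
  have h1 := (pathIn_univ 𝔖 a v).const (fun w => F w - F' w) (by
    intro x _ s hs _
    have := h (x, ⟨s, hs⟩)
    simp only [grad, etgt, esrc] at this
    show F (x * s) - F' (x * s) = F x - F' x
    linarith)
  have h2 : F v - F' v = F a - F' a := h1
  linarith

end Claimed.Agent.R309
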