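import Claimed.Agent.R309.S34.Graph

/-!
# Row 309, S34, package **S34-A2 (L2 + Coarea)**: square summable edge functions, near-sums, mixing; the coarea formula for cuts.

Statements: helper146 (sub-captain).  OWNER = the seat that claims subtask `S34-A2`.  Keep the statements verbatim (tell helper146 if one
is false or awkward); helper lemmas with prefix `l2_`.  May use `S34/Graph.lean` as a black box.  ~900 lines.

Hints.  Everything is about real functions on the countable type `𝔖.Edge` (`GenSet.countable_edge`).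
* Cauchy-Schwarz for series: `Real.inner_le_Lp_mul_Lq_tsum_of_nonneg`, `Real.summable_mul_of_Lp_Lq_of_nonneg` (p = q = 2), or `2ab ≤ a²+b²`.
* `nearSum a e` is a sum over the finite type `{e' // Near e e'}` (`near_finite`), at most `D` terms (`near_card_le`), so
  `(nearSum a e)² ≤ D Σ_{e' near e} a(e')²`, and each `e'` is near at most `D` edges `e` (`Near.symm`).
* mixing: split `a = a 1_A + a 1_{Aᶜ}`, `b = b 1_B + b 1_{Bᶜ}` with finite `A, B` and small tails; `etr g '' A` misses `B` for all but finitely many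
  `g` (`etr_left_injective`); `e ↦ etr g e` is a bijection of the edges, so `Σ b(g e)² = Σ b(e)²`.
* coarea: `lintegral_tsum`, `{t | e ∈ cut F t} = Ioo (min ..) (max ..)`, `Real.volume_Ioo`, `max - min = |dF e|`.
-/

set_option autoImplicit false

namespace Claimed.Agent.R309

open Filter Topology Set MeasureTheory
open scoped ENNReal

variable {Γ : Type} [Group Γ] {𝔖 : GenSet Γ}

/-! ### square summable functions -/

theorem l2_tendsto_zero {a : 𝔖.Edge → ℝ} (ha : Summable fun e => a e ^ 2) : Tendsto a cofinite (𝓝 0) := by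
  have h1 : Tendsto (fun e => a e ^ 2) cofinite (𝓝 0) := ha.tendsto_cofinite_zero
  have h2 : Tendsto (fun e => Real.sqrt (a e ^ 2)) cofinite (𝓝 (Real.sqrt 0)) :=
    (Real.continuous_sqrt.tendsto 0).comp h1
  rw [tendsto_zero_iff_abs_tendsto_zero]
  simpa [Real.sqrt_sq_eq_abs, Function.comp_def] using h2

/-- only finitely many edges carry a value `≥ ε` -/
theorem l2_finite_ge {a : 𝔖.Edge → ℝ} (ha : Summable fun e => a e ^ 2) {ε : ℝ} (hε : 0 < ε) :
    {e | ε ≤ |a e|}.Finite := by
  have h := l2_tendsto_zero ha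
  rw [tendsto_zero_iff_abs_tendsto_zero] at h
  have h2 : ∀ᶠ e in cofinite, |a e| < ε := h.eventually (gt_mem_nhds hε)
  rw [Filter.eventually_cofinite] at h2
  refine h2.subset ?_
  intro e he
  simpa using he

theorem l2_summable_mul {a b : 𝔖.Edge → ℝ} (ha : Summable fun e => a e ^ 2) (hb : Summable fun e => b e ^ 2) :
    Summable fun e => a e * b e := by
  refine Summable.of_norm_bounded (g := fun e => a e ^ 2 + b e ^ 2) (ha.add hb) ?_
  intro e
  rw [Real.norm_eq_abs, abs_le]
  constructor <;> nlinarith [sq_nonneg (a e + b e), sq_nonneg (a e - b e), sq_nonneg (a e), sq_nonneg (b e)]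

theorem l2_summable_etr {b : 𝔖.Edge → ℝ} (hb : Summable fun e => b e ^ 2) (g : Γ) :
    Summable fun e => b (etr g e) ^ 2 :=
  hb.comp_injective (etr_injective g)

/-- the near-sum as a finite sum -/
theorem l2_nearSum_eq_sum (a : 𝔖.Edge → ℝ) (e : 𝔖.Edge) :
    nearSum a e = ∑ e' ∈ (near_finite e).toFinset, a e' := by
  classical
  unfold nearSum
  rw [← Finset.tsum_subtype]
  refine (Equiv.tsum_eq (Equiv.subtypeEquivRight (fun x => by simp)) (fun x : {x // x ∈ (near_finite e).toFinset} => a x.1))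

theorem nearSum_nonneg {a : 𝔖.Edge → ℝ} (ha : ∀ e, 0 ≤ a e) (e : 𝔖.Edge) : 0 ≤ nearSum a e :=
  tsum_nonneg fun e' => ha e'.1

/-- one term of a near-sum -/
theorem le_nearSum {a : 𝔖.Edge → ℝ} (ha : ∀ e, 0 ≤ a e) {e e' : 𝔖.Edge} (h : Near e e') : a e' ≤ nearSum a e := by
  rw [l2_nearSum_eq_sum]
  exact Finset.single_le_sum (f := a) (fun i _ => ha i) (by simpa using h)


theorem l2_nearSum_eq_tsum (a : 𝔖.Edge → ℝ) (e : 𝔖.Edge) :
    nearSum a e = ∑' e', {e' | Near e e'}.indicator a e' :=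
  tsum_subtype {e' | Near e e'} a

theorem l2_nearSum_const_le {D : ℕ} (hD : ∀ e : 𝔖.Edge, {e' : 𝔖.Edge | Near e e'}.ncard ≤ D) {c : ℝ} (hc : 0 ≤ c)
    (e : 𝔖.Edge) : nearSum (fun _ => c) e ≤ D * c := by
  rw [l2_nearSum_eq_sum, Finset.sum_const, nsmul_eq_mul]
  have h := hD e
  rw [Set.ncard_eq_toFinset_card _ (near_finite e)] at h
  exact mul_le_mul_of_nonneg_right (by exact_mod_cast h) hc

/-- Schur test for the kernel `Near` -/
theorem l2_near_prod_summable {c : 𝔖.Edge → ℝ} (hc0 : ∀ e, 0 ≤ c e) (hc : Summable c) :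
    Summable fun p : 𝔖.Edge × 𝔖.Edge => {e' | Near p.1 e'}.indicator c p.2 := by
  obtain ⟨D, hD⟩ := near_card_le 𝔖
  have key : Summable fun p : 𝔖.Edge × 𝔖.Edge => {e' | Near p.2 e'}.indicator c p.1 := by
    have hrw : ∀ x y : 𝔖.Edge, {e' | Near y e'}.indicator c x = {e' | Near x e'}.indicator (fun _ => c x) y := by
      intro x y
      by_cases h : Near x y
      · rw [Set.indicator_of_mem (show x ∈ {e' | Near y e'} from h.symm),
          Set.indicator_of_mem (show y ∈ {e' | Near x e'} from h)]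
      · rw [Set.indicator_of_notMem (show x ∉ {e' | Near y e'} from fun h' => h (Near.symm h')),
          Set.indicator_of_notMem (show y ∉ {e' | Near x e'} from h)]
    rw [summable_prod_of_nonneg (fun p => Set.indicator_nonneg (fun e _ => hc0 e) _)]
    constructor
    · intro x
      refine summable_of_hasFiniteSupport ((near_finite x).subset ?_)
      intro y hy
      by_contra h
      apply hy
      show {e' | Near y e'}.indicator c x = 0
      rw [hrw]
      exact Set.indicator_of_notMem h _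
    · refine Summable.of_nonneg_of_le (fun x => tsum_nonneg fun y => Set.indicator_nonneg (fun e _ => hc0 e) _) ?_
        (hc.mul_left (D : ℝ))
      intro x
      show ∑' y, {e' | Near y e'}.indicator c x ≤ D * c x
      simp_rw [hrw]
      rw [← l2_nearSum_eq_tsum]
      exact l2_nearSum_const_le hD (hc0 x) x
  exact key.prod_symm

theorem l2_near_prod_summable' {c : 𝔖.Edge → ℝ} (hc0 : ∀ e, 0 ≤ c e) (hc : Summable c) :
    Summable fun p : 𝔖.Edge × 𝔖.Edge => {e' | Near p.1 e'}.indicator (fun _ => c p.1) p.2 := by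
  have h := (l2_near_prod_summable hc0 hc).prod_symm
  refine h.congr ?_
  rintro ⟨x, y⟩
  show {e' | Near y e'}.indicator c x = {e' | Near x e'}.indicator (fun _ => c x) y
  by_cases h : Near x y
  · rw [Set.indicator_of_mem (show x ∈ {e' | Near y e'} from h.symm),
      Set.indicator_of_mem (show y ∈ {e' | Near x e'} from h)]
  · rw [Set.indicator_of_notMem (show x ∉ {e' | Near y e'} from fun h' => h (Near.symm h')),
      Set.indicator_of_notMem (show y ∉ {e' | Near x e'} from h)]

theorem l2_nearSum_summable {c : 𝔖.Edge → ℝ} (hc0 : ∀ e, 0 ≤ c e) (hc : Summable c) :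
    Summable fun e => nearSum c e := by
  have h := (l2_near_prod_summable hc0 hc).prod
  refine h.congr ?_
  intro e
  exact (l2_nearSum_eq_tsum c e).symm

theorem nearSum_sq_summable {a : 𝔖.Edge → ℝ} (ha : Summable fun e => a e ^ 2) :
    Summable fun e => nearSum a e ^ 2 := by
  obtain ⟨D, hD⟩ := near_card_le 𝔖
  refine Summable.of_nonneg_of_le (fun e => sq_nonneg _) ?_
    ((l2_nearSum_summable (fun e => sq_nonneg (a e)) ha).mul_left (D : ℝ))
  intro e
  rw [l2_nearSum_eq_sum, l2_nearSum_eq_sum]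
  refine sq_sum_le_card_mul_sum_sq.trans ?_
  have h := hD e
  rw [Set.ncard_eq_toFinset_card _ (near_finite e)] at h
  exact mul_le_mul_of_nonneg_right (by exact_mod_cast h) (Finset.sum_nonneg fun i _ => sq_nonneg _)

/-- symmetry of the near-sum operator -/
theorem nearSum_swap {a b : 𝔖.Edge → ℝ} (ha : Summable fun e => a e ^ 2) (hb : Summable fun e => b e ^ 2) :
    ∑' e, a e * nearSum b e = ∑' e, nearSum a e * b e := by
  have hs : Summable (Function.uncurry fun e e' : 𝔖.Edge => {e' | Near e e'}.indicator (fun e' => a e * b e') e') := by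
    refine Summable.of_norm_bounded
      ((l2_near_prod_summable' (fun e => sq_nonneg (a e)) ha).add (l2_near_prod_summable (fun e => sq_nonneg (b e)) hb)) ?_
    rintro ⟨x, y⟩
    show ‖{e' | Near x e'}.indicator (fun e' => a x * b e') y‖ ≤
      {e' | Near x e'}.indicator (fun _ => a x ^ 2) y + {e' | Near x e'}.indicator (fun e => b e ^ 2) y
    by_cases h : Near x y
    · rw [Set.indicator_of_mem (show y ∈ {e' | Near x e'} from h), Set.indicator_of_mem (show y ∈ {e' | Near x e'} from h),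
        Set.indicator_of_mem (show y ∈ {e' | Near x e'} from h), Real.norm_eq_abs, abs_le]
      constructor <;> nlinarith [sq_nonneg (a x + b y), sq_nonneg (a x - b y), sq_nonneg (a x), sq_nonneg (b y)]
    · rw [Set.indicator_of_notMem (show y ∉ {e' | Near x e'} from h), Set.indicator_of_notMem (show y ∉ {e' | Near x e'} from h),
        Set.indicator_of_notMem (show y ∉ {e' | Near x e'} from h)]
      simp
  have h := hs.tsum_comm
  have h1 : ∀ e, a e * nearSum b e = ∑' e', {e' | Near e e'}.indicator (fun e' => a e * b e') e' := by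
    intro e
    rw [l2_nearSum_eq_tsum, ← tsum_mul_left]
    refine tsum_congr fun e' => ?_
    by_cases h : Near e e'
    · rw [Set.indicator_of_mem (show e' ∈ {e' | Near e e'} from h), Set.indicator_of_mem (show e' ∈ {e' | Near e e'} from h)]
    · rw [Set.indicator_of_notMem (show e' ∉ {e' | Near e e'} from h), Set.indicator_of_notMem (show e' ∉ {e' | Near e e'} from h),
        mul_zero]
  have h2 : ∀ e', nearSum a e' * b e' = ∑' e, {e' | Near e e'}.indicator (fun e' => a e * b e') e' := by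
    intro e'
    rw [l2_nearSum_eq_tsum, ← tsum_mul_right]
    refine tsum_congr fun e => ?_
    by_cases h : Near e e'
    · rw [Set.indicator_of_mem (show e' ∈ {e' | Near e e'} from h), Set.indicator_of_mem (show e ∈ {e | Near e' e} from h.symm)]
    · rw [Set.indicator_of_notMem (show e' ∉ {e' | Near e e'} from h),
        Set.indicator_of_notMem (show e ∉ {e | Near e' e} from fun h' => h (Near.symm h')), zero_mul]
  simp_rw [h1, h2]
  exact h.symm

/-- near-sums commute with translations -/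
theorem nearSum_etr (b : 𝔖.Edge → ℝ) (g : Γ) (e : 𝔖.Edge) :
    nearSum (fun e' => b (etr g e')) e = nearSum b (etr g e) := by
  unfold nearSum
  let φ : {e' : 𝔖.Edge // Near e e'} ≃ {e'' : 𝔖.Edge // Near (etr g e) e''} :=
    { toFun := fun x => ⟨etr g x.1, (near_etr g e x.1).2 x.2⟩
      invFun := fun y => ⟨etr g⁻¹ y.1, by
        have := y.2
        rw [← near_etr g]
        rwa [← etr_mul, mul_inv_cancel, etr_one]⟩
      left_inv := fun x => by
        apply Subtype.ext
        show etr g⁻¹ (etr g x.1) = x.1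
        rw [← etr_mul, inv_mul_cancel, etr_one]
      right_inv := fun y => by
        apply Subtype.ext
        show etr g (etr g⁻¹ y.1) = y.1
        rw [← etr_mul, mul_inv_cancel, etr_one] }
  exact Equiv.tsum_eq φ (fun y => b y.1)

/-- **mixing**: the translated pairing of two square summable functions tends to zero -/
theorem l2_mixing {a b : 𝔖.Edge → ℝ} (ha : Summable fun e => a e ^ 2) (hb : Summable fun e => b e ^ 2) :
    Tendsto (fun g : Γ => ∑' e, a e * b (etr g e)) cofinite (𝓝 0) := by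
  classical
  set B : ℝ := ∑' e, b e ^ 2 with hB
  have hB0 : 0 ≤ B := tsum_nonneg fun e => sq_nonneg _
  have hBg : ∀ g : Γ, ∑' e, b (etr g e) ^ 2 ≤ B := fun g =>
    tsum_comp_le_tsum_of_inj hb (fun e => sq_nonneg _) (etr_injective g)
  rw [Metric.tendsto_nhds]
  intro ε hε
  set δ : ℝ := ε / (2 * (B + 1)) with hδ
  have hδ0 : 0 < δ := by positivity
  have hδB : δ * B ≤ ε / 2 := by
    rw [hδ, div_mul_eq_mul_div, div_le_iff₀ (by positivity)]
    nlinarith
  have htail := tendsto_tsum_compl_atTop_zero (fun e => a e ^ 2)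
  obtain ⟨A, hA⟩ : ∃ A : Finset 𝔖.Edge, ∑' e : {x // x ∉ A}, a e.1 ^ 2 < δ * ε / 2 :=
    (htail.eventually (gt_mem_nhds (by positivity))).exists
  have hfin : Tendsto (fun g : Γ => ∑ e ∈ A, a e * b (etr g e)) cofinite (𝓝 0) := by
    have : ∀ e ∈ A, Tendsto (fun g : Γ => a e * b (etr g e)) cofinite (𝓝 (a e * 0)) := by
      intro e _
      refine Tendsto.const_mul _ ?_
      exact (l2_tendsto_zero hb).comp (etr_left_injective e).tendsto_cofinite
    simpa using tendsto_finsetSum A this
  have hev : ∀ᶠ g in cofinite, dist (∑ e ∈ A, a e * b (etr g e)) 0 < ε / 2 :=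
    (Metric.tendsto_nhds.1 hfin) _ (by positivity)
  filter_upwards [hev] with g hg
  have hsum : Summable fun e => a e * b (etr g e) := l2_summable_mul ha (l2_summable_etr hb g)
  have hbg := l2_summable_etr hb g
  have hle : ∀ e, ‖a e * b (etr g e)‖ ≤ (a e ^ 2 / δ + δ * b (etr g e) ^ 2) / 2 := by
    intro e
    have h1 : a e ^ 2 / δ + δ * b (etr g e) ^ 2 = (a e ^ 2 + δ ^ 2 * b (etr g e) ^ 2) / δ := by
      field_simp
    rw [h1, le_div_iff₀ two_pos, le_div_iff₀ hδ0, Real.norm_eq_abs, abs_mul]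
    nlinarith [sq_nonneg (|a e| - δ * |b (etr g e)|), sq_abs (a e), sq_abs (b (etr g e))]
  have hs1 : Summable fun e : {x // x ∉ A} => a e.1 ^ 2 / δ := (ha.subtype _).div_const δ
  have hs2 : Summable fun e : {x // x ∉ A} => δ * b (etr g e.1) ^ 2 := (hbg.subtype _).mul_left δ
  have htl : ‖∑' e : {x // x ∉ A}, a e.1 * b (etr g e.1)‖ ≤
      ∑' e : {x // x ∉ A}, (a e.1 ^ 2 / δ + δ * b (etr g e.1) ^ 2) / 2 :=
    tsum_of_norm_bounded ((hs1.add hs2).div_const 2).hasSum (fun e => hle e.1)
  have htl2 : ∑' e : {x // x ∉ A}, (a e.1 ^ 2 / δ + δ * b (etr g e.1) ^ 2) / 2 < ε / 2 := by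
    rw [tsum_div_const, hs1.tsum_add hs2, tsum_div_const, tsum_mul_left]
    have h3 : ∑' e : {x // x ∉ A}, b (etr g e.1) ^ 2 ≤ B :=
      (Summable.tsum_subtype_le (fun e => b (etr g e) ^ 2) {x | x ∉ A} (fun e => sq_nonneg _) hbg).trans (hBg g)
    have h4 : (∑' e : {x // x ∉ A}, a e.1 ^ 2) / δ < ε / 2 := by
      rw [div_lt_iff₀ hδ0]
      linarith
    have h5 : δ * ∑' e : {x // x ∉ A}, b (etr g e.1) ^ 2 ≤ ε / 2 :=
      (mul_le_mul_of_nonneg_left h3 hδ0.le).trans hδB
    linarith
  have hsplit : ∑ e ∈ A, a e * b (etr g e) + ∑' e : {x // x ∉ A}, a e.1 * b (etr g e.1) = ∑' e, a e * b (etr g e) :=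
    hsum.sum_add_tsum_compl (s := A)
  rw [Real.dist_eq, sub_zero] at hg ⊢
  rw [← hsplit]
  rw [Real.norm_eq_abs] at htl
  calc |∑ e ∈ A, a e * b (etr g e) + ∑' e : {x // x ∉ A}, a e.1 * b (etr g e.1)|
      ≤ |∑ e ∈ A, a e * b (etr g e)| + |∑' e : {x // x ∉ A}, a e.1 * b (etr g e.1)| := abs_add_le _ _
    _ < ε := by linarith

/-! ### coarea -/

theorem l2_cut_indicator (F : Γ → ℝ) (w : 𝔖.Edge → ℝ≥0∞) (e : 𝔖.Edge) :
    (fun t : ℝ => (cut 𝔖 F t).indicator w e) =
      (Ioo (min (F (esrc e)) (F (etgt e))) (max (F (esrc e)) (F (etgt e)))).indicator fun _ => w e := by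
  funext t
  by_cases h : e ∈ cut 𝔖 F t
  · rw [Set.indicator_of_mem h, Set.indicator_of_mem (show t ∈ Ioo _ _ from h)]
  · rw [Set.indicator_of_notMem h, Set.indicator_of_notMem (show t ∉ Ioo _ _ from h)]

theorem l2_cut_measurable (F : Γ → ℝ) (w : 𝔖.Edge → ℝ≥0∞) (e : 𝔖.Edge) :
    Measurable fun t : ℝ => (cut 𝔖 F t).indicator w e := by
  rw [l2_cut_indicator]
  exact measurable_const.indicator measurableSet_Ioo

/-- **coarea formula** -/
theorem coarea (F : Γ → ℝ) (w : 𝔖.Edge → ℝ≥0∞) :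
    ∫⁻ t : ℝ, ∑' e : 𝔖.Edge, (cut 𝔖 F t).indicator w e = ∑' e : 𝔖.Edge, ENNReal.ofReal |grad F e| * w e := by
  have := 𝔖.countable_edge
  rw [lintegral_tsum (fun e => (l2_cut_measurable F w e).aemeasurable)]
  refine tsum_congr fun e => ?_
  rw [l2_cut_indicator, lintegral_indicator measurableSet_Ioo, lintegral_const, Measure.restrict_apply MeasurableSet.univ,
    Set.univ_inter, Real.volume_Ioo, max_sub_min_eq_abs, mul_comm]
  rfl

/-- almost every level is regular (`Γ` is countable) -/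
theorem ae_regular (𝔖 : GenSet Γ) (F : Γ → ℝ) : ∀ᵐ t : ℝ, Regular F t := by
  have := 𝔖.countable
  have h := (Set.countable_range F).ae_notMem (volume : Measure ℝ)
  filter_upwards [h] with t ht v hv
  exact ht ⟨v, hv⟩

theorem l2_summable_cut_of_ne_top (F : Γ → ℝ) {w : 𝔖.Edge → ℝ} (hw : ∀ e, 0 ≤ w e) {t : ℝ}
    (h : ∑' e : 𝔖.Edge, (cut 𝔖 F t).indicator (fun e => ENNReal.ofReal (w e)) e ≠ ⊤) :
    Summable fun e : cut 𝔖 F t => w e.1 := by
  have h1 := ENNReal.summable_toReal h
  have h2 : Summable ((cut 𝔖 F t).indicator w) := by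
    refine h1.congr fun e => ?_
    by_cases he : e ∈ cut 𝔖 F t
    · rw [Set.indicator_of_mem he, Set.indicator_of_mem he, ENNReal.toReal_ofReal (hw e)]
    · rw [Set.indicator_of_notMem he, Set.indicator_of_notMem he, ENNReal.toReal_zero]
  exact summable_subtype_iff_indicator.2 h2

theorem l2_tsum_cut_eq (F : Γ → ℝ) {w : 𝔖.Edge → ℝ} (hw : ∀ e, 0 ≤ w e) {t : ℝ}
    (h : Summable fun e : cut 𝔖 F t => w e.1) :
    ∑' e : 𝔖.Edge, (cut 𝔖 F t).indicator (fun e => ENNReal.ofReal (w e)) e = ENNReal.ofReal (∑' e : cut 𝔖 F t, w e.1) := by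
  rw [ENNReal.ofReal_tsum_of_nonneg (f := fun e : cut 𝔖 F t => w e.1) (fun e => hw e.1) h, ← tsum_subtype]

theorem l2_coarea_real (F : Γ → ℝ) {w : 𝔖.Edge → ℝ} (hw : ∀ e, 0 ≤ w e)
    (hs : Summable fun e => |grad F e| * w e) :
    ∫⁻ t : ℝ, ∑' e : 𝔖.Edge, (cut 𝔖 F t).indicator (fun e => ENNReal.ofReal (w e)) e =
      ENNReal.ofReal (∑' e, |grad F e| * w e) := by
  rw [coarea, ENNReal.ofReal_tsum_of_nonneg (fun e => mul_nonneg (abs_nonneg _) (hw e)) hs]
  refine tsum_congr fun e => ?_
  rw [ENNReal.ofReal_mul (abs_nonneg _)]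

theorem l2_cut_tsum_measurable (F : Γ → ℝ) (w : 𝔖.Edge → ℝ≥0∞) :
    Measurable fun t : ℝ => ∑' e : 𝔖.Edge, (cut 𝔖 F t).indicator w e := by
  have := 𝔖.countable_edge
  exact Measurable.tsum fun e => l2_cut_measurable F w e

/-- almost every cut has finite weight -/
theorem ae_summable_cut (F : Γ → ℝ) {w : 𝔖.Edge → ℝ} (hw : ∀ e, 0 ≤ w e)
    (hs : Summable fun e => |grad F e| * w e) : ∀ᵐ t : ℝ, Summable fun e : cut 𝔖 F t => w e.1 := by
  have h := ae_lt_top (l2_cut_tsum_measurable F fun e => ENNReal.ofReal (w e))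
    (by rw [l2_coarea_real F hw hs]; exact ENNReal.ofReal_ne_top)
  filter_upwards [h] with t ht
  exact l2_summable_cut_of_ne_top F hw ht.ne

/-- if the total weights are summable in `n`, then for almost every level the weights of the cut tend to zero -/
theorem ae_tendsto_cut (F : Γ → ℝ) {w : ℕ → 𝔖.Edge → ℝ} (hw : ∀ n e, 0 ≤ w n e)
    (hs : ∀ n, Summable fun e => |grad F e| * w n e) (hss : Summable fun n => ∑' e, |grad F e| * w n e) :
    ∀ᵐ t : ℝ, (∀ n, Summable fun e : cut 𝔖 F t => w n e.1) ∧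
      Tendsto (fun n => ∑' e : cut 𝔖 F t, w n e.1) atTop (𝓝 0) := by
  have hint : ∫⁻ t : ℝ, ∑' n : ℕ, ∑' e : 𝔖.Edge, (cut 𝔖 F t).indicator (fun e => ENNReal.ofReal (w n e)) e ≠ ⊤ := by
    rw [lintegral_tsum (fun n => (l2_cut_tsum_measurable F fun e => ENNReal.ofReal (w n e)).aemeasurable)]
    simp_rw [l2_coarea_real F (hw _) (hs _)]
    rw [← ENNReal.ofReal_tsum_of_nonneg (fun n => tsum_nonneg fun e => mul_nonneg (abs_nonneg _) (hw n e)) hss]
    exact ENNReal.ofReal_ne_top
  have h := ae_lt_top (Measurable.tsum fun n => l2_cut_tsum_measurable F fun e => ENNReal.ofReal (w n e)) hint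
  filter_upwards [h] with t ht
  have h1 : ∀ n, Summable fun e : cut 𝔖 F t => w n e.1 := by
    intro n
    refine l2_summable_cut_of_ne_top F (hw n) ?_
    exact ((ENNReal.le_tsum n).trans_lt ht).ne
  refine ⟨h1, ?_⟩
  have h2 := ENNReal.summable_toReal ht.ne
  have h3 := h2.tendsto_atTop_zero
  refine h3.congr fun n => ?_
  rw [l2_tsum_cut_eq F (hw n) (h1 n)]
  exact ENNReal.toReal_ofReal (tsum_nonneg fun e : cut 𝔖 F t => hw n e.1)

/-- null sets are preserved by `t ↦ c + σ t`, `σ = ± 1` -/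
theorem ae_affine {p : ℝ → Prop} (h : ∀ᵐ s : ℝ, p s) (c σ : ℝ) (hσ : σ = 1 ∨ σ = -1) : ∀ᵐ t : ℝ, p (c + σ * t) := by
  rcases hσ with rfl | rfl
  · have := (measurePreserving_add_left (volume : Measure ℝ) c).quasiMeasurePreserving.ae h
    simpa using this
  · have := (Measure.measurePreserving_sub_left (volume : Measure ℝ) c).quasiMeasurePreserving.ae h
    simpa [sub_eq_add_neg] using this

/-- a property which holds almost everywhere holds somewhere in every nonempty open interval -/
theorem ae_exists_mem_Ioo {p : ℝ → Prop} (h : ∀ᵐ s : ℝ, p s) {a b : ℝ} (hab : a < b) : ∃ t ∈ Ioo a b, p t := by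
  by_contra hcon
  push Not at hcon
  have h1 : Ioo a b ⊆ {t | ¬ p t} := fun t ht => hcon t ht
  have h2 : volume (Ioo a b) ≤ 0 := (measure_mono h1).trans (le_of_eq (ae_iff.1 h))
  rw [Real.volume_Ioo] at h2
  have h3 : 0 < ENNReal.ofReal (b - a) := ENNReal.ofReal_pos.2 (sub_pos.2 hab)
  exact absurd h2 (not_le.2 h3)

end Claimed.Agent.R309
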