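import Claimed.Agent.R309.S34.Box3
import Claimed.Agent.R309.S34.Bdry

/-!
# Row 309, S34, package **S34-D3 (NearPath)**: the near-path property (Lemma 3.6).

Statements: helper146 (sub-captain).  OWNER = the seat that claims subtask `S34-D3`.  Keep the statement of `nearPath_of_isFam` verbatim; helper lemmas with
prefix `np_`.  May use `Graph.lean`, `Box3.lean`, `Bdry.lean` as black boxes.  ~800 lines.

ROUTE (simpler than the paper).  Fix `x ∈ B`, `W ∈ 𝓝 x`.  For `i : FamIdx 𝔅` let `ext i : C.X → ℝ := C.coord (Function.surjInv hC.1 i)`: continuous, and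
`ext i (ι v) = famCoord 𝔅 i v`.  `bp y : Γ ⊕ Γ → ℝ := fun i => ext (inl i) y` (base profile), `ψ O y := margin O (bp y)`: continuous (`margin_lipschitz`).
1. `Cpt.exists_basic_nhds`: `J`, `ε` with `(∀ j ∈ J, |coord j y - coord j x| < ε) → y ∈ W`.
2. `ε' := min ε (minimum of ψ O x over the boxes O tested in J with ψ O x > 0)`,  `I :=` all base coordinates tested in `J` or occurring in a box tested in `J`.
   `𝔅.basis (bp x) I ε'` gives `O' ∈ 𝔅.𝒪` with `InBox O' (bp x)`, and every vertex `v ∈ boxV f O'` has `|baseCoord f i v - bp x i| < ε'` for `i ∈ I`.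
3. `ψ O' x > 0` (`margin_pos_iff`).  With the finite set `R` of `hfin O'`: `ψ O' y ≤ Σ_{r ∈ R} ext (inr (O', r)) y` on vertices, hence on `X` (`Cpt.le_of_vertices`).
   So there is `r'` with `ext (inr (O', r')) x > 0`.  `U' := boxComp 𝔖 f O' r'`,  `V := W ∩ {y | 0 < ext (inr (O', r')) y}`.  Vertices of `V` lie in `U'` (`mem_of_locCoord_pos`).
4. CLAIM: `ι v ∈ W` for all `v ∈ U'`.  Check the tested coordinates `j ∈ J`:
   * `en j = inl i`: step 2.
   * `en j = inr (O, r)`, `ψ O x = 0`: `0 ≤ h(v) ≤ ψ O (ι v) < ε'` (`margin_lipschitz`) and `0 ≤ ext (x) ≤ ψ O x = 0` (`Cpt.le_of_vertices`).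
   * `en j = inr (O, r)`, `ψ O x > 0`: `|ψ O (ι v) - ψ O x| < ε' ≤ ψ O x` on `boxV f O'`, so `boxV f O' ⊆ boxV f O`; so (`boxComp_pathIn`, `PathIn.mono`, `boxComp_of_pathIn`)
     either `U' ⊆ boxComp 𝔖 f O r` or `U'` is disjoint from it.  Take vertices `v_n → x` (`Cpt.exists_seq`); eventually `v_n ∈ U'` (step 3).
     In the first case `h = ψ O` on `U'`, so `ext x = ψ O x` (limits) and `|h v - ext x| = |ψ O (ι v) - ψ O x| < ε`.  In the second case `h = 0` on `U'` and `ext x = 0`.
5. two vertices of `V` lie in `U'`, `boxComp_pathIn` joins them inside `U' ⊆ ι⁻¹ W` (`PathIn.mono`).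
-/

set_option autoImplicit false

namespace Claimed.Agent.R309

open Filter Topology Set

variable {Γ : Type} [Group Γ] {𝔖 : GenSet Γ}

omit [Group Γ] in
/-- the margin depends continuously on the profile -/
theorem np_margin_cont {Y : Type} [TopologicalSpace Y] (O : BoxData Γ) (z : Y → Γ ⊕ Γ → ℝ)
    (hz : ∀ i, Continuous fun y => z y i) : Continuous fun y => margin O (z y) := by
  unfold margin
  refine continuous_const.max ?_
  induction O with
  | nil => exact continuous_const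
  | cons c O ih =>
    simp only [List.foldr_cons]
    exact ih.min (((hz c.1).sub continuous_const).min (continuous_const.sub (hz c.1)))

theorem np_exists_pos_le {α : Type} (J : Finset α) (m : α → ℝ) (hm : ∀ j ∈ J, 0 < m j) :
    ∃ δ > 0, ∀ j ∈ J, δ ≤ m j := by
  classical
  induction J using Finset.induction_on with
  | empty => exact ⟨1, one_pos, by simp⟩
  | insert a s ha ih =>
    obtain ⟨δ, hδ, h⟩ := ih (fun j hj => hm j (Finset.mem_insert_of_mem hj))
    refine ⟨min δ (m a), lt_min hδ (hm a (Finset.mem_insert_self _ _)), ?_⟩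
    intro j hj
    rcases Finset.mem_insert.1 hj with rfl | hj
    · exact min_le_right _ _
    · exact (min_le_left _ _).trans (h j hj)

/-- **Lemma 3.6** -/
theorem nearPath_of_isFam {f : Γ → ℝ} (𝔅 : BoxBasis 𝔖 f)
    (hfin : ∀ O ∈ 𝔅.𝒪, ∃ R : Finset Γ, ∀ v ∈ boxV f O, ∃ r ∈ R, v ∈ boxComp 𝔖 f O r)
    (C : Cpt 𝔖) (en : ℕ → FamIdx 𝔅) (hC : C.IsFam (famCoord 𝔅) en) : C.NearPath := by
  classical
  intro x _ W hW
  obtain ⟨hsurj, hco⟩ := hC
  -- extensions of the coordinates of the family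
  let ext : FamIdx 𝔅 → C.X → ℝ := fun i => C.coord (Function.surjInv hsurj i)
  have hext_cont : ∀ i, Continuous (ext i) := fun i => C.coord_cont _
  have hext_v : ∀ i v, ext i (C.ι v) = famCoord 𝔅 i v := fun i v => by
    show C.coord _ _ = _
    rw [hco, Function.surjInv_eq hsurj]
  have hcoord : ∀ j, C.coord j = ext (en j) := fun j =>
    C.ext_of_vertices (C.coord_cont j) (hext_cont _) (fun v => by rw [hco, hext_v])
  let bp : C.X → Γ ⊕ Γ → ℝ := fun y i => ext (Sum.inl i) y
  have hbp_v : ∀ v, bp (C.ι v) = fun i => baseCoord f i v := fun v => funext fun i => hext_v _ v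
  let ψ : BoxData Γ → C.X → ℝ := fun O y => margin O (bp y)
  have hψ_cont : ∀ O, Continuous (ψ O) := fun O => np_margin_cont O bp (fun i => hext_cont _)
  have hψ_v : ∀ O v, ψ O (C.ι v) = margin O fun i => baseCoord f i v := fun O v => by
    show margin O (bp (C.ι v)) = _
    rw [hbp_v]
  -- step 1
  obtain ⟨J, ε, hε, hJ⟩ := C.exists_basic_nhds hW
  -- step 2
  obtain ⟨δ, hδ, hδε, hδψ⟩ : ∃ δ > 0, δ ≤ ε ∧
      ∀ j ∈ J, ∀ p, en j = Sum.inr p → 0 < ψ p.1.1 x → δ ≤ ψ p.1.1 x := by
    obtain ⟨δ, hδ, h⟩ := np_exists_pos_le J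
      (fun j => Sum.elim (fun _ => ε) (fun p => if 0 < ψ p.1.1 x then ψ p.1.1 x else ε) (en j)) (by
        intro j _
        rcases hen : en j with i | p
        · simpa using hε
        · simp only [Sum.elim_inr]
          split_ifs with h
          · exact h
          · exact hε)
    refine ⟨min δ ε, lt_min hδ hε, min_le_right _ _, ?_⟩
    intro j hj p hp hpos
    have := h j hj
    simp only [hp, Sum.elim_inr, if_pos hpos] at this
    exact (min_le_left _ _).trans this
  let I : Finset (Γ ⊕ Γ) :=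
    J.biUnion fun j => Sum.elim (fun i => {i}) (fun p => (p.1.1.map Prod.fst).toFinset) (en j)
  have hI1 : ∀ j ∈ J, ∀ i, en j = Sum.inl i → i ∈ I := by
    intro j hj i hi
    refine Finset.mem_biUnion.2 ⟨j, hj, ?_⟩
    simp [hi]
  have hI2 : ∀ j ∈ J, ∀ p, en j = Sum.inr p → ∀ c ∈ p.1.1, c.1 ∈ I := by
    intro j hj p hp c hc
    refine Finset.mem_biUnion.2 ⟨j, hj, ?_⟩
    simp only [hp, Sum.elim_inr, List.mem_toFinset]
    exact List.mem_map.2 ⟨c, hc, rfl⟩
  obtain ⟨O', hO', hIn, hbas⟩ := 𝔅.basis (bp x) I (δ / 2) (by positivity)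
  have hCc : ∀ v ∈ boxV f O', ∀ i ∈ I, |baseCoord f i v - bp x i| < δ / 2 := by
    intro v hv i hi
    obtain ⟨c, hc, rfl, h1, h2⟩ := hbas i hi
    have := hv c hc
    rw [abs_lt]
    constructor <;> linarith [this.1, this.2]
  have hD : ∀ O : BoxData Γ, (∀ c ∈ O, c.1 ∈ I) → ∀ v ∈ boxV f O', |ψ O (C.ι v) - ψ O x| ≤ δ / 2 := by
    intro O hO v hv
    rw [hψ_v]
    exact margin_lipschitz O _ _ (by positivity) (fun c hc => (hCc v hv c.1 (hO c hc)).le)
  -- step 3
  have hpos : 0 < ψ O' x := (margin_pos_iff O' (bp x)).2 hIn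
  obtain ⟨R, hR⟩ := hfin O' hO'
  have hle : ∀ y, ψ O' y ≤ ∑ r ∈ R, ext (Sum.inr (⟨O', hO'⟩, r)) y := by
    refine C.le_of_vertices (hψ_cont O') (continuous_finsetSum _ fun r _ => hext_cont _) (fun v => ?_)
    rw [hψ_v]
    simp_rw [hext_v]
    show _ ≤ ∑ r ∈ R, locCoord f O' (boxComp 𝔖 f O' r) v
    by_cases hv : v ∈ boxV f O'
    · obtain ⟨r, hr, hvr⟩ := hR v hv
      rw [← locCoord_of_mem f O' hvr]
      exact Finset.single_le_sum (f := fun r => locCoord f O' (boxComp 𝔖 f O' r) v)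
        (fun r _ => locCoord_nonneg _ _ _ _) hr
    · have h0 : margin O' (fun i => baseCoord f i v) ≤ 0 :=
        not_lt.1 (fun h => hv ((margin_pos_iff _ _).1 h))
      exact h0.trans (Finset.sum_nonneg fun r _ => locCoord_nonneg _ _ _ _)
  obtain ⟨r', _, hr'pos⟩ : ∃ r' ∈ R, 0 < ext (Sum.inr (⟨O', hO'⟩, r')) x := by
    by_contra hcon
    push Not at hcon
    exact absurd (hle x) (not_le.2 ((Finset.sum_nonpos hcon).trans_lt hpos))
  have hGopen : IsOpen {y | 0 < ext (Sum.inr (⟨O', hO'⟩, r')) y} := isOpen_lt continuous_const (hext_cont _)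
  have hGU : ∀ v, 0 < ext (Sum.inr (⟨O', hO'⟩, r')) (C.ι v) → v ∈ boxComp 𝔖 f O' r' := by
    intro v hv
    rw [hext_v] at hv
    exact mem_of_locCoord_pos (f := f) (O := O') hv
  have hxcl : x ∈ closure ({y | 0 < ext (Sum.inr (⟨O', hO'⟩, r')) y} ∩ range C.ι) :=
    C.ι_dense.open_subset_closure_inter hGopen hr'pos
  have hlim : ∀ φ χ : C.X → ℝ, Continuous φ → Continuous χ →
      (∀ v ∈ boxComp 𝔖 f O' r', φ (C.ι v) = χ (C.ι v)) → φ x = χ x := by
    intro φ χ hφ hχ h
    refine closure_minimal (t := {y | φ y = χ y}) ?_ (isClosed_eq hφ hχ) hxcl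
    rintro _ ⟨hy, v, rfl⟩
    exact h v (hGU v hy)
  -- step 4
  have hclaim : ∀ v ∈ boxComp 𝔖 f O' r', C.ι v ∈ W := by
    intro v hv
    have hvV : v ∈ boxV f O' := boxComp_subset f O' r' hv
    apply hJ
    intro j hj
    rw [hcoord j]
    rcases hen : en j with i | ⟨⟨O, hOmem⟩, r⟩
    · rw [hext_v]
      exact (hCc v hvV i (hI1 j hj i hen)).trans_le (by linarith)
    · have hIO : ∀ c ∈ O, c.1 ∈ I := hI2 j hj _ hen
      have hDO := hD O hIO
      have hext_loc : ∀ w, ext (Sum.inr (⟨O, hOmem⟩, r)) (C.ι w) = locCoord f O (boxComp 𝔖 f O r) w :=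
        fun w => hext_v _ w
      by_cases hψ : 0 < ψ O x
      · have hδ' : δ ≤ ψ O x := hδψ j hj _ hen hψ
        have hsub : boxV f O' ⊆ boxV f O := by
          intro w hw
          refine (margin_pos_iff O (fun i => baseCoord f i w)).1 ?_
          have h1 := hDO w hw
          rw [hψ_v, abs_le] at h1
          linarith [h1.1]
        have hiff : ∀ w ∈ boxComp 𝔖 f O' r', (v ∈ boxComp 𝔖 f O r ↔ w ∈ boxComp 𝔖 f O r) := by
          intro w hw
          exact boxComp_of_pathIn ((boxComp_pathIn hv hw).mono ((boxComp_subset f O' r').trans hsub))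
        by_cases hcase : v ∈ boxComp 𝔖 f O r
        · have hx : ext (Sum.inr (⟨O, hOmem⟩, r)) x = ψ O x := by
            refine hlim _ _ (hext_cont _) (hψ_cont O) (fun w hw => ?_)
            rw [hext_loc, hψ_v, locCoord_of_mem f O ((hiff w hw).1 hcase)]
          rw [hx, hext_loc, locCoord_of_mem f O hcase, ← hψ_v]
          exact (hDO v hvV).trans_lt (by linarith)
        · have hx : ext (Sum.inr (⟨O, hOmem⟩, r)) x = 0 := by
            refine hlim _ (fun _ => 0) (hext_cont _) continuous_const (fun w hw => ?_)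
            rw [hext_loc, locCoord_of_not_mem f O (fun h => hcase ((hiff w hw).2 h))]
          rw [hx, hext_loc, locCoord_of_not_mem f O hcase]
          simpa using hε
      · have hx1 : ext (Sum.inr (⟨O, hOmem⟩, r)) x ≤ ψ O x :=
          C.le_of_vertices (hext_cont _) (hψ_cont O) (fun w => by
            rw [hext_loc, hψ_v]; exact locCoord_le_margin _ _ _ _) x
        have hx2 : 0 ≤ ext (Sum.inr (⟨O, hOmem⟩, r)) x :=
          C.le_of_vertices continuous_const (hext_cont _) (fun w => by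
            rw [hext_loc]; exact locCoord_nonneg _ _ _ _) x
        have hx : ext (Sum.inr (⟨O, hOmem⟩, r)) x = 0 := le_antisymm (hx1.trans (not_lt.1 hψ)) hx2
        have h1 := hDO v hvV
        rw [abs_le] at h1
        have h2 : locCoord f O (boxComp 𝔖 f O r) v ≤ ψ O (C.ι v) := by
          rw [hψ_v]; exact locCoord_le_margin _ _ _ _
        have h3 := locCoord_nonneg f O (boxComp 𝔖 f O r) v
        rw [hx, hext_loc, sub_zero, abs_of_nonneg h3]
        linarith [h1.2, not_lt.1 hψ]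
  -- step 5
  refine ⟨W ∩ {y | 0 < ext (Sum.inr (⟨O', hO'⟩, r')) y}, Filter.inter_mem hW (hGopen.mem_nhds hr'pos),
    inter_subset_left, ?_⟩
  intro u v hu hv
  exact (boxComp_pathIn (hGU u hu.2) (hGU v hv.2)).mono (V := {a | C.ι a ∈ W}) hclaim

end Claimed.Agent.R309
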