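import Claimed.Agent.R309.S34.Defs

/-!
# Row 309, S34, package **S34-D1 (Space)**: construction of the compactification from an invariant countable family of coordinates (Sec 3.4 of the paper).

Owner: helper146.  Prefix `sp_` / `SpData` / `SpX`.

`X₀ :=` closure of the profiles in `Idx → ℝ` (product topology, compact); `X :=` the same set with the metric `d x y := ∑' j, wt j * |x (en j) - y (en j)|`;
`X₀ → X` is continuous (so `X` is compact), and the coordinates are Lipschitz on `X` (so `X → X₀` is continuous).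
The action is `(g • x) i := x (act g⁻¹ i)`.
-/

set_option autoImplicit false

namespace Claimed.Agent.R309

open Filter Topology Set

variable {Γ : Type} [Group Γ] {𝔖 : GenSet Γ}

/-- the data of the construction -/
structure SpData (𝔖 : GenSet Γ) (Idx : Type) where
  Φ : Idx → Γ → ℝ
  act : Γ → Idx → Idx
  hmem : ∀ i v, Φ i v ∈ Icc (0 : ℝ) 1
  hen : ∀ i, FinEnergy 𝔖 (Φ i)
  hact : ∀ g i v, Φ (act g i) (g * v) = Φ i v
  hδ : ∀ v : Γ, ∃ i, Φ i v = 1 ∧ ∀ w, w ≠ v → Φ i w = 0
  en : ℕ → Idx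
  en_surj : Function.Surjective en

namespace SpData

variable {Idx : Type} (D : SpData 𝔖 Idx)

/-- profile of a vertex -/
def prof (v : Γ) : Idx → ℝ := fun i => D.Φ i v

/-- closure of the profiles -/
def K : Set (Idx → ℝ) := closure (range D.prof)

/-- weights -/
noncomputable def wt (j : ℕ) : ℝ := (1 / 2) ^ j / (1 + energy 𝔖 (D.Φ (D.en j)))

/-- distance -/
noncomputable def d (x y : Idx → ℝ) : ℝ := ∑' j, D.wt j * |x (D.en j) - y (D.en j)|

/-- raw action -/
def rawAct (g : Γ) (x : Idx → ℝ) : Idx → ℝ := fun i => x (D.act g⁻¹ i)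

theorem energy_nonneg (F : Γ → ℝ) : 0 ≤ energy 𝔖 F := tsum_nonneg fun _ => sq_nonneg _

theorem wt_pos (j : ℕ) : 0 < D.wt j := by
  unfold wt
  have := energy_nonneg (𝔖 := 𝔖) (D.Φ (D.en j))
  positivity

theorem wt_le (j : ℕ) : D.wt j ≤ (1 / 2) ^ j := by
  unfold wt
  have := energy_nonneg (𝔖 := 𝔖) (D.Φ (D.en j))
  apply div_le_self (by positivity)
  linarith

theorem wt_mul_energy_le (j : ℕ) : D.wt j * energy 𝔖 (D.Φ (D.en j)) ≤ (1 / 2) ^ j := by
  unfold wt
  have h := energy_nonneg (𝔖 := 𝔖) (D.Φ (D.en j))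
  rw [div_mul_eq_mul_div, div_le_iff₀ (by linarith)]
  have : (0 : ℝ) ≤ (1 / 2) ^ j := by positivity
  nlinarith

theorem summable_half : Summable fun j : ℕ => ((1 : ℝ) / 2) ^ j :=
  summable_geometric_of_lt_one (by norm_num) (by norm_num)

theorem wt_summable : Summable D.wt :=
  Summable.of_nonneg_of_le (fun j => (D.wt_pos j).le) D.wt_le summable_half

theorem closed_induction {p : (Idx → ℝ) → Prop} (hp : IsClosed {x | p x}) (h : ∀ v, p (D.prof v)) {x : Idx → ℝ}
    (hx : x ∈ D.K) : p x := by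
  have : D.K ⊆ {x | p x} := closure_minimal (by rintro _ ⟨v, rfl⟩; exact h v) hp
  exact this hx

theorem mem_Icc {x : Idx → ℝ} (hx : x ∈ D.K) (i : Idx) : x i ∈ Icc (0 : ℝ) 1 :=
  D.closed_induction (p := fun x => x i ∈ Icc (0 : ℝ) 1) (isClosed_Icc.preimage (continuous_apply i))
    (fun v => D.hmem i v) hx

theorem abs_sub_le_one {x y : Idx → ℝ} (hx : x ∈ D.K) (hy : y ∈ D.K) (i : Idx) : |x i - y i| ≤ 1 := by
  have h1 := D.mem_Icc hx i
  have h2 := D.mem_Icc hy i
  rw [abs_le]
  constructor <;> linarith [h1.1, h1.2, h2.1, h2.2]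

theorem term_le {x y : Idx → ℝ} (hx : x ∈ D.K) (hy : y ∈ D.K) (j : ℕ) :
    D.wt j * |x (D.en j) - y (D.en j)| ≤ (1 / 2) ^ j := by
  calc D.wt j * |x (D.en j) - y (D.en j)| ≤ D.wt j * 1 :=
        mul_le_mul_of_nonneg_left (D.abs_sub_le_one hx hy _) (D.wt_pos j).le
    _ ≤ (1 / 2) ^ j := by rw [mul_one]; exact D.wt_le j

theorem term_nonneg (x y : Idx → ℝ) (j : ℕ) : 0 ≤ D.wt j * |x (D.en j) - y (D.en j)| :=
  mul_nonneg (D.wt_pos j).le (abs_nonneg _)

theorem d_summable {x y : Idx → ℝ} (hx : x ∈ D.K) (hy : y ∈ D.K) :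
    Summable fun j => D.wt j * |x (D.en j) - y (D.en j)| :=
  Summable.of_nonneg_of_le (D.term_nonneg x y) (D.term_le hx hy) summable_half

theorem isCompact_K : IsCompact D.K := by
  have h1 : IsCompact (Set.pi univ fun _ : Idx => Icc (0 : ℝ) 1) := isCompact_univ_pi fun _ => isCompact_Icc
  refine h1.of_isClosed_subset isClosed_closure ?_
  intro x hx i _
  exact D.mem_Icc hx i

theorem rawAct_continuous (g : Γ) : Continuous (D.rawAct g) :=
  continuous_pi fun _ => continuous_apply _

theorem rawAct_prof (g v : Γ) : D.rawAct g (D.prof v) = D.prof (g * v) := by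
  funext i
  have := D.hact g⁻¹ i (g * v)
  rw [inv_mul_cancel_left] at this
  exact this

theorem rawAct_mem (g : Γ) {x : Idx → ℝ} (hx : x ∈ D.K) : D.rawAct g x ∈ D.K := by
  refine map_mem_closure (D.rawAct_continuous g) hx ?_
  rintro _ ⟨v, rfl⟩
  exact ⟨g * v, (D.rawAct_prof g v).symm⟩

theorem rawAct_one {x : Idx → ℝ} (hx : x ∈ D.K) : D.rawAct 1 x = x :=
  D.closed_induction (p := fun x => D.rawAct 1 x = x) (isClosed_eq (D.rawAct_continuous 1) continuous_id)
    (fun v => by rw [rawAct_prof, one_mul]) hx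

theorem rawAct_mul (g h : Γ) {x : Idx → ℝ} (hx : x ∈ D.K) : D.rawAct (g * h) x = D.rawAct g (D.rawAct h x) :=
  D.closed_induction (p := fun x => D.rawAct (g * h) x = D.rawAct g (D.rawAct h x))
    (isClosed_eq (D.rawAct_continuous _) ((D.rawAct_continuous g).comp (D.rawAct_continuous h)))
    (fun v => by rw [rawAct_prof, rawAct_prof, rawAct_prof, mul_assoc]) hx

theorem prof_mem (v : Γ) : D.prof v ∈ D.K := subset_closure ⟨v, rfl⟩

/-- a point of the closure whose `δ_v`-coordinate is large is the profile of `v` -/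
theorem eq_prof_of_lt {v : Γ} {i : Idx} (hi : D.Φ i v = 1 ∧ ∀ w, w ≠ v → D.Φ i w = 0) {x : Idx → ℝ} (hx : x ∈ D.K)
    (h : 1 / 2 < x i) : x = D.prof v := by
  have hO : IsOpen {x : Idx → ℝ | 1 / 2 < x i} := isOpen_lt continuous_const (continuous_apply i)
  have h1 : x ∈ closure ({x : Idx → ℝ | 1 / 2 < x i} ∩ range D.prof) := hO.inter_closure ⟨h, hx⟩
  have h2 : {x : Idx → ℝ | 1 / 2 < x i} ∩ range D.prof ⊆ {D.prof v} := by
    rintro _ ⟨hw, w, rfl⟩
    by_cases hwv : w = v
    · rw [hwv]; rfl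
    · exfalso
      have : D.prof w i = 0 := hi.2 w hwv
      rw [mem_ofPred_eq, this] at hw
      norm_num at hw
  have h3 := closure_minimal h2 isClosed_singleton h1
  exact h3

end SpData

/-- the space `X` -/
structure SpX {Idx : Type} (D : SpData 𝔖 Idx) where
  val : Idx → ℝ
  mem : val ∈ D.K

namespace SpX

variable {Idx : Type} {D : SpData 𝔖 Idx}

theorem ext' {x y : SpX D} (h : x.val = y.val) : x = y := by
  cases x; cases y; simp_all

noncomputable instance : MetricSpace (SpX D) where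
  dist x y := D.d x.val y.val
  dist_self x := by simp [SpData.d]
  dist_comm x y := by
    simp only [SpData.d]
    congr 1
    funext j
    rw [abs_sub_comm]
  dist_triangle x y z := by
    simp only [SpData.d]
    rw [← (D.d_summable x.mem y.mem).tsum_add (D.d_summable y.mem z.mem)]
    refine (D.d_summable x.mem z.mem).tsum_le_tsum (fun j => ?_)
      ((D.d_summable x.mem y.mem).add (D.d_summable y.mem z.mem))
    rw [← mul_add]
    exact mul_le_mul_of_nonneg_left (abs_sub_le _ _ _) (D.wt_pos j).le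
  eq_of_dist_eq_zero := by
    intro x y h
    apply ext'
    funext i
    obtain ⟨j, rfl⟩ := D.en_surj i
    have h1 : D.wt j * |x.val (D.en j) - y.val (D.en j)| ≤ D.d x.val y.val :=
      (D.d_summable x.mem y.mem).le_tsum j fun k _ => D.term_nonneg _ _ k
    have h2 : D.d x.val y.val = 0 := h
    rw [h2] at h1
    have h3 : |x.val (D.en j) - y.val (D.en j)| ≤ 0 := by
      by_contra hcon
      push Not at hcon
      have := mul_pos (D.wt_pos j) hcon
      linarith
    have h4 := abs_eq_zero.1 (le_antisymm h3 (abs_nonneg _))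
    linarith

theorem dist_def (x y : SpX D) : dist x y = ∑' j, D.wt j * |x.val (D.en j) - y.val (D.en j)| := rfl

/-- `X₀ → X` -/
def ofK (x : D.K) : SpX D := ⟨x.1, x.2⟩

theorem ofK_surjective : Function.Surjective (ofK : D.K → SpX D) := fun x => ⟨⟨x.val, x.mem⟩, rfl⟩

theorem ofK_continuous : Continuous (ofK : D.K → SpX D) := by
  rw [continuous_iff_continuous_dist]
  have : (fun p : D.K × D.K => dist (ofK p.1) (ofK p.2)) =
      fun p : D.K × D.K => ∑' j, D.wt j * |p.1.1 (D.en j) - p.2.1 (D.en j)| := rfl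
  rw [this]
  refine continuous_tsum (u := fun j : ℕ => ((1 : ℝ) / 2) ^ j) (fun j => ?_) SpData.summable_half ?_
  · refine continuous_const.mul (continuous_abs.comp ?_)
    exact ((continuous_apply (D.en j)).comp (continuous_subtype_val.comp continuous_fst)).sub
      ((continuous_apply (D.en j)).comp (continuous_subtype_val.comp continuous_snd))
  · intro j p
    rw [Real.norm_of_nonneg (D.term_nonneg _ _ j)]
    exact D.term_le p.1.2 p.2.2 j

instance : CompactSpace (SpX D) := by
  haveI : CompactSpace D.K := isCompact_iff_compactSpace.1 D.isCompact_K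
  constructor
  rw [← ofK_surjective.range_eq]
  exact isCompact_range ofK_continuous

theorem val_continuous (i : Idx) : Continuous fun x : SpX D => x.val i := by
  obtain ⟨j, rfl⟩ := D.en_surj i
  rw [Metric.continuous_iff]
  intro b ε hε
  refine ⟨ε * D.wt j, mul_pos hε (D.wt_pos j), fun a ha => ?_⟩
  have h1 : D.wt j * |a.val (D.en j) - b.val (D.en j)| ≤ dist a b :=
    (D.d_summable a.mem b.mem).le_tsum j fun k _ => D.term_nonneg _ _ k
  rw [Real.dist_eq]
  have h2 : D.wt j * |a.val (D.en j) - b.val (D.en j)| < ε * D.wt j := lt_of_le_of_lt h1 ha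
  rw [mul_comm] at h2
  exact lt_of_mul_lt_mul_right h2 (D.wt_pos j).le

/-- `X → X₀` -/
def toK (x : SpX D) : D.K := ⟨x.val, x.mem⟩

theorem toK_continuous : Continuous (toK : SpX D → D.K) :=
  Continuous.subtype_mk (continuous_pi fun i => val_continuous i) _

instance : MulAction Γ (SpX D) where
  smul g x := ⟨D.rawAct g x.val, D.rawAct_mem g x.mem⟩
  one_smul x := ext' (D.rawAct_one x.mem)
  mul_smul g h x := ext' (D.rawAct_mul g h x.mem)

theorem smul_val (g : Γ) (x : SpX D) : (g • x).val = D.rawAct g x.val := rfl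

theorem smul_continuous (g : Γ) : Continuous fun x : SpX D => g • x := by
  have h1 : Continuous fun x : D.K => (⟨D.rawAct g x.1, D.rawAct_mem g x.2⟩ : D.K) :=
    Continuous.subtype_mk ((D.rawAct_continuous g).comp continuous_subtype_val) _
  exact ofK_continuous.comp (h1.comp toK_continuous)

/-- the vertices -/
def ι (v : Γ) : SpX D := ⟨D.prof v, D.prof_mem v⟩

theorem ι_injective : Function.Injective (ι : Γ → SpX D) := by
  intro v w h
  by_contra hvw
  obtain ⟨i, hi1, hi2⟩ := D.hδ v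
  have h1 : D.prof v i = D.prof w i := by
    have : (ι v : SpX D).val = (ι w : SpX D).val := by rw [h]
    exact congrFun this i
  have h2 : D.prof v i = 1 := hi1
  have h3 : D.prof w i = 0 := hi2 w (Ne.symm hvw)
  rw [h2, h3] at h1
  norm_num at h1

theorem ι_mul (g h : Γ) : (ι (g * h) : SpX D) = g • ι h := ext' (D.rawAct_prof g h).symm

theorem ι_isolated (v : Γ) : IsOpen ({ι v} : Set (SpX D)) := by
  obtain ⟨i, hi⟩ := D.hδ v
  have : ({ι v} : Set (SpX D)) = {x | 1 / 2 < x.val i} := by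
    ext x
    constructor
    · rintro rfl
      have : (ι v : SpX D).val i = 1 := hi.1
      rw [mem_ofPred_eq, this]
      norm_num
    · intro hx
      exact ext' (D.eq_prof_of_lt hi x.mem hx)
  rw [this]
  exact isOpen_lt continuous_const (val_continuous i)

theorem ι_dense : DenseRange (ι : Γ → SpX D) := by
  intro x
  have h1 : toK x ∈ closure (range fun v : Γ => (⟨D.prof v, D.prof_mem v⟩ : D.K)) := by
    rw [closure_subtype]
    have : (Subtype.val '' range fun v : Γ => (⟨D.prof v, D.prof_mem v⟩ : D.K)) = range D.prof := by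
      ext y
      constructor
      · rintro ⟨_, ⟨v, rfl⟩, rfl⟩
        exact ⟨v, rfl⟩
      · rintro ⟨v, rfl⟩
        exact ⟨_, ⟨v, rfl⟩, rfl⟩
    rw [this]
    exact x.mem
  have h2 := map_mem_closure (t := range (ι : Γ → SpX D)) ofK_continuous h1 (by
    rintro _ ⟨v, rfl⟩
    exact ⟨v, rfl⟩)
  exact h2

/-- weighted Cauchy-Schwarz (via the weighted mean) -/
theorem sp_cs {w a : ℕ → ℝ} (hw : ∀ j, 0 ≤ w j) (hws : Summable w) (ha : ∀ j, 0 ≤ a j ∧ a j ≤ 1) :
    (∑' j, w j * a j) ^ 2 ≤ (∑' j, w j) * ∑' j, w j * a j ^ 2 := by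
  have h1 : Summable fun j => w j * a j :=
    Summable.of_nonneg_of_le (fun j => mul_nonneg (hw j) (ha j).1)
      (fun j => by nlinarith [hw j, (ha j).1, (ha j).2]) hws
  have h2 : Summable fun j => w j * a j ^ 2 :=
    Summable.of_nonneg_of_le (fun j => mul_nonneg (hw j) (sq_nonneg _))
      (fun j => by
        have : a j ^ 2 ≤ 1 := by nlinarith [(ha j).1, (ha j).2]
        nlinarith [hw j]) hws
  set W := ∑' j, w j with hW
  set A := ∑' j, w j * a j with hA
  set Q := ∑' j, w j * a j ^ 2 with hQ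
  have key : ∀ s : ℝ, 0 ≤ Q - 2 * s * A + s ^ 2 * W := by
    intro s
    have e1 : ∑' j, w j * (a j - s) ^ 2 = Q - 2 * s * A + s ^ 2 * W := by
      have : (fun j => w j * (a j - s) ^ 2) = fun j => w j * a j ^ 2 - 2 * s * (w j * a j) + s ^ 2 * w j := by
        funext j; ring
      rw [this, ((h2.sub (h1.mul_left (2 * s))).tsum_add (hws.mul_left (s ^ 2))), h2.tsum_sub (h1.mul_left (2 * s)),
        tsum_mul_left, tsum_mul_left]
    rw [← e1]
    exact tsum_nonneg fun j => mul_nonneg (hw j) (sq_nonneg _)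
  have hW0 : 0 ≤ W := tsum_nonneg hw
  rcases hW0.eq_or_lt with h0 | h0
  · -- `W = 0`
    have hQ0 : 0 ≤ Q := tsum_nonneg fun j => mul_nonneg (hw j) (sq_nonneg _)
    rw [← h0] at key ⊢
    by_contra hcon
    push Not at hcon
    have hA0 : A ≠ 0 := by
      intro h; rw [h] at hcon; norm_num at hcon
    have := key ((Q + 1) / (2 * A))
    have e : 2 * ((Q + 1) / (2 * A)) * A = Q + 1 := by field_simp
    rw [e] at this
    linarith
  · have := key (A / W)
    have e : Q - 2 * (A / W) * A + (A / W) ^ 2 * W = Q - A ^ 2 / W := by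
      field_simp
      ring
    rw [e] at this
    have h3 : A ^ 2 / W ≤ Q := by linarith
    rw [div_le_iff₀ h0] at h3
    linarith

theorem dist_ι_edge (e : 𝔖.Edge) :
    dist (ι (esrc e) : SpX D) (ι (etgt e)) = ∑' j, D.wt j * |grad (D.Φ (D.en j)) e| := by
  rw [dist_def]
  congr 1
  funext j
  rw [abs_sub_comm]
  rfl

theorem lam_sq : Summable fun e : 𝔖.Edge => (dist (ι (esrc e) : SpX D) (ι (etgt e))) ^ 2 := by
  -- the double family
  have hf0 : (0 : ℕ × 𝔖.Edge → ℝ) ≤ fun p => D.wt p.1 * (grad (D.Φ (D.en p.1)) p.2) ^ 2 :=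
    fun p => mul_nonneg (D.wt_pos p.1).le (sq_nonneg _)
  have hsum : Summable fun p : ℕ × 𝔖.Edge => D.wt p.1 * (grad (D.Φ (D.en p.1)) p.2) ^ 2 := by
    rw [summable_prod_of_nonneg hf0]
    constructor
    · intro j
      have h1 : Summable fun e : 𝔖.Edge => (grad (D.Φ (D.en j)) e) ^ 2 := D.hen (D.en j)
      exact h1.mul_left (D.wt j)
    · refine Summable.of_nonneg_of_le (fun j => tsum_nonneg fun e => hf0 (j, e)) (fun j => ?_) SpData.summable_half
      have h2 : ∑' e : 𝔖.Edge, D.wt j * (grad (D.Φ (D.en j)) e) ^ 2 = D.wt j * energy 𝔖 (D.Φ (D.en j)) := by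
        rw [tsum_mul_left]; rfl
      exact h2.le.trans (D.wt_mul_energy_le j)
  have hsum' : Summable fun e : 𝔖.Edge => ∑' j, D.wt j * (grad (D.Φ (D.en j)) e) ^ 2 :=
    (hsum.prod_symm).prod
  refine Summable.of_nonneg_of_le (fun e => sq_nonneg _) (fun e => ?_) (hsum'.mul_left (∑' j, D.wt j))
  rw [dist_ι_edge]
  have := sp_cs (w := D.wt) (a := fun j => |grad (D.Φ (D.en j)) e|) (fun j => (D.wt_pos j).le) D.wt_summable
    (fun j => ⟨abs_nonneg _, D.abs_sub_le_one (D.prof_mem (etgt e)) (D.prof_mem (esrc e)) (D.en j)⟩)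
  simpa only [sq_abs] using this

end SpX

/-- the compactification attached to the data -/
noncomputable def SpData.toCpt {Idx : Type} (D : SpData 𝔖 Idx) : Cpt 𝔖 where
  X := SpX D
  ι := SpX.ι
  ι_inj := SpX.ι_injective
  ι_mul := SpX.ι_mul
  ι_isolated := SpX.ι_isolated
  ι_dense := SpX.ι_dense
  act_cont := SpX.smul_continuous
  lam_sq := SpX.lam_sq
  coord j x := x.val (D.en j)
  wt := D.wt
  wt_pos := D.wt_pos
  coord_cont j := SpX.val_continuous _
  coord_mem j x := D.mem_Icc x.mem _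
  wt_summable := D.wt_summable
  dist_eq x y := rfl
  coord_energy j := D.hen _

/-- **the compactification by a countable invariant family** containing the singleton indicators -/
theorem exists_cpt_of_family {Idx : Type} [Countable Idx] (Φ : Idx → Γ → ℝ) (act : Γ → Idx → Idx)
    (hmem : ∀ i v, Φ i v ∈ Icc (0 : ℝ) 1) (hen : ∀ i, FinEnergy 𝔖 (Φ i))
    (hact : ∀ g i v, Φ (act g i) (g * v) = Φ i v)
    (hδ : ∀ v : Γ, ∃ i, Φ i v = 1 ∧ ∀ w, w ≠ v → Φ i w = 0) :
    ∃ (C : Cpt 𝔖) (en : ℕ → Idx), C.IsFam Φ en := by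
  haveI : Nonempty Idx := ⟨(hδ 1).choose⟩
  obtain ⟨en, hen'⟩ := exists_surjective_nat Idx
  exact ⟨(⟨Φ, act, hmem, hen, hact, hδ, en, hen'⟩ : SpData 𝔖 Idx).toCpt, en, hen', fun j v => rfl⟩

end Claimed.Agent.R309
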