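import Claimed.Agent.R309.S34.Box1
import Claimed.Agent.R309.S34.Box2
import Claimed.Agent.R309.S34.Space
import Claimed.Agent.R309.S34.NearPath
import Claimed.Agent.R309.S34.Dyn3
import Claimed.Agent.R309.S34.Conv3

/-!
# Row 309, S34: ASSEMBLY of Sections 3 and 4 (sorry-free given the packages).  Owner: helper146.

`exists_good_cpt` is the interface `I_cpt` of `Top.lean`.
-/

set_option autoImplicit false

namespace Claimed.Agent.R309

open Filter Topology Set

variable {Γ : Type} [Group Γ] {𝔖 : GenSet Γ}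

/-- **Sections 3 and 4** -/
theorem exists_good_cpt (𝔖 : GenSet Γ) (h : FEHyp 𝔖) : ∃ C : Cpt 𝔖, C.Good := by
  classical
  haveI := h.inf
  obtain ⟨f, hf⟩ := potential_exists h
  obtain ⟨𝔅⟩ := exists_boxBasis (𝔖 := 𝔖) hf.fin
  haveI := famIdx_countable 𝔅
  obtain ⟨C, en, hC⟩ := exists_cpt_of_family (𝔖 := 𝔖) (famCoord 𝔅) (famAct 𝔅) (famCoord_mem hf.range 𝔅)
    (famCoord_finEnergy hf.fin 𝔅) (famCoord_famAct 𝔅)
    (fun v => ⟨Sum.inl (Sum.inr v), by simp [famCoord, baseCoord], fun w hw => by simp [famCoord, baseCoord, hw]⟩)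
  have hwalls : C.Walls := walls_of_isFam hf 𝔅 C en hC
  have hconv : C.Convergence := C.convergence_of_collapse (C.collapse_of_walls hwalls)
  have hconn : IsConnected C.B := C.boundary_conn h.oneEnded
  have hnt : C.B.Nontrivial := by
    obtain ⟨j, hj⟩ := hC.1 (Sum.inl (Sum.inl 1))
    refine C.boundary_nontrivial j ?_
    have : C.vc j = f := by
      funext v
      simp [Cpt.vc, hC.2, hj, famCoord, baseCoord, trF]
    rw [this]
    exact hf.nonconst
  have hinf : C.B.Infinite := C.B_infinite hconn hnt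
  refine ⟨C, hconn, hnt, ?_, hconv, ?_, C.tameAE_of_walls hwalls, C.right_move, ?_⟩
  · exact nearPath_of_isFam 𝔅 (fun O hO => goodBox_finite_reps (base_cut hf) O (𝔅.good O hO)) C en hC
  · exact hconv.minimal h.torsionFree hinf
  · intro k p hk hp
    exact hconv.parab_comp hk hp

end Claimed.Agent.R309
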