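import Claimed.Agent.R309.S34.L2

/-!
# Row 309, S34, package **S34-B1 (Pot1)**: the energy minimiser outside `D₀` (first half of Lemma 3.1 of the paper).

Owner: helper146.  DONE (sorry-free; uses `pathIn_univ`, `finEnergy_of_support_finite`, `eq_of_grad_eq` of `Graph.lean`);
helper lemmas with prefix `p1_`.  May use `S34/Graph.lean`, `S34/L2.lean` as black boxes.  ~600 lines.

ROUTE.  `E := lp (fun _ : 𝔖.Edge => ℝ) 2` (real Hilbert space).  `FinEnergy 𝔖 F ↔ Memℓp (grad F) 2`; `energy 𝔖 F = ‖gradL F‖²`.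
1. For every vertex `v` there is a continuous linear functional `P v : E →L[ℝ] ℝ` with `P v (gradL F) = F v - F a` for all finite energy `F`
   (induction on `pathIn_univ 𝔖 a v`: `P a = 0`, `P (v * s) = P v + (evaluation at (v, s))`; evaluation = inner product with `lp.single 2 e 1`).
2. `D := {x | ∀ e, x e = P (etgt e) x - P (esrc e) x}` is a closed subspace and equals the set of gradients (`x = grad (fun v => P v x)`).
   `K b := {x ∈ D | P b x = 1}` is closed, convex, nonempty for `b ≠ a` (gradient of the indicator of `b`).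
3. `exists_norm_eq_iInf_of_complete_convex` + `norm_eq_iInf_iff_real_inner_le_zero` (with `u = 0`): a point `v ∈ K b` with `⟪v, w - v⟫ ≥ 0`
   for all `w ∈ K b`; hence `‖w‖² = ‖v‖² + 2⟪v, w - v⟫ + ‖w - v‖² > ‖v‖²` for `w ≠ v`.  `f_b := fun u => P u v`.
4. Some `f_b` is not in `D₀`: let `D₀ :=` topological closure of the submodule of gradients of finitely supported functions
   (`InD0 𝔖 F ↔ gradL F ∈ D₀` for finite energy `F`).  Take `F₀` from `h.nontriv`, `y := x₀ - proj_{D₀} x₀ ≠ 0`, `y ⊥ D₀`, `y ∈ D`, `y = grad H`.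
   `H` is not constant, so `c := H b - H a ≠ 0` for some `b ≠ a`.  `v ± (y - c • v) ∈ K b`, so `⟪v, y - c • v⟫ = 0`, `⟪v, y⟫ = c ‖v‖² ≠ 0`;
   so `v ∉ D₀`.
(`SC ℝ` is not needed.)
-/

set_option autoImplicit false

namespace Claimed.Agent.R309

open Filter Topology Set

variable {Γ : Type} [Group Γ] {𝔖 : GenSet Γ}

variable (𝔖) in
/-- `f` is the unique minimiser of the energy under `f a = 0`, `f b = 1` -/
structure IsMinimiser (a b : Γ) (f : Γ → ℝ) : Prop where
  ne : a ≠ b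
  fin : FinEnergy 𝔖 f
  val_a : f a = 0
  val_b : f b = 1
  lt : ∀ F : Γ → ℝ, FinEnergy 𝔖 F → F a = 0 → F b = 1 → F ≠ f → energy 𝔖 f < energy 𝔖 F

/-- the Hilbert space of square summable edge functions -/
abbrev EL2 (𝔖 : GenSet Γ) : Type := lp (fun _ : 𝔖.Edge => ℝ) 2

theorem p1_memlp {c : 𝔖.Edge → ℝ} (h : Summable fun e => c e ^ 2) : Memℓp c 2 := by
  rw [memℓp_gen_iff (by norm_num)]
  simpa using h

theorem p1_summable_sq (x : EL2 𝔖) : Summable fun e => x e ^ 2 := by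
  have := (memℓp_gen_iff (p := 2) (by norm_num)).1 (lp.memℓp x)
  simpa using this

/-- gradient as an element of `l2` -/
noncomputable def gradL {F : Γ → ℝ} (hF : FinEnergy 𝔖 F) : EL2 𝔖 := ⟨fun e => grad F e, p1_memlp hF⟩

@[simp] theorem gradL_apply {F : Γ → ℝ} (hF : FinEnergy 𝔖 F) (e : 𝔖.Edge) : gradL hF e = grad F e := rfl

theorem p1_inner (x y : EL2 𝔖) : inner ℝ x y = ∑' e, x e * y e := by
  rw [lp.inner_eq_tsum]
  congr 1
  funext e
  simp [mul_comm]

theorem p1_norm_sq (x : EL2 𝔖) : ‖x‖ ^ 2 = ∑' e, x e ^ 2 := by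
  rw [← real_inner_self_eq_norm_sq, p1_inner]
  congr 1
  funext e
  ring

theorem p1_energy {F : Γ → ℝ} (hF : FinEnergy 𝔖 F) : energy 𝔖 F = ‖gradL hF‖ ^ 2 := by
  rw [p1_norm_sq]; rfl

theorem p1_eval_continuous (e : 𝔖.Edge) : Continuous fun x : EL2 𝔖 => x e :=
  (lp.evalCLM ℝ (fun _ : 𝔖.Edge => ℝ) 2 e).continuous

/-- path functionals -/
theorem p1_exists_P (𝔖 : GenSet Γ) (a v : Γ) : ∃ P : EL2 𝔖 →L[ℝ] ℝ, ∀ (φ : Γ → ℝ) (x : EL2 𝔖),
    (∀ e, x e = grad φ e) → P x = φ v - φ a := by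
  have h := pathIn_univ 𝔖 a v
  induction h with
  | refl => exact ⟨0, fun φ x _ => by simp⟩
  | @tail b c _ hbc ih =>
    obtain ⟨P, hP⟩ := ih
    obtain ⟨-, -, s, hs, rfl⟩ := hbc
    refine ⟨P + lp.evalCLM ℝ (fun _ : 𝔖.Edge => ℝ) 2 (b, ⟨s, hs⟩), fun φ x hx => ?_⟩
    have h1 : lp.evalCLM ℝ (fun _ : 𝔖.Edge => ℝ) 2 (b, ⟨s, hs⟩) x = x (b, ⟨s, hs⟩) := rfl
    rw [ContinuousLinearMap.add_apply, hP φ x hx, h1, hx]
    simp [grad, etgt, esrc]

/-- the space of gradients, described by the path functionals -/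
def p1_D (P : Γ → EL2 𝔖 →L[ℝ] ℝ) : Submodule ℝ (EL2 𝔖) where
  carrier := {x | ∀ e, x e = P (etgt e) x - P (esrc e) x}
  add_mem' := by
    intro x y hx hy e
    have hx' := hx e
    have hy' := hy e
    simp only [map_add, lp.coeFn_add, Pi.add_apply]
    rw [hx', hy']; ring
  zero_mem' := by
    intro e
    simp
  smul_mem' := by
    intro c x hx e
    have hx' := hx e
    simp only [map_smul, lp.coeFn_smul, Pi.smul_apply, smul_eq_mul]
    rw [hx']; ring

theorem p1_D_closed (P : Γ → EL2 𝔖 →L[ℝ] ℝ) : IsClosed (p1_D P : Set (EL2 𝔖)) := by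
  have : (p1_D P : Set (EL2 𝔖)) = ⋂ e : 𝔖.Edge, {x | x e = P (etgt e) x - P (esrc e) x} := by
    ext x
    simp [p1_D]
  rw [this]
  exact isClosed_iInter fun e => isClosed_eq (p1_eval_continuous e) ((P _).continuous.sub (P _).continuous)

section

variable {a : Γ} {P : Γ → EL2 𝔖 →L[ℝ] ℝ}
  (hP : ∀ v (φ : Γ → ℝ) (x : EL2 𝔖), (∀ e, x e = grad φ e) → P v x = φ v - φ a)

include hP

theorem p1_mem_D_of_grad {x : EL2 𝔖} {φ : Γ → ℝ} (h : ∀ e, x e = grad φ e) : x ∈ p1_D P := by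
  intro e
  rw [hP _ φ x h, hP _ φ x h, h e]
  simp [grad]

omit hP in
theorem p1_grad_of_mem_D {x : EL2 𝔖} (h : x ∈ p1_D P) (e : 𝔖.Edge) : x e = grad (fun v => P v x) e := h e

theorem p1_P_base {x : EL2 𝔖} (h : x ∈ p1_D P) : P a x = 0 := by
  have := hP a (fun v => P v x) x (p1_grad_of_mem_D h)
  simpa using this

omit hP in
theorem p1_finEnergy_of_mem_D {x : EL2 𝔖} (h : x ∈ p1_D P) : FinEnergy 𝔖 (fun v => P v x) := by
  have h1 := p1_summable_sq x
  have : (fun e => x e ^ 2) = fun e : 𝔖.Edge => grad (fun v => P v x) e ^ 2 := by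
    funext e; rw [p1_grad_of_mem_D h e]
  rw [this] at h1
  exact h1

/-- the constraint set -/
def p1_K (P : Γ → EL2 𝔖 →L[ℝ] ℝ) (b : Γ) : Set (EL2 𝔖) := {x | x ∈ p1_D P ∧ P b x = 1}

omit hP in
theorem p1_K_closed (b : Γ) : IsClosed (p1_K P b) :=
  (p1_D_closed P).inter (isClosed_eq (P b).continuous continuous_const)

omit hP in
theorem p1_K_convex (b : Γ) : Convex ℝ (p1_K P b) := by
  intro x hx y hy s t _ _ hst
  refine ⟨(p1_D P).add_mem ((p1_D P).smul_mem s hx.1) ((p1_D P).smul_mem t hy.1), ?_⟩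
  simp only [map_add, map_smul, smul_eq_mul, hx.2, hy.2]
  linarith

theorem p1_gradL_mem_K {b : Γ} {F : Γ → ℝ} (hF : FinEnergy 𝔖 F) (ha : F a = 0) (hb : F b = 1) : gradL hF ∈ p1_K P b := by
  refine ⟨p1_mem_D_of_grad hP (φ := F) fun e => rfl, ?_⟩
  rw [hP b F (gradL hF) fun e => rfl, ha, hb]; norm_num

theorem p1_K_nonempty {b : Γ} (hab : a ≠ b) : (p1_K P b).Nonempty := by
  classical
  have hfin : (Function.support fun v : Γ => if v = b then (1 : ℝ) else 0).Finite := by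
    refine (Set.finite_singleton b).subset ?_
    intro v hv
    by_contra h
    simp only [mem_singleton_iff] at h
    simp [h] at hv
  exact ⟨gradL (finEnergy_of_support_finite hfin), p1_gradL_mem_K hP _ (by simp [hab]) (by simp)⟩

/-- existence of the minimiser, with its variational inequality -/
theorem p1_exists_min {b : Γ} (hab : a ≠ b) :
    ∃ v ∈ p1_K P b, (∀ w ∈ p1_K P b, 0 ≤ inner ℝ v (w - v)) ∧ IsMinimiser 𝔖 a b (fun u => P u v) := by
  obtain ⟨v, hvK, hmin⟩ := exists_norm_eq_iInf_of_complete_convex (p1_K_nonempty hP hab) (p1_K_closed b).isComplete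
    (p1_K_convex b) 0
  have hvar := (norm_eq_iInf_iff_real_inner_le_zero (p1_K_convex b) hvK).1 hmin
  have hvar' : ∀ w ∈ p1_K P b, 0 ≤ inner ℝ v (w - v) := by
    intro w hw
    have := hvar w hw
    rw [zero_sub, inner_neg_left] at this
    linarith
  refine ⟨v, hvK, hvar', hab, p1_finEnergy_of_mem_D hvK.1, p1_P_base hP hvK.1, hvK.2, ?_⟩
  intro F hF hFa hFb hne
  have hf := p1_finEnergy_of_mem_D hvK.1
  have hv : gradL hf = v := by
    ext e
    exact (p1_grad_of_mem_D hvK.1 e).symm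
  rw [p1_energy hF, p1_energy hf, hv]
  set w := gradL hF with hw
  have hwK : w ∈ p1_K P b := p1_gradL_mem_K hP hF hFa hFb
  have hwv : w ≠ v := by
    intro h
    apply hne
    refine eq_of_grad_eq (𝔖 := 𝔖) (fun e => ?_) a ?_
    · have : w e = v e := by rw [h]
      rw [p1_grad_of_mem_D hvK.1 e] at this
      exact this
    · rw [hFa]; exact (p1_P_base hP hvK.1).symm
  have h1 : ‖w‖ ^ 2 = ‖v‖ ^ 2 + 2 * inner ℝ v (w - v) + ‖w - v‖ ^ 2 := by
    have : w = v + (w - v) := by abel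
    conv_lhs => rw [this]
    rw [norm_add_sq_real]
  have h2 : 0 < ‖w - v‖ ^ 2 := by
    have : 0 < ‖w - v‖ := norm_pos_iff.2 (sub_ne_zero.2 hwv)
    positivity
  have h3 := hvar' w hwK
  linarith

end

/-- gradients of finitely supported functions -/
def p1_D00 (𝔖 : GenSet Γ) : Submodule ℝ (EL2 𝔖) where
  carrier := {x | ∃ φ : Γ → ℝ, (Function.support φ).Finite ∧ ∀ e, x e = grad φ e}
  add_mem' := by
    rintro x y ⟨φ, hφ, hx⟩ ⟨ψ, hψ, hy⟩
    refine ⟨fun v => φ v + ψ v, (hφ.union hψ).subset (Function.support_add φ ψ), fun e => ?_⟩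
    simp only [lp.coeFn_add, Pi.add_apply, hx e, hy e, grad]
    ring
  zero_mem' := ⟨fun _ => 0, by simp, fun e => by simp [grad]⟩
  smul_mem' := by
    rintro c x ⟨φ, hφ, hx⟩
    refine ⟨fun v => c * φ v, hφ.subset ?_, fun e => ?_⟩
    · intro v hv
      simp only [Function.mem_support] at hv ⊢
      exact fun h => hv (by rw [h, mul_zero])
    · simp only [lp.coeFn_smul, Pi.smul_apply, smul_eq_mul, hx e, grad]
      ring

theorem p1_tsum_sub {F φ : Γ → ℝ} (hF : FinEnergy 𝔖 F) (hφ : FinEnergy 𝔖 φ) :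
    ∑' e : 𝔖.Edge, (grad F e - grad φ e) ^ 2 = ‖gradL hF - gradL hφ‖ ^ 2 := by
  rw [p1_norm_sq]
  rfl

theorem p1_mem_closure_of_inD0 {F : Γ → ℝ} (hF : FinEnergy 𝔖 F) (h : InD0 𝔖 F) :
    gradL hF ∈ (p1_D00 𝔖).topologicalClosure := by
  change gradL hF ∈ closure (p1_D00 𝔖 : Set (EL2 𝔖))
  rw [Metric.mem_closure_iff]
  intro ε hε
  obtain ⟨φ, hφ, hlt⟩ := h (ε ^ 2) (by positivity)
  have hφE := finEnergy_of_support_finite (𝔖 := 𝔖) hφ
  refine ⟨gradL hφE, ⟨φ, hφ, fun e => rfl⟩, ?_⟩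
  rw [p1_tsum_sub hF hφE] at hlt
  rw [dist_eq_norm]
  exact lt_of_pow_lt_pow_left₀ 2 hε.le hlt

theorem p1_inD0_of_mem_closure {F : Γ → ℝ} (hF : FinEnergy 𝔖 F) (h : gradL hF ∈ (p1_D00 𝔖).topologicalClosure) :
    InD0 𝔖 F := by
  change gradL hF ∈ closure (p1_D00 𝔖 : Set (EL2 𝔖)) at h
  rw [Metric.mem_closure_iff] at h
  intro ε hε
  obtain ⟨y, ⟨φ, hφ, hy⟩, hlt⟩ := h (Real.sqrt ε) (Real.sqrt_pos.2 hε)
  have hφE := finEnergy_of_support_finite (𝔖 := 𝔖) hφ
  have hy' : y = gradL hφE := by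
    ext e; exact hy e
  refine ⟨φ, hφ, ?_⟩
  rw [p1_tsum_sub hF hφE, ← hy', ← dist_eq_norm]
  calc dist (gradL hF) y ^ 2 < Real.sqrt ε ^ 2 := by
        exact pow_lt_pow_left₀ hlt dist_nonneg (by norm_num)
    _ = ε := Real.sq_sqrt hε.le

/-- **first half of Lemma 3.1** -/
theorem exists_minimiser (h : FEHyp 𝔖) : ∃ (a b : Γ) (f : Γ → ℝ), IsMinimiser 𝔖 a b f ∧ ¬ InD0 𝔖 f := by
  classical
  set a : Γ := 1 with ha
  choose P hP using fun v => p1_exists_P 𝔖 a v
  obtain ⟨F₀, hF₀, hF₀D⟩ := h.nontriv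
  set D0 := (p1_D00 𝔖).topologicalClosure with hD0
  have hD0closed : IsClosed (D0 : Set (EL2 𝔖)) := (p1_D00 𝔖).isClosed_topologicalClosure
  have hD0D : D0 ≤ p1_D P := by
    refine Submodule.topologicalClosure_minimal _ ?_ (p1_D_closed P)
    rintro x ⟨φ, -, hx⟩
    exact p1_mem_D_of_grad hP hx
  set x₀ := gradL hF₀ with hx₀
  have hx₀D0 : x₀ ∉ D0 := fun hmem => hF₀D (p1_inD0_of_mem_closure hF₀ hmem)
  obtain ⟨x₁, hx₁, hmin⟩ := D0.exists_norm_eq_iInf_of_complete_subspace hD0closed.isComplete x₀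
  have horth := (D0.norm_eq_iInf_iff_real_inner_eq_zero hx₁).1 hmin
  set y := x₀ - x₁ with hy
  have hy0 : y ≠ 0 := by
    intro h0
    apply hx₀D0
    have : x₀ = x₁ := sub_eq_zero.1 h0
    rw [this]; exact hx₁
  have hyD : y ∈ p1_D P := (p1_D P).sub_mem (p1_mem_D_of_grad hP (φ := F₀) fun e => rfl) (hD0D hx₁)
  -- a vertex where the potential of `y` does not vanish
  obtain ⟨b, hb⟩ : ∃ b, P b y ≠ 0 := by
    by_contra hcon
    push Not at hcon
    apply hy0
    ext e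
    rw [hyD e, hcon, hcon]
    simp
  have hab : a ≠ b := by
    intro hab
    apply hb
    rw [← hab]
    exact p1_P_base hP hyD
  obtain ⟨v, hvK, hvar, hmin'⟩ := p1_exists_min hP hab
  refine ⟨a, b, _, hmin', fun hin => ?_⟩
  have hf := hmin'.fin
  have hv : gradL hf = v := by
    ext e
    exact (p1_grad_of_mem_D hvK.1 e).symm
  have hvD0 : v ∈ D0 := by
    rw [← hv]; exact p1_mem_closure_of_inD0 hf hin
  have h0 : inner ℝ y v = 0 := horth v hvD0
  set c := P b y with hc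
  have hz : y - c • v ∈ p1_D P := (p1_D P).sub_mem hyD ((p1_D P).smul_mem c hvK.1)
  have hPz : P b (y - c • v) = 0 := by
    rw [map_sub, map_smul, hvK.2]
    simp [hc]
  have h1 := hvar (v + (y - c • v)) ⟨(p1_D P).add_mem hvK.1 hz, by rw [map_add, hvK.2, hPz, add_zero]⟩
  have h2 := hvar (v - (y - c • v)) ⟨(p1_D P).sub_mem hvK.1 hz, by rw [map_sub, hvK.2, hPz, sub_zero]⟩
  rw [add_sub_cancel_left] at h1
  rw [sub_sub_cancel_left, inner_neg_right] at h2
  have h3 : inner ℝ v (y - c • v) = 0 := le_antisymm (by linarith) h1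
  rw [inner_sub_right, inner_smul_right, real_inner_comm, h0, real_inner_self_eq_norm_sq] at h3
  have h4 : ‖v‖ ^ 2 = 0 := by
    have : c * ‖v‖ ^ 2 = 0 := by linarith
    rcases mul_eq_zero.1 this with h5 | h5
    · exact absurd h5 hb
    · exact h5
  have h5 : v = 0 := by
    have : ‖v‖ = 0 := by
      exact pow_eq_zero_iff (n := 2) (by norm_num) |>.1 h4
    exact norm_eq_zero.1 this
  have h6 := hvK.2
  rw [h5, map_zero] at h6
  norm_num at h6

end Claimed.Agent.R309
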