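import Claimed.Agent.R309.S34.Pot1

/-!
# Row 309, S34, package **S34-B2 (Pot2+Pot3)**: properties of the minimiser (second half of Lemma 3.1, Lemma 3.2).

Owner: helper146.  Prefix `p2_`.  Uses `Graph.lean`, `L2.lean`, `Pot1.lean` as black boxes.
-/

set_option autoImplicit false

namespace Claimed.Agent.R309

open Filter Topology Set

variable {Γ : Type} [Group Γ] {𝔖 : GenSet Γ}

theorem p2_grad_one_sub (F : Γ → ℝ) (e : 𝔖.Edge) : grad (fun v => 1 - F v) e = - grad F e := by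
  simp [grad]

theorem p2_energy_one_sub (F : Γ → ℝ) : energy 𝔖 (fun v => 1 - F v) = energy 𝔖 F := by
  unfold energy
  congr 1
  funext e
  rw [p2_grad_one_sub, neg_sq]

theorem p2_fin_one_sub {F : Γ → ℝ} (hF : FinEnergy 𝔖 F) : FinEnergy 𝔖 (fun v => 1 - F v) := by
  have h : Summable fun e : 𝔖.Edge => grad F e ^ 2 := hF
  have : (fun e : 𝔖.Edge => grad (fun v => 1 - F v) e ^ 2) = fun e : 𝔖.Edge => grad F e ^ 2 := by
    funext e
    rw [p2_grad_one_sub, neg_sq]
  unfold FinEnergy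
  rw [this]
  exact h

/-- symmetry `f ↦ 1 - f`, `(a, b) ↦ (b, a)` -/
theorem IsMinimiser.symm {a b : Γ} {f : Γ → ℝ} (h : IsMinimiser 𝔖 a b f) : IsMinimiser 𝔖 b a (fun v => 1 - f v) := by
  refine ⟨h.ne.symm, p2_fin_one_sub h.fin, by simp [h.val_b], by simp [h.val_a], ?_⟩
  intro F hF hFb hFa hne
  rw [p2_energy_one_sub, ← p2_energy_one_sub F]
  refine h.lt _ (p2_fin_one_sub hF) (by simp [hFa]) (by simp [hFb]) ?_
  intro heq
  apply hne
  funext v
  have : 1 - F v = f v := congrFun heq v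
  linarith

theorem p2_clamp_lip (lo hi x y : ℝ) : |min hi (max lo x) - min hi (max lo y)| ≤ |x - y| := by
  refine (abs_min_sub_min_le_max _ _ _ _).trans ?_
  rw [sub_self, abs_zero]
  refine max_le (abs_nonneg _) ?_
  rw [max_comm lo x, max_comm lo y]
  exact abs_max_sub_max_le_abs _ _ _

theorem IsMinimiser.range {a b : Γ} {f : Γ → ℝ} (h : IsMinimiser 𝔖 a b f) (v : Γ) : 0 ≤ f v ∧ f v ≤ 1 := by
  set F : Γ → ℝ := fun v => min 1 (max 0 (f v)) with hF
  have hle : ∀ e : 𝔖.Edge, |grad F e| ≤ |grad f e| := fun e => p2_clamp_lip 0 1 _ _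
  obtain ⟨hfin, hen⟩ := h.fin.of_le hle
  have heq : F = f := by
    by_contra hne
    have := h.lt F hfin (by simp [hF, h.val_a]) (by simp [hF, h.val_b]) hne
    linarith
  have hv : f v = min 1 (max 0 (f v)) := (congrFun heq v).symm
  constructor
  · rw [hv]; exact le_min zero_le_one (le_max_left _ _)
  · rw [hv]; exact min_le_left _ _

/-- truncation to `[-δ, δ]` -/
noncomputable def p2_trunc (δ x : ℝ) : ℝ := min δ (max (-δ) x)

theorem p2_trunc_abs_le {δ : ℝ} (hδ : 0 ≤ δ) (x : ℝ) : |p2_trunc δ x| ≤ δ := by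
  unfold p2_trunc
  rw [abs_le]
  exact ⟨le_min (by linarith) (le_max_left _ _), min_le_left _ _⟩

theorem p2_trunc_eq {δ x : ℝ} (h : |x| < δ) : p2_trunc δ x = x := by
  unfold p2_trunc
  rw [abs_lt] at h
  rw [max_eq_right h.1.le, min_eq_right h.2.le]

/-- **soft thresholding** -/
theorem inD0_of_tendsto {F : Γ → ℝ} (hF : FinEnergy 𝔖 F) {c : ℝ} (h : Tendsto F cofinite (𝓝 c)) : InD0 𝔖 F := by
  intro ε hε
  set τ : ℝ → 𝔖.Edge → ℝ := fun δ e => p2_trunc δ (F (etgt e) - c) - p2_trunc δ (F (esrc e) - c) with hτ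
  have hF' : Summable fun e : 𝔖.Edge => grad F e ^ 2 := hF
  have hlim : Tendsto (fun δ : ℝ => ∑' e : 𝔖.Edge, τ δ e ^ 2) (𝓝[>] 0) (𝓝 (∑' _ : 𝔖.Edge, (0 : ℝ))) := by
    refine tendsto_tsum_of_dominated_convergence (bound := fun e : 𝔖.Edge => grad F e ^ 2) hF' ?_ ?_
    · intro e
      have h1 : Tendsto (fun δ : ℝ => (2 * δ) ^ 2) (𝓝[>] 0) (𝓝 0) := by
        have : Tendsto (fun δ : ℝ => (2 * δ) ^ 2) (𝓝 0) (𝓝 ((2 * 0) ^ 2)) :=
          ((continuous_const.mul continuous_id).pow 2).tendsto 0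
        simp only [mul_zero, ne_eq, OfNat.ofNat_ne_zero, not_false_eq_true, zero_pow] at this
        exact tendsto_nhdsWithin_of_tendsto_nhds this
      refine squeeze_zero' (Eventually.of_forall fun δ => sq_nonneg _) ?_ h1
      filter_upwards [self_mem_nhdsWithin] with δ hδ
      have hδ' : (0 : ℝ) ≤ δ := le_of_lt hδ
      have h2 := p2_trunc_abs_le hδ' (F (etgt e) - c)
      have h3 := p2_trunc_abs_le hδ' (F (esrc e) - c)
      have h4 : |τ δ e| ≤ 2 * δ := by
        calc |τ δ e| ≤ |p2_trunc δ (F (etgt e) - c)| + |p2_trunc δ (F (esrc e) - c)| := abs_sub _ _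
          _ ≤ 2 * δ := by linarith
      rw [← sq_abs]
      exact pow_le_pow_left₀ (abs_nonneg _) h4 2
    · refine Eventually.of_forall fun δ e => ?_
      rw [Real.norm_of_nonneg (sq_nonneg _), ← sq_abs, ← sq_abs (grad F e)]
      refine pow_le_pow_left₀ (abs_nonneg _) ?_ 2
      have := p2_clamp_lip (-δ) δ (F (etgt e) - c) (F (esrc e) - c)
      have e1 : F (etgt e) - c - (F (esrc e) - c) = grad F e := by simp [grad]
      rw [e1] at this
      exact this
  rw [tsum_zero] at hlim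
  have hev := (hlim.eventually (gt_mem_nhds hε)).and self_mem_nhdsWithin
  obtain ⟨δ, hδ1, hδ2⟩ := hev.exists
  have hδ : (0 : ℝ) < δ := hδ2
  refine ⟨fun v => (F v - c) - p2_trunc δ (F v - c), ?_, ?_⟩
  · have h1 := h.eventually (Metric.ball_mem_nhds c hδ)
    have h2 : {v | ¬ F v ∈ Metric.ball c δ}.Finite := h1
    refine h2.subset ?_
    intro v hv hmem
    apply hv
    rw [Metric.mem_ball, Real.dist_eq] at hmem
    simp only
    rw [p2_trunc_eq hmem, sub_self]
  · have : (fun e : 𝔖.Edge => (grad F e - grad (fun v => (F v - c) - p2_trunc δ (F v - c)) e) ^ 2) = fun e => τ δ e ^ 2 := by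
      funext e
      simp only [grad, hτ]
      ring
    rw [this]
    exact hδ1

/-- **upper level sides are connected** -/
theorem IsMinimiser.upper_connected {a b : Γ} {f : Γ → ℝ} (h : IsMinimiser 𝔖 a b f) {t : ℝ} (ht : t ∈ Ioo (0 : ℝ) 1) :
    VConnected 𝔖 {v | t < f v} := by
  classical
  have key : ∀ u, t < f u → PathIn 𝔖 {v | t < f v} u b := by
    intro u hu
    by_contra hcon
    set U : Set Γ := {w | PathIn 𝔖 {v | t < f v} u w} with hU
    have hUsub : ∀ w ∈ U, t < f w := fun w hw => PathIn.mem_right (U := {v | t < f v}) hw hu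
    have huU : u ∈ U := Relation.ReflTransGen.refl
    have hbU : b ∉ U := hcon
    have haU : a ∉ U := fun h' => by
      have := hUsub a h'
      rw [h.val_a] at this
      linarith [ht.1]
    set F : Γ → ℝ := fun v => if v ∈ U then t else f v with hF
    have hleave : ∀ x ∈ U, ∀ s ∈ 𝔖.S, x * s ∉ U → f (x * s) ≤ t := by
      intro x hx s hs hxs
      by_contra hlt
      push Not at hlt
      exact hxs (PathIn.trans hx (Relation.ReflTransGen.single ⟨hUsub x hx, hlt, s, hs, rfl⟩))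
    have hout : ∀ e : 𝔖.Edge, esrc e ∈ U → etgt e ∉ U → f (etgt e) ≤ t := fun e h1 h2 => hleave _ h1 _ e.2.2 h2
    have hin : ∀ e : 𝔖.Edge, esrc e ∉ U → etgt e ∈ U → f (esrc e) ≤ t := by
      intro e h1 h2
      have := hout (erev e) (by rwa [esrc_erev]) (by rwa [etgt_erev])
      rwa [etgt_erev] at this
    have hle : ∀ e : 𝔖.Edge, |grad F e| ≤ |grad f e| := by
      intro e
      by_cases h1 : esrc e ∈ U <;> by_cases h2 : etgt e ∈ U
      · simp [grad, hF, h1, h2]
      · have h3 := hout e h1 h2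
        have h4 := hUsub _ h1
        simp only [grad, hF, h1, h2, if_true, if_false]
        rw [abs_of_nonpos (by linarith), abs_of_nonpos (by linarith)]
        linarith
      · have h3 := hin e h1 h2
        have h4 := hUsub _ h2
        simp only [grad, hF, h1, h2, if_true, if_false]
        rw [abs_of_nonneg (by linarith), abs_of_nonneg (by linarith)]
        linarith
      · simp [grad, hF, h1, h2]
    obtain ⟨w, s, -, hwU, hwsU, -⟩ := PathIn.first_exit (pathIn_univ 𝔖 u a) huU haU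
    have hlt : |grad F ((w, s) : 𝔖.Edge)| < |grad f ((w, s) : 𝔖.Edge)| := by
      have h1 : esrc ((w, s) : 𝔖.Edge) ∈ U := hwU
      have h2 : etgt ((w, s) : 𝔖.Edge) ∉ U := hwsU
      have h3 := hout _ h1 h2
      have h4 := hUsub _ h1
      simp only [grad, hF, h1, h2, if_true, if_false]
      rw [abs_of_nonpos (by linarith), abs_of_nonpos (by linarith)]
      linarith
    have hen := energy_lt_of_le_of_lt h.fin hle _ hlt
    by_cases hFf : F = f
    · rw [hFf] at hen
      exact lt_irrefl _ hen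
    · have := h.lt F (h.fin.of_le hle).1 (by simp [hF, haU, h.val_a]) (by simp [hF, hbU, h.val_b]) hFf
      linarith
  intro u hu v hv
  exact (key u hu).trans (key v hv).symm

theorem IsMinimiser.lower_connected {a b : Γ} {f : Γ → ℝ} (h : IsMinimiser 𝔖 a b f) {t : ℝ} (ht : t ∈ Ioo (0 : ℝ) 1) :
    VConnected 𝔖 {v | f v < t} := by
  have h1 := h.symm.upper_connected (t := 1 - t) ⟨by linarith [ht.2], by linarith [ht.1]⟩
  have : {v | 1 - t < 1 - f v} = {v | f v < t} := by
    ext v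
    simp only [mem_ofPred_eq]
    constructor <;> intro h <;> linarith
  rwa [this] at h1

theorem p2_sub_comm (x y : ZMod 2) : x - y = y - x := by
  rw [CharTwo.sub_eq_add, CharTwo.sub_eq_add, add_comm]

/-- **dual connectivity of a cut with connected sides** -/
theorem cut_duallyConnected (hsc : SC 𝔖 (ZMod 2)) (F : Γ → ℝ) (t : ℝ) (ht : Regular F t)
    (hlo : VConnected 𝔖 {v | F v < t}) (hhi : VConnected 𝔖 {v | t < F v}) : DuallyConnected (cut 𝔖 F t) := by
  classical
  intro e₀ he₀ e₁ he₁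
  set K : Set 𝔖.Edge := {e | DualPathIn (cut 𝔖 F t) e₀ e} with hK
  set c : 𝔖.Edge → ZMod 2 := fun e => if e ∈ K then 1 else 0 with hc
  set χ : Γ → ZMod 2 := fun v => if t < F v then 1 else 0 with hχ
  have hside : ∀ v, F v < t ∨ t < F v := fun v => lt_or_gt_of_ne (ht v)
  have hχcut : ∀ e : 𝔖.Edge, grad χ e = if e ∈ cut 𝔖 F t then 1 else 0 := by
    intro e
    simp only [grad, hχ, mem_cut_iff]
    rcases hside (esrc e) with h1 | h1 <;> rcases hside (etgt e) with h2 | h2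
    · simp [h1, h2, not_lt.2 h1.le, not_lt.2 h2.le]
    · simp [h1, h2, not_lt.2 h1.le, not_lt.2 h2.le]
    · simp [h1, h2, not_lt.2 h1.le, not_lt.2 h2.le]
    · simp [h1, h2, not_lt.2 h1.le, not_lt.2 h2.le]
  have hKcut : ∀ e ∈ K, e ∈ cut 𝔖 F t := by
    intro e he
    rcases Relation.ReflTransGen.cases_tail he with h | ⟨_, -, -, h, -⟩
    · rw [h]; exact he₀
    · exact h
  have hKcl : ∀ e ∈ K, ∀ e' ∈ cut 𝔖 F t, Near e e' → e' ∈ K := fun e he e' he' hn =>
    Relation.ReflTransGen.tail he ⟨hKcut e he, he', hn⟩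
  have hcoc : IsCocycle c := by
    intro g s₁ s₂ h
    have htel : grad χ ((g, s₁) : 𝔖.Edge) + grad χ ((g * s₁.1, s₂) : 𝔖.Edge) = grad χ ((g, ⟨s₁.1 * s₂.1, h⟩) : 𝔖.Edge) := by
      simp [grad, etgt, esrc, mul_assoc]
    have hm1 : ((g, s₁) : 𝔖.Edge) ∈ triEdges g s₁ s₂ h := by simp [triEdges]
    have hm2 : ((g * s₁.1, s₂) : 𝔖.Edge) ∈ triEdges g s₁ s₂ h := by simp [triEdges]
    have hm3 : ((g, ⟨s₁.1 * s₂.1, h⟩) : 𝔖.Edge) ∈ triEdges g s₁ s₂ h := by simp [triEdges]
    by_cases hex : ∃ e ∈ triEdges g s₁ s₂ h, e ∈ K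
    · obtain ⟨e, heT, heK⟩ := hex
      have hiff : ∀ e' ∈ triEdges g s₁ s₂ h, c e' = grad χ e' := by
        intro e' he'
        rw [hχcut]
        by_cases h1 : e' ∈ cut 𝔖 F t
        · simp [hc, h1, hKcl e heK e' h1 (near_of_tri g s₁ s₂ h heT he')]
        · have : e' ∉ K := fun h2 => h1 (hKcut e' h2)
          simp [hc, h1, this]
      rw [hiff _ hm1, hiff _ hm2, hiff _ hm3, htel]
    · push Not at hex
      simp [hc, hex _ hm1, hex _ hm2, hex _ hm3]
  obtain ⟨φ, hφ⟩ := hsc c hcoc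
  have hconst : ∀ (U : Set Γ), (∀ e : 𝔖.Edge, esrc e ∈ U → etgt e ∈ U → e ∉ cut 𝔖 F t) → ∀ u v, PathIn 𝔖 U u v → φ v = φ u := by
    intro U hU u v huv
    refine PathIn.const huv φ ?_
    intro x hx s hs hxs
    have h1 : ((x, ⟨s, hs⟩) : 𝔖.Edge) ∉ K := fun h2 => hU (x, ⟨s, hs⟩) hx hxs (hKcut _ h2)
    have h2 := hφ (x, ⟨s, hs⟩)
    simp only [hc, h1, if_false, grad, etgt, esrc] at h2
    exact (sub_eq_zero.1 h2.symm)
  have hloc := hconst {v | F v < t} (by
    intro e h1 h2 h3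
    rw [mem_cut_iff] at h3
    simp only [mem_ofPred_eq] at h1 h2
    rcases h3 with h3 | h3 <;> linarith [h3.1, h3.2])
  have hhic := hconst {v | t < F v} (by
    intro e h1 h2 h3
    rw [mem_cut_iff] at h3
    simp only [mem_ofPred_eq] at h1 h2
    rcases h3 with h3 | h3 <;> linarith [h3.1, h3.2])
  -- low and high endpoints
  have hends : ∀ e ∈ cut 𝔖 F t, ∃ x y, F x < t ∧ t < F y ∧ c e = φ y - φ x := by
    intro e he
    rw [mem_cut_iff] at he
    rcases he with h1 | h1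
    · exact ⟨esrc e, etgt e, h1.1, h1.2, hφ e⟩
    · exact ⟨etgt e, esrc e, h1.1, h1.2, by rw [hφ e, grad, p2_sub_comm]⟩
  obtain ⟨x₀, y₀, hx₀, hy₀, h0⟩ := hends e₀ he₀
  obtain ⟨x₁, y₁, hx₁, hy₁, h1⟩ := hends e₁ he₁
  have hc0 : c e₀ = 1 := by
    have : e₀ ∈ K := Relation.ReflTransGen.refl
    simp [hc, this]
  have hc1 : c e₁ = 1 := by
    rw [h1, hloc x₀ x₁ (hlo x₀ hx₀ x₁ hx₁), hhic y₀ y₁ (hhi y₀ hy₀ y₁ hy₁), ← h0, hc0]
  by_contra hcon
  have : e₁ ∉ K := hcon
  simp [hc, this] at hc1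

variable (𝔖) in
/-- the potential of Lemma 3.1, in the form used later -/
structure IsPot (f : Γ → ℝ) : Prop where
  range : ∀ v, 0 ≤ f v ∧ f v ≤ 1
  fin : FinEnergy 𝔖 f
  nonconst : ¬ ∃ c : ℝ, Tendsto f cofinite (𝓝 c)
  dual : ∀ t ∈ Ioo (0 : ℝ) 1, Regular f t → DuallyConnected (cut 𝔖 f t)

/-- **Lemma 3.1** -/
theorem potential_exists (h : FEHyp 𝔖) : ∃ f : Γ → ℝ, IsPot 𝔖 f := by
  obtain ⟨a, b, f, hf, hD⟩ := exists_minimiser h
  exact ⟨f, hf.range, hf.fin, fun ⟨c, hc⟩ => hD (inD0_of_tendsto hf.fin hc), fun t ht hr =>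
    cut_duallyConnected h.sc_two f t hr (hf.lower_connected ht) (hf.upper_connected ht)⟩

/-- values of the base coordinates -/
theorem baseCoord_mem {f : Γ → ℝ} (hf : ∀ v, 0 ≤ f v ∧ f v ≤ 1) (i : Γ ⊕ Γ) (v : Γ) : baseCoord f i v ∈ Icc (0 : ℝ) 1 := by
  classical
  rcases i with g | w
  · exact hf _
  · simp only [baseCoord]
    split_ifs <;> simp

theorem baseCoord_finEnergy {f : Γ → ℝ} (hf : FinEnergy 𝔖 f) (i : Γ ⊕ Γ) : FinEnergy 𝔖 (baseCoord f i) := by
  classical
  rcases i with g | w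
  · exact finEnergy_trF g hf
  · refine finEnergy_of_support_finite ((Set.finite_singleton w).subset ?_)
    intro v hv
    by_contra h
    simp only [mem_singleton_iff] at h
    simp [baseCoord, h] at hv

/-- equivariance of the base coordinates -/
theorem baseCoord_trIdx (f : Γ → ℝ) (g : Γ) (i : Γ ⊕ Γ) (v : Γ) : baseCoord f (trIdx g i) (g * v) = baseCoord f i v := by
  classical
  rcases i with k | w
  · simp [baseCoord, trIdx, trF, mul_assoc]
  · simp [baseCoord, trIdx]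

/-- **Lemma 3.2** -/
theorem base_cut {f : Γ → ℝ} (hf : IsPot 𝔖 f) (i : Γ ⊕ Γ) (t : ℝ) (ht : Regular (baseCoord f i) t) :
    DuallyConnected (cut 𝔖 (baseCoord f i) t) ∨ (cut 𝔖 (baseCoord f i) t).Finite := by
  classical
  rcases i with g | w
  · left
    by_cases h01 : t ∈ Ioo (0 : ℝ) 1
    · have h1 : Regular f t := (regular_trF g f t).1 ht
      have h2 : cut 𝔖 (baseCoord f (Sum.inl g)) t = etr g '' cut 𝔖 f t := cut_trF g f t
      rw [h2]
      exact (hf.dual t h01 h1).image_etr g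
    · rw [cut_eq_empty_of_range (fun v => baseCoord_mem hf.range (Sum.inl g) v) h01]
      exact duallyConnected_empty
  · right
    refine (edges_at_finite {w} (Set.finite_singleton w)).subset ?_
    intro e he
    by_contra hcon
    simp only [mem_ofPred_eq, mem_singleton_iff, not_or] at hcon
    rw [mem_cut_iff] at he
    simp only [baseCoord, hcon.1, hcon.2, if_false] at he
    rcases he with h | h <;> linarith [h.1, h.2]

end Claimed.Agent.R309
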